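import Vale.Agent.P092.H628.TorBound
import Vale.Agent.P092.H632.VolG
import Vale.Agent.P092.H776.ErgM
import Vale.Agent.P092.SR.Main

/-!
From the torsion theorem to the ergodicity of the comultiplication for arbitrary ICC groups `Λ`.
-/

set_option linter.all false

open scoped InnerProductSpace ENNReal
open Filter Topology ContinuousLinearMap Matrix

namespace Vale.Agent.P092.H628

open Vale.Agent.P092.H160 Vale.Agent.P092.SR Vale.Agent.P092.H776

/-- The torsion theorem. -/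
def TorStmt : Prop :=
  ∀ {Γ Λ H : Type} [Group Γ] [Group Λ] [NormedAddCommGroup H] [InnerProductSpace ℂ H]
    [CompleteSpace H] (lam : Γ →* (H →L[ℂ] H)) (R : Λ →* (H →L[ℂ] H)) (ξ : H)
    (𝒰 : Set (Subgroup Γ)) (Θ₀ : Subgroup Γ), Sys lam R ξ 𝒰 → VolBd 𝒰 Θ₀ →
    (∀ g : Λ, g ≠ 1 → Set.Infinite {y : Λ | ∃ h, y = h * g * h⁻¹}) →
    ∀ s : Λ, s ≠ 1 → ∀ X : H →L[ℂ] H, Qd lam R ξ 𝒰 (Subgroup.centralizer {s}) X → X = 0

section frame

variable {Γ Λ : Type} [Group Γ] [Group Λ] {α : Γ →* (Ell2 Λ →L[ℂ] Ell2 Λ)}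

/-- If `Γ` is ICC then so is `Λ`. -/
theorem icc_of_frame (hα : Frame α)
    (hicc : ∀ g : Γ, g ≠ 1 → Set.Infinite {y : Γ | ∃ h, y = h * g * h⁻¹}) :
    ∀ s : Λ, s ≠ 1 → Set.Infinite {y : Λ | ∃ h, y = h * s * h⁻¹} := by
  classical
  intro s hs hfin
  have hfin' : Set.Finite {y : Λ | ∃ h, y = h * s * h⁻¹} := hfin
  set F := hfin'.toFinset with hF
  have hmem : ∀ y, y ∈ F ↔ ∃ h, y = h * s * h⁻¹ := fun y => by rw [hF, Set.Finite.mem_toFinset]; rfl
  set T : Ell2 Λ →L[ℂ] Ell2 Λ := ∑ t ∈ F, lam t with hT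
  have h1 : Cmm rhoH T := by
    intro g
    rw [hT, Finset.sum_mul, Finset.mul_sum]
    exact Finset.sum_congr rfl fun t _ => cmm_rho_lam t g
  have h2 : Cmm lamH T := by
    intro x
    have e1 : ∀ t : Λ, lam t * lamH x = lamH x * lam (x⁻¹ * t * x) := by
      intro t
      change lam t * lam x = lam x * lam (x⁻¹ * t * x)
      rw [← lam_mul, ← lam_mul]
      congr 1
      group
    rw [hT, Finset.sum_mul, Finset.mul_sum]
    simp only [e1]
    refine Finset.sum_bij (fun t _ => x⁻¹ * t * x) ?_ ?_ ?_ ?_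
    · intro t ht
      obtain ⟨h, rfl⟩ := (hmem t).mp ht
      exact (hmem _).mpr ⟨x⁻¹ * h, by group⟩
    · intro a _ b _ hab
      simpa using hab
    · intro b hb
      obtain ⟨h, rfl⟩ := (hmem b).mp hb
      exact ⟨x * (h * s * h⁻¹) * x⁻¹, (hmem _).mpr ⟨x * h, by group⟩, by group⟩
    · intro t _; rfl
  have hc : ∀ g s : Λ, lamH g * rhoH s = rhoH s * lamH g := fun g s => (rho_lam s g).symm
  have h3 : ∀ g, T * α g = α g * T := fun g =>
    (RegRep.commute regRep_lam regRep_rho hc (hα.cmm_rho g) h2).symm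
  obtain ⟨c, hcT⟩ := (frame_irr hα Set.univ (fun _ _ => trivial)
    (fun g hg => by simpa using hicc g hg)).irr T (fun s => h1 s) (by
      rintro _ ⟨k, rfl⟩
      exact h3 _)
  have h4 : (T (dl 1)) s = 1 := by
    rw [hT, ContinuousLinearMap.sum_apply]
    have e2 : ∀ t : Λ, lam t (dl (1 : Λ)) = dl t := fun t => by rw [lam_dl, mul_one]
    simp only [e2]
    rw [← inner_dl s, inner_sum, Finset.sum_eq_single s]
    · rw [inner_dl, dl_self]
    · intro t _ hts
      rw [inner_dl, dl_ne (Ne.symm hts)]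
    · intro h
      exact absurd ((hmem s).mpr ⟨1, by simp⟩) h
  have h5 : (T (dl 1)) s = 0 := by
    rw [hcT]
    change c * (dl (1 : Λ) : Ell2 Λ) s = 0
    rw [dl_ne hs, mul_zero]
  rw [h4] at h5
  exact one_ne_zero h5

variable {k : Type} [NontriviallyNormedField k] [IsUltrametricDist k] [ProperSpace k] {N : ℕ}

theorem open_mem_flt {Γ : Type} [Group Γ] (p : Γ →* SpecialLinearGroup (Fin N) k)
    {U : Subgroup (SpecialLinearGroup (Fin N) k)}
    (hU : IsOpen (U : Set (SpecialLinearGroup (Fin N) k))) : U.comap p ∈ H632.flt p := by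
  refine ⟨U ⊓ H632.int N k, hU.inter H632.isOpen_int, ?_, Subgroup.comap_mono inf_le_left⟩
  exact H971.isCompact_of_le (hU.inter H632.isOpen_int) H632.isCompact_int inf_le_right

theorem noCls_SL (hTor : TorStmt) (hN : 2 ≤ N) (hα : Frame α)
    (hicc : ∀ g : Γ, g ≠ 1 → Set.Infinite {y : Γ | ∃ h, y = h * g * h⁻¹})
    {p : Γ →* SpecialLinearGroup (Fin N) k} (hp : DenseRange p) (hinj : Function.Injective p)
    {U : Subgroup (SpecialLinearGroup (Fin N) k)}
    (hU : IsOpen (U : Set (SpecialLinearGroup (Fin N) k))) :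
    NoCls α (U.comap p : Set Γ) := by
  intro s hs S hS
  have hsys : Sys α rhoH (dl (1 : Λ)) (H632.flt p) :=
    H632.sys_SL hα.reg regRep_rho (fun g v => hα.comm g v) hp hinj hicc
  refine hTor α rhoH (dl 1) (H632.flt p) _ hsys (H632.volBd hN hp) (icc_of_frame hα hicc) s hs S
    ⟨U.comap p, open_mem_flt p hU, fun g hg => hS.ca _ ⟨⟨g, hg⟩, rfl⟩, fun c hc => hS.cr c hc, ?_⟩
  have h1 := hS.fin
  have h2 : nn rhoH (Subgroup.centralizer {s}) (dl (1 : Λ)) S
      = ENNReal.ofReal (∑' i : Λ ⧸ Subgroup.centralizer {s}, ‖S (rhoH (i.out)⁻¹ (dl 1))‖ ^ 2) := by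
    rw [ENNReal.ofReal_tsum_of_nonneg (fun _ => by positivity) h1]
    unfold nn sq fn
    exact tsum_congr fun q => esq _
  rw [h2]
  exact ENNReal.ofReal_ne_top

/-- Ergodicity of the comultiplication, `Λ` arbitrary. -/
theorem ergAt_SL (hTor : TorStmt) (hN : 2 ≤ N) (hα : Frame α)
    (hicc : ∀ g : Γ, g ≠ 1 → Set.Infinite {y : Γ | ∃ h, y = h * g * h⁻¹})
    {p : Γ →* SpecialLinearGroup (Fin N) k} (hp : DenseRange p) (hinj : Function.Injective p) :
    ErgAt (VV α) (RR₁ α) (RR₂ α) p := by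
  intro U hU x hxV hx₁ hx₂
  refine erg_model_of hα (U.comap p : Set Γ) (fun k hk => (U.comap p).inv_mem hk) ?_
    (noCls_SL hTor hN hα hicc hp hinj hU) (fun g hg => hxV g hg) hx₁ hx₂
  intro g hg
  exact H632.orb_SL hp hinj hicc (open_mem_flt p hU) hg

theorem ErgAt.comp {G G' ℋ : Type} [Group G] [TopologicalSpace G] [Group G'] [TopologicalSpace G']
    [NormedAddCommGroup ℋ] [InnerProductSpace ℂ ℋ] [CompleteSpace ℋ]
    {V R₁ R₂ : Γ →* (ℋ →L[ℂ] ℋ)} {p : Γ →* G} (h : ErgAt V R₁ R₂ p) (f : G →* G')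
    (hf : Continuous f) : ErgAt V R₁ R₂ (f.comp p) := by
  intro U hU x hxV hx₁ hx₂
  exact h (U.comap f) (hU.preimage hf) x (fun g hg => hxV g hg) hx₁ hx₂

end frame

end Vale.Agent.P092.H628
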