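import Vale.Agent.P092.H945.TorE
import Vale.Agent.P092.H628.TorGlue

/-!
The torsion theorem, in the literal form used by the glue.
-/

namespace Vale.Agent.P092.H628

theorem torStmt : TorStmt := fun _ _ _ _ _ h hV hΛ _ hs _ hX => H945.tor h hV hΛ hs hX

end Vale.Agent.P092.H628
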