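import Vale.Agent.P092.H628.TorVec

/-!
The setting of the torsion theorem: two commuting regular representations `lam` of `Γ` and `R` of
`Λ` with the same trace vector, a filter `𝒰` of subgroups of `Γ`.
-/

set_option linter.all false

open scoped InnerProductSpace ENNReal
open Filter Topology ContinuousLinearMap

namespace Vale.Agent.P092.H628

open Vale.Agent.P092.H160 (RegRep Cmm)

variable {Γ Λ : Type} [Group Γ] [Group Λ] {H : Type} [NormedAddCommGroup H]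
  [InnerProductSpace ℂ H] [CompleteSpace H]

/-- The analytic setting. -/
structure Sys (lam : Γ →* (H →L[ℂ] H)) (R : Λ →* (H →L[ℂ] H)) (ξ : H)
    (𝒰 : Set (Subgroup Γ)) : Prop where
  regL : RegRep lam ξ
  regR : RegRep R ξ
  comm : ∀ g v, lam g * R v = R v * lam g
  ne : 𝒰.Nonempty
  up : ∀ U ∈ 𝒰, ∀ S : Subgroup Γ, U ≤ S → S ∈ 𝒰
  inf : ∀ U ∈ 𝒰, ∀ U' ∈ 𝒰, U ⊓ U' ∈ 𝒰
  conj : ∀ U ∈ 𝒰, ∀ g : Γ, ∃ U' ∈ 𝒰, ∀ k ∈ U', g⁻¹ * k * g ∈ U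
  orb : ∀ U ∈ 𝒰, ∀ g : Γ, g ≠ 1 → Set.Infinite {y : Γ | ∃ k ∈ U, y = k * g * k⁻¹}

/-- The bound on the size of the proper members of `𝒰` (`Θ₀` is the unit of volume). -/
def VolBd (𝒰 : Set (Subgroup Γ)) (Θ₀ : Subgroup Γ) : Prop :=
  Θ₀ ∈ 𝒰 ∧ ∀ S ∈ 𝒰, S ≠ ⊤ → ∀ U ∈ 𝒰, U ≤ S → U ≤ Θ₀ →
    U.relIndex S ≠ 0 ∧ U.relIndex Θ₀ ≠ 0 ∧ U.relIndex S ≤ U.relIndex Θ₀

/-- The elements of `R(D)'` commuting with `lam(U)` for some `U ∈ 𝒰`, of finite trace norm. -/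
def Qd (lam : Γ →* (H →L[ℂ] H)) (R : Λ →* (H →L[ℂ] H)) (ξ : H) (𝒰 : Set (Subgroup Γ))
    (D : Subgroup Λ) (x : H →L[ℂ] H) : Prop :=
  ∃ U ∈ 𝒰, Com lam U x ∧ Com R D x ∧ nn R D ξ x ≠ ∞

/-- `e` is a minimal projection of `Qd D`. -/
structure Mn (lam : Γ →* (H →L[ℂ] H)) (R : Λ →* (H →L[ℂ] H)) (ξ : H) (𝒰 : Set (Subgroup Γ))
    (D : Subgroup Λ) (e : H →L[ℂ] H) : Prop where
  mem : Qd lam R ξ 𝒰 D e
  ne : e ≠ 0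
  adj : adjoint e = e
  idem : e * e = e
  min : ∀ x, Qd lam R ξ 𝒰 D x → ∃ c : ℂ, e * x * e = c • e

variable {lam : Γ →* (H →L[ℂ] H)} {R : Λ →* (H →L[ℂ] H)} {ξ : H} {𝒰 : Set (Subgroup Γ)}
  {D : Subgroup Λ}

namespace Qd

variable {x y : H →L[ℂ] H}

theorem comR (hx : Qd lam R ξ 𝒰 D x) : Com R D x := by
  obtain ⟨U, _, _, h, _⟩ := hx; exact h

theorem fin (hx : Qd lam R ξ 𝒰 D x) : nn R D ξ x ≠ ∞ := by
  obtain ⟨U, _, _, _, h⟩ := hx; exact h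

theorem add (h : Sys lam R ξ 𝒰) (hx : Qd lam R ξ 𝒰 D x) (hy : Qd lam R ξ 𝒰 D y) :
    Qd lam R ξ 𝒰 D (x + y) := by
  obtain ⟨U, hU, h1, h2, h3⟩ := hx
  obtain ⟨U', hU', h1', h2', h3'⟩ := hy
  exact ⟨U ⊓ U', h.inf U hU U' hU', (h1.mono inf_le_left).add (h1'.mono inf_le_right),
    h2.add h2', nn_add_ne h3 h3'⟩

theorem sub (h : Sys lam R ξ 𝒰) (hx : Qd lam R ξ 𝒰 D x) (hy : Qd lam R ξ 𝒰 D y) :
    Qd lam R ξ 𝒰 D (x - y) := by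
  obtain ⟨U, hU, h1, h2, h3⟩ := hx
  obtain ⟨U', hU', h1', h2', h3'⟩ := hy
  exact ⟨U ⊓ U', h.inf U hU U' hU', (h1.mono inf_le_left).sub (h1'.mono inf_le_right),
    h2.sub h2', nn_sub_ne h3 h3'⟩

theorem mul (h : Sys lam R ξ 𝒰) (hx : Qd lam R ξ 𝒰 D x) (hy : Qd lam R ξ 𝒰 D y) :
    Qd lam R ξ 𝒰 D (x * y) := by
  obtain ⟨U, hU, h1, h2, h3⟩ := hx
  obtain ⟨U', hU', h1', h2', h3'⟩ := hy
  exact ⟨U ⊓ U', h.inf U hU U' hU', (h1.mono inf_le_left).mul (h1'.mono inf_le_right),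
    h2.mul h2', nn_left_ne _ h3'⟩

theorem smul (c : ℂ) (hx : Qd lam R ξ 𝒰 D x) : Qd lam R ξ 𝒰 D (c • x) := by
  obtain ⟨U, hU, h1, h2, h3⟩ := hx
  exact ⟨U, hU, h1.smul c, h2.smul c, nn_smul_ne c h3⟩

theorem zero (h : Sys lam R ξ 𝒰) : Qd lam R ξ 𝒰 D 0 := by
  obtain ⟨U, hU⟩ := h.ne
  exact ⟨U, hU, Com.zero, Com.zero, by rw [nn_zero]; simp⟩

theorem adj (h : Sys lam R ξ 𝒰) (hx : Qd lam R ξ 𝒰 D x) : Qd lam R ξ 𝒰 D (adjoint x) := by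
  obtain ⟨U, hU, h1, h2, h3⟩ := hx
  exact ⟨U, hU, h1.adj h.regL, h2.adj h.regR, nn_adj_ne h.regR h2 h3⟩

/-- multiplication by an operator which commutes with `lam Γ` and `R D` -/
theorem mulL (h : Sys lam R ξ 𝒰) (hx : Qd lam R ξ 𝒰 D x) {p : H →L[ℂ] H} (hp : Cmm lam p)
    (hp' : Com R D p) : Qd lam R ξ 𝒰 D (p * x) := by
  obtain ⟨U, hU, h1, h2, h3⟩ := hx
  exact ⟨U, hU, (Com.of_cmm hp).mul h1, hp'.mul h2, nn_left_ne _ h3⟩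

theorem mulR (h : Sys lam R ξ 𝒰) (hx : Qd lam R ξ 𝒰 D x) {p : H →L[ℂ] H} (hp : Cmm lam p)
    (hp' : Com R D p) : Qd lam R ξ 𝒰 D (x * p) := by
  obtain ⟨U, hU, h1, h2, h3⟩ := hx
  exact ⟨U, hU, h1.mul (Com.of_cmm hp), h2.mul hp', nn_right_ne h.regR h2 hp' h3⟩

/-- the action of `Γ` -/
theorem act (h : Sys lam R ξ 𝒰) (hx : Qd lam R ξ 𝒰 D x) (g : Γ) :
    Qd lam R ξ 𝒰 D (lam g * x * lam g⁻¹) := by
  obtain ⟨U, hU, h1, h2, h3⟩ := hx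
  obtain ⟨U', hU', hc⟩ := h.conj U hU g
  have hl : ∀ g, Com R D (lam g) := fun g k _ => h.comm g k
  exact ⟨U', hU', h1.conj h.regL g hc, ((hl g).mul h2).mul (hl _),
    nn_right_ne h.regR ((hl g).mul h2) (hl _) (nn_left_ne _ h3)⟩

/-- the action of `Λ` -/
theorem actR (h : Sys lam R ξ 𝒰) (hx : Qd lam R ξ 𝒰 D x) (w : Λ) {D' : Subgroup Λ}
    (hD : ∀ k, k ∈ D' ↔ w⁻¹ * k * w ∈ D) :
    Qd lam R ξ 𝒰 D' (R w * x * R w⁻¹) ∧ nn R D' ξ (R w * x * R w⁻¹) = nn R D ξ x := by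
  obtain ⟨U, hU, h1, h2, h3⟩ := hx
  have hn : nn R D' ξ (R w * x * R w⁻¹) = nn R D ξ x := by
    unfold nn
    rw [← sq_conj (rinv h.regR h2 ξ) w hD]
    refine sq_congr fun g => ?_
    unfold fn
    rw [H160.mul_ap, H160.mul_ap, enorm_map h.regR, mul_inv_rev, map_mul, H160.mul_ap]
  have hl : ∀ w, Com lam U (R w) := fun w k _ => (h.comm k w).symm
  exact ⟨⟨U, hU, ((hl w).mul h1).mul (hl _), h2.conj h.regR w (fun k hk => (hD k).mp hk),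
    hn ▸ h3⟩, hn⟩

/-- passing to a subgroup of finite index -/
theorem sub_group (h : Sys lam R ξ 𝒰) (hx : Qd lam R ξ 𝒰 D x) {D' : Subgroup Λ} (hD : D' ≤ D)
    (hf : ENat.card (D ⧸ D'.subgroupOf D) ≠ ⊤) : Qd lam R ξ 𝒰 D' x := by
  obtain ⟨U, hU, h1, h2, h3⟩ := hx
  refine ⟨U, hU, h1, h2.mono hD, ?_⟩
  rw [nn_sub hD h.regR h2]
  exact ENNReal.mul_ne_top (by simpa using hf) h3

end Qd

end Vale.Agent.P092.H628
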