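import Vale.Agent.P092.H515.SharpProd
import Vale.Agent.P092.SR.StR

/-!
P092 (helper628), project VR, row [V-EX], part 1: lattices in overgroups of finite index, and the
closures of the projections.
-/

set_option linter.all false

open MeasureTheory Filter Topology Set
open Vale.Agent.P092.H515.St

namespace Vale.Agent.P092.VE628

/-! ### Lattices in overgroups -/

section lat

variable {M E : Type} [Group M] [TopologicalSpace M] [Group E] [TopologicalSpace E]
  [IsTopologicalGroup E] [T2Space E]

/-- A subgroup with a discrete subgroup of finite index is discrete. -/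
theorem discrete_of_fi {D Λ : Subgroup E} (hD : DiscreteTopology D) (hle : D ≤ Λ)
    (hf : (D.subgroupOf Λ).FiniteIndex) : DiscreteTopology Λ := by
  have h1 : IsClosed (D : Set E) := Subgroup.isClosed_of_discrete
  have h2 : IsClosed ((D.subgroupOf Λ : Subgroup Λ) : Set Λ) := h1.preimage continuous_subtype_val
  have h3 : IsOpen ((D.subgroupOf Λ : Subgroup Λ) : Set Λ) :=
    Subgroup.isOpen_of_isClosed_of_finiteIndex _ h2
  rw [discreteTopology_iff_isOpen_singleton_one]
  have h4 : DiscreteTopology (D.subgroupOf Λ) := by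
    refine DiscreteTopology.of_continuous_injective (β := D)
      (f := fun x : D.subgroupOf Λ => (⟨x.1.1, x.2⟩ : D)) ?_ ?_
    · exact Continuous.subtype_mk (continuous_subtype_val.comp continuous_subtype_val) _
    · intro x y hxy
      have h := congrArg (fun z : D => (z : E)) hxy
      exact Subtype.ext (Subtype.ext h)
  have h5 : IsOpen ({1} : Set (D.subgroupOf Λ)) := isOpen_discrete _
  have h6 := h3.isOpenMap_subtype_val _ h5
  refine (congrArg IsOpen ?_).mp h6
  rw [image_singleton]
  rfl

/-- The map between the homogeneous spaces. -/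
def qm (φ : M →* E) {Λ' : Subgroup M} {Λ : Subgroup E} (hle : ∀ x ∈ Λ', φ x ∈ Λ) :
    M ⧸ Λ' → E ⧸ Λ :=
  Quotient.map' φ fun a b h => by
    rw [QuotientGroup.leftRel_apply] at h ⊢
    rw [← map_inv, ← map_mul]
    exact hle _ h

theorem qm_mk (φ : M →* E) {Λ' : Subgroup M} {Λ : Subgroup E} (hle : ∀ x ∈ Λ', φ x ∈ Λ) (x : M) :
    qm φ hle (x : M ⧸ Λ') = (φ x : E ⧸ Λ) := rfl

theorem qm_smul (φ : M →* E) {Λ' : Subgroup M} {Λ : Subgroup E} (hle : ∀ x ∈ Λ', φ x ∈ Λ) (g : M)
    (x : M ⧸ Λ') : qm φ hle (g • x) = φ g • qm φ hle x := by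
  refine Quotient.inductionOn' x fun y => ?_
  show (φ (g * y) : E ⧸ Λ) = φ g • (φ y : E ⧸ Λ)
  rw [map_mul]
  rfl

theorem qm_cont (φ : M →* E) (hc : Continuous φ) {Λ' : Subgroup M} {Λ : Subgroup E}
    (hle : ∀ x ∈ Λ', φ x ∈ Λ) : Continuous (qm φ hle) :=
  continuous_quot_lift _ (QuotientGroup.continuous_mk.comp hc)

/-- **Lattices in overgroups of finite index.** -/
theorem lat_over (φ : M →* E) (hi : Function.Injective φ) (hc : Continuous φ) (ho : IsOpenMap φ)
    (hfi : φ.range.FiniteIndex) {Λ' : Subgroup M} (h : IsLattice Λ') {Λ : Subgroup E}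
    (hle : Λ'.map φ ≤ Λ) (hf : ((Λ'.map φ).subgroupOf Λ).FiniteIndex) : IsLattice Λ := by
  classical
  have hle' : ∀ x ∈ Λ', φ x ∈ Λ := fun x hx => hle ⟨x, hx, rfl⟩
  have hd := h.disc
  obtain ⟨ν, h0, hfin, hinv⟩ := h.covol
  refine ⟨?_, ?_⟩
  · refine discrete_of_fi ?_ hle hf
    have he : IsEmbedding φ := (IsOpenEmbedding.of_continuous_injective_isOpenMap hc hi ho).isEmbedding
    have h1 : DiscreteTopology (φ '' (Λ' : Set M)) := by
      have e : IsEmbedding fun x : Λ' => φ x := he.comp IsEmbedding.subtypeVal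
      have e2 := e.toHomeomorph
      have e3 : range (fun x : Λ' => φ x) = φ '' (Λ' : Set M) := by
        ext y
        constructor
        · rintro ⟨x, rfl⟩
          exact ⟨x, x.2, rfl⟩
        · rintro ⟨x, hx, rfl⟩
          exact ⟨⟨x, hx⟩, rfl⟩
      rw [← e3]
      exact e2.symm.isEmbedding.discreteTopology
    exact h1
  · letI : MeasurableSpace (E ⧸ Λ) := borel _
    haveI : BorelSpace (E ⧸ Λ) := ⟨rfl⟩
    letI : MeasurableSpace (M ⧸ Λ') := borel _
    haveI : BorelSpace (M ⧸ Λ') := ⟨rfl⟩
    haveI := hfi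
    haveI : Finite (E ⧸ φ.range) := Subgroup.finite_quotient_of_finiteIndex
    haveI : Fintype (E ⧸ φ.range) := Fintype.ofFinite _
    have hq : Measurable (qm φ hle') := (qm_cont φ hc hle').measurable
    have hsm : ∀ g : E, Measurable fun x : E ⧸ Λ => g • x := fun g =>
      (continuous_const_smul g).measurable
    set ν₁ : Measure (E ⧸ Λ) := ν.map (qm φ hle') with hν₁
    have hν₁inv : ∀ m : M, ν₁.map (fun x => φ m • x) = ν₁ := by
      intro m
      ext s hs
      rw [Measure.map_apply (hsm _) hs, hν₁, Measure.map_apply hq (hsm _ hs),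
        Measure.map_apply hq hs]
      have e : qm φ hle' ⁻¹' ((fun x => φ m • x) ⁻¹' s) = (fun x => m • x) ⁻¹' (qm φ hle' ⁻¹' s) := by
        ext x
        simp only [mem_preimage, qm_smul]
      rw [e]
      exact hinv m _ (hq hs)
    set ν₂ : Measure (E ⧸ Λ) := ∑ q : E ⧸ φ.range, ν₁.map (fun x => q.out • x) with hν₂
    have hmm : ∀ a b : E, (ν₁.map (fun x => b • x)).map (fun x => a • x) =
        ν₁.map (fun x => (a * b) • x) := by
      intro a b
      rw [Measure.map_map (hsm a) (hsm b)]
      congr 1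
      funext x
      simp only [Function.comp_apply, smul_smul]
    have hcls : ∀ a b : E, (a : E ⧸ φ.range) = b →
        ν₁.map (fun x => a • x) = ν₁.map (fun x => b • x) := by
      intro a b hab
      obtain ⟨m, hm⟩ := QuotientGroup.eq.1 hab
      have e : b = a * φ m := by rw [hm]; group
      rw [e, ← hmm, hν₁inv]
    have hν₂inv : ∀ g : E, ν₂.map (fun x => g • x) = ν₂ := by
      intro g
      have e1 : ν₂.map (fun x => g • x) =
          ∑ q : E ⧸ φ.range, ν₁.map (fun x => (g * q.out) • x) := by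
        rw [hν₂]
        rw [← Measure.mapₗ_apply_of_measurable (hsm g), map_sum]
        refine Finset.sum_congr rfl fun q _ => ?_
        rw [Measure.mapₗ_apply_of_measurable (hsm g), hmm]
      rw [e1, hν₂, ← Equiv.sum_comp (MulAction.toPerm g : Equiv.Perm (E ⧸ φ.range))
        (fun q : E ⧸ φ.range => ν₁.map (fun x => q.out • x))]
      refine Finset.sum_congr rfl fun q _ => ?_
      refine hcls _ _ ?_
      rw [MulAction.toPerm_apply, QuotientGroup.out_eq']
      conv_rhs => rw [← QuotientGroup.out_eq' q]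
      rfl
    refine ⟨ν₂, ?_, ?_, ?_⟩
    · intro hz
      have h1 : ν₂ univ = 0 := by rw [hz]; rfl
      rw [hν₂, Measure.finsetSum_apply] at h1
      have h2 := (Finset.sum_eq_zero_iff.1 h1) ((1 : E) : E ⧸ φ.range) (Finset.mem_univ _)
      rw [Measure.map_apply (hsm _) MeasurableSet.univ, preimage_univ, hν₁,
        Measure.map_apply hq MeasurableSet.univ, preimage_univ, Measure.measure_univ_eq_zero] at h2
      exact h0 h2
    · rw [hν₂, Measure.finsetSum_apply]
      refine ENNReal.sum_lt_top.2 fun q _ => ?_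
      rw [Measure.map_apply (hsm _) MeasurableSet.univ, preimage_univ, hν₁,
        Measure.map_apply hq MeasurableSet.univ, preimage_univ]
      exact hfin
    · intro g s hs
      rw [← Measure.map_apply (hsm g) hs, hν₂inv]

end lat

end Vale.Agent.P092.VE628
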