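import Vale.Agent.P092.H628.TorGlue

/-!
Project B for arbitrary ICC groups `Λ` (torsion allowed): assembly.
-/

set_option linter.all false

open scoped InnerProductSpace ENNReal
open Filter Topology ContinuousLinearMap Matrix

namespace Vale.Agent.P092.H628

open Vale.Agent.P092.H160 Vale.Agent.P092.SR Vale.Agent.P092.H776

/-- The final theorem for arbitrary `Λ` (no hypothesis on `Λ` at all). -/
def SuperTStmt : Prop :=
  ∀ (n₁ n₂ : ℕ) (k₁ k₂ : Type) [NontriviallyNormedField k₁] [NontriviallyNormedField k₂]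
    [IsUltrametricDist k₁] [IsUltrametricDist k₂] [ProperSpace k₁] [ProperSpace k₂]
    (Γ : Subgroup (Matrix.SpecialLinearGroup (Fin n₁) k₁ × Matrix.SpecialLinearGroup (Fin n₂) k₂)),
    2 ≤ n₁ → 2 ≤ n₂ → H515.St.IsLattice Γ → DenseRange (pj₁ Γ) → DenseRange (pj₂ Γ) →
    (∀ g : Γ, g ≠ 1 → Set.Infinite {y : Γ | ∃ h, y = h * g * h⁻¹}) →
    ∀ {Λ : Type} [Group Λ], ∀ θ : H160.St.StarIso Γ Λ, H160.St.Canonical θ

theorem superT_of_blocks (hTor : TorStmt) (hGF : GFStmt) (hII : IrrIsoStmt) (hPL : ProjLatStmt)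
    (hMod : ModelStmt) (hFl : FlipStmt) (hA1 : A1Stmt) (hSw : SwapLegStmt)
    (hM : MatchStmt) (hPass : PassStmt) (hFin : FinStmt) (hA : ThAStmt) (h5 : C5Stmt)
    (h6 : C6Stmt) (h7 : C7Stmt) (hE : EndStmt) (hH : HeightStmt)
    (hfc : ∀ (n : ℕ) (k : Type) [NontriviallyNormedField k], 2 ≤ n →
      Finite (Subgroup.center (Matrix.SpecialLinearGroup (Fin n) k))) : SuperTStmt := by
  intro n₁ n₂ k₁ k₂ _ _ _ _ _ _ Γ hn₁ hn₂ hlat hd₁ hd₂ hicc Λ _ θ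
  have hα : Frame (alphaOf (toAlg θ)) := frame_of_iso hicc (toAlg θ)
  set α := alphaOf (toAlg θ) with hαd
  have hG₁ : GoodGrp (PSLk n₁ k₁) := hGF n₁ k₁ hn₁
  have hG₂ : GoodGrp (PSLk n₂ k₂) := hGF n₂ k₂ hn₂
  have hI := hPL n₁ n₂ k₁ k₂ Γ hn₁ hn₂ hlat hd₁ hd₂ hicc
  set p₁ := (QuotientGroup.mk' (Subgroup.center (Matrix.SpecialLinearGroup (Fin n₁) k₁))).comp
    (pj₁ Γ) with hp₁
  set p₂ := (QuotientGroup.mk' (Subgroup.center (Matrix.SpecialLinearGroup (Fin n₂) k₂))).comp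
    (pj₂ Γ) with hp₂
  have hT := hMod α hα
  obtain ⟨J, F, hS⟩ := hFl α hα
  have hi₁ : Function.Injective (pj₁ Γ) := by
    have := hI.inj₁
    rw [MonoidHom.coe_comp] at this
    exact this.of_comp
  have hi₂ : Function.Injective (pj₂ Γ) := by
    have := hI.inj₂
    rw [MonoidHom.coe_comp] at this
    exact this.of_comp
  have hs₁ : ErgAt (VV α) (RR₁ α) (RR₂ α) (pj₁ Γ) := ergAt_SL hTor hn₁ hα hicc hd₁ hi₁
  have hs₂ : ErgAt (VV α) (RR₁ α) (RR₂ α) (pj₂ Γ) := ergAt_SL hTor hn₂ hα hicc hd₂ hi₂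
  have he₁ : ErgAt (VV α) (RR₁ α) (RR₂ α) p₁ := ErgAt.comp hs₁ _ continuous_quot_mk
  have he₂ : ErgAt (VV α) (RR₁ α) (RR₂ α) p₂ := ErgAt.comp hs₂ _ continuous_quot_mk
  obtain ⟨hf₁, hf₂⟩ := hFin n₁ n₂ k₁ k₂ Γ hn₁ hn₂ hlat hd₁ hd₂ hicc α hα
  have hscS : ∀ a ∈ Set.range (RR₂ α), ∀ g, a * VV α g = VV α g * a := by
    rintro _ ⟨g, rfl⟩ k; exact (hT.comm₂ k g).symm
  have hscT : ∀ a ∈ Set.range (RR₂ α), ∀ g, a * RR₁ α g = RR₁ α g * a := by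
    rintro _ ⟨g, rfl⟩ k; exact (hT.comm₁₂ k g).symm
  haveI := hfc n₁ k₁ hn₁
  haveI := hfc n₂ k₂ hn₂
  obtain ⟨w, hw, hwg⟩ := exists_vector hII hM hA hSw h5 h6 h7 hE hT
    (by rw [norm_dl]) hS hG₁ hG₂ hI he₁ he₂
    (hf₁.imp (fun h => hPass _ _ _ _ _ _ _ hT.adjV hT.adj₁ hT.comm₁ hscS hscT
        (finI_of_finN hA1 hT hs₁ h)) fun h => hPass _ _ _ _ _ _ _ hT.adjV hT.adj₁ hT.comm₁ hscS
        hscT (finI_of_finN hA1 hT hs₁ h))
    (hf₂.imp (fun h => hPass _ _ _ _ _ _ _ hT.adjV hT.adj₁ hT.comm₁ hscS hscT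
        (finI_of_finN hA1 hT hs₂ h)) fun h => hPass _ _ _ _ _ _ _ hT.adjV hT.adj₁ hT.comm₁ hscS
        hscT (finI_of_finN hA1 hT hs₂ h))
  obtain ⟨c, hc, hp4⟩ := hH α hα w hw hwg
  exact canonical_iff θ (canonical_of_form _ (canon_of_p4 hα hicc hc hp4))

end Vale.Agent.P092.H628
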