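import Vale.Agent.P092.H632.T.Bound

/-!
The torsion theorem for overgroups of finite index, part 1: the volume bound is only assumed for the
subgroups of infinite index, and up to a constant.
-/

set_option linter.all false

open scoped InnerProductSpace ENNReal
open Filter Topology ContinuousLinearMap

namespace Vale.Agent.P092.TV628

open Vale.Agent.P092.H160 (Cmm)
open Vale.Agent.P092.H628 (sq RInv fn Com esq enorm_adj adj_mul adj_adj enorm_le_op
  sq_swap sq_congr sq_mono sq_mul_left sq_const sq_sub)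
open Vale.Agent.P092.H632.T

variable {Γ Λ : Type} [Group Γ] [Group Λ] {H : Type} [NormedAddCommGroup H]
  [InnerProductSpace ℂ H] [CompleteSpace H] {κ κ' : Type} [Fintype κ] [Fintype κ']
  {lam : Γ →* (H →L[ℂ] H)} {R : Λ →* (H →L[ℂ] H)} {ω : κ' → H} {ξ : κ → H} {𝒰 : Set (Subgroup Γ)}
  {D : Subgroup Λ}

/-- The bound on the size of the members of `𝒰` of infinite index (`Θ₀` is the unit of volume). -/
def VolBdI (𝒰 : Set (Subgroup Γ)) (Θ₀ : Subgroup Γ) (c : ℕ) : Prop :=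
  Θ₀ ∈ 𝒰 ∧ Θ₀.index = 0 ∧ ∀ S ∈ 𝒰, S.index = 0 → ∀ U ∈ 𝒰, U ≤ S → U ≤ Θ₀ →
    U.relIndex S ≠ 0 ∧ U.relIndex Θ₀ ≠ 0 ∧ U.relIndex S ≤ c * U.relIndex Θ₀

theorem relIndex_unit {Θ₀ : Subgroup Γ} {c : ℕ} (hV : VolBdI 𝒰 Θ₀ c) {U : Subgroup Γ} (hU : U ∈ 𝒰)
    (hUΘ : U ≤ Θ₀) : U.relIndex Θ₀ ≠ 0 :=
  (hV.2.2 Θ₀ hV.1 hV.2.1 U hU hUΘ hUΘ).2.1

theorem qd_sum (h : Sys lam R ω ξ 𝒰) {ι : Type} (s : Finset ι) {f : ι → H →L[ℂ] H}
    (hf : ∀ i, Qd lam R ξ 𝒰 D (f i)) : Qd lam R ξ 𝒰 D (∑ i ∈ s, f i) := by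
  classical
  induction s using Finset.induction_on with
  | empty => simpa using Qd.zero h
  | insert a s ha ih =>
    rw [Finset.sum_insert ha]
    exact (hf a).add h ih

/-- The stabiliser of the block of `e` has infinite index. -/
theorem Ostab_index (h : Sys lam R ω ξ 𝒰) {e : H →L[ℂ] H} (he : Mn lam R ξ 𝒰 D e)
    (hD : D.index = 0) : (Ostab h he).index = 0 := by
  classical
  by_contra hi
  obtain ⟨z, hz⟩ := he.exists_z h
  haveI : (Ostab h he).FiniteIndex := ⟨hi⟩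
  haveI : Finite (Γ ⧸ Ostab h he) := Subgroup.finite_quotient_of_finiteIndex
  haveI : Fintype (Γ ⧸ Ostab h he) := Fintype.ofFinite _
  -- the translates of `z` only depend on the coset
  have hinv : ∀ g k : Γ, g⁻¹ * k ∈ Ostab h he → cj lam k z = cj lam g z := by
    intro g k hgk
    obtain ⟨x, hx, hne⟩ := hgk
    have h1 : z = cj lam (g⁻¹ * k) z :=
      ZP.eq h he (he.act h (g⁻¹ * k)) hx hne hz (hz.act h (g⁻¹ * k))
    conv_rhs => rw [h1]
    rw [cj_cj, mul_inv_cancel_left]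
  set T : H →L[ℂ] H := ∑ q : Γ ⧸ Ostab h he, cj lam q.out z with hT
  have hTQ : Qd lam R ξ 𝒰 D T := qd_sum h _ fun q => hz.mem.act h _
  have hTc : Cmm lam T := by
    refine cmm_of_cj fun g => ?_
    rw [hT, cj_sum]
    simp only [cj_cj]
    rw [← Equiv.sum_comp (MulAction.toPerm g : Equiv.Perm (Γ ⧸ Ostab h he))
      (fun q : Γ ⧸ Ostab h he => cj lam q.out z)]
    refine Finset.sum_congr rfl fun q _ => ?_
    refine hinv _ _ ?_
    rw [← QuotientGroup.eq]
    simp only [MulAction.toPerm_apply, QuotientGroup.out_eq']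
    conv_lhs => rw [← QuotientGroup.out_eq' q]
    rw [MulAction.Quotient.smul_coe]
    rfl
  have hT0 : T = 0 := not_cmm h hTc hTQ hD
  -- `z` is a projection
  have hzz : z * z = z := by
    obtain ⟨n, a, b, h1, h2, h3⟩ := hz.rep
    conv_lhs => enter [2]; rw [h3]
    rw [Finset.mul_sum]
    conv_rhs => rw [h3]
    refine Finset.sum_congr rfl fun i _ => ?_
    rw [← mul_assoc, hz.left _ (h1 i) (h2 i)]
  have hn : ∀ (g : Γ) (v : H), ⟪v, cj lam g z v⟫_ℂ = ((‖cj lam g z v‖ ^ 2 : ℝ) : ℂ) := by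
    intro g v
    have h1 : ⟪cj lam g z v, cj lam g z v⟫_ℂ = ⟪v, cj lam g z v⟫_ℂ := by
      rw [← adjoint_inner_right, cj_adj h.regL, hz.adj, ← H160.mul_ap, ← cj_mul, hzz]
    rw [← h1, inner_self_eq_norm_sq_to_K]
    norm_cast
  set q₀ : Γ ⧸ Ostab h he := ((1 : Γ) : Γ ⧸ Ostab h he) with hq₀
  have hz0 : z = 0 := by
    ext1 v
    have h1 : (∑ q : Γ ⧸ Ostab h he, ‖cj lam q.out z (lam q₀.out v)‖ ^ 2 : ℝ) = 0 := by
      have h2 : ⟪lam q₀.out v, T (lam q₀.out v)⟫_ℂ = 0 := by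
        rw [hT0, ContinuousLinearMap.zero_apply, inner_zero_right]
      rw [hT, ContinuousLinearMap.sum_apply, inner_sum] at h2
      simp only [hn] at h2
      exact_mod_cast h2
    have h3 := (Finset.sum_eq_zero_iff_of_nonneg fun q _ => by positivity).mp h1
      q₀ (Finset.mem_univ _)
    have h4 : cj lam q₀.out z (lam q₀.out v) = 0 := by
      have := pow_eq_zero_iff (two_ne_zero) |>.mp h3
      exact norm_eq_zero.mp this
    unfold cj at h4
    rw [H160.mul_ap, H160.mul_ap, ← H160.mul_ap (lam _⁻¹), linv] at h4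
    have h5 := congrArg (fun w => lam (q₀.out)⁻¹ w) h4
    simp only [map_zero] at h5
    rw [← H160.mul_ap (lam _⁻¹), linv] at h5
    simpa using h5
  have h6 := hz.left e he.mem he.idem
  rw [hz0, zero_mul] at h6
  exact he.ne h6.symm

theorem bound1 (h : Sys lam R ω ξ 𝒰) {e : H →L[ℂ] H} (he : Mn lam R ξ 𝒰 D e)
    (hD : D.index = 0) {Θ₀ : Subgroup Γ} {c : ℕ} (hV : VolBdI 𝒰 Θ₀ c) {U : Subgroup Γ} (hU : U ∈ 𝒰)
    (hUΘ : U ≤ Θ₀) (hUe : Com lam U e) {p : H →L[ℂ] H} (hp : adjoint p = p)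
    (hpl : Cmm lam p) (hpe : p * e = e) (η : H) :
    sq U (fn lam η e) ≤ (c : ℝ≥0∞) * ((U.relIndex Θ₀ : ℝ≥0∞) * ‖p η‖ₑ ^ 2) := by
  classical
  set O := Ostab h he with hO
  have hUO : U ≤ O := le_Ostab h he hUe
  obtain ⟨hv1, hv2, hv3⟩ := hV.2.2 O (Ostab_mem h he) (Ostab_index h he hD) U hU hUO hUΘ
  have hfin : Finite (O ⧸ U.subgroupOf O) := by
    have : (U.subgroupOf O).FiniteIndex := ⟨hv1⟩
    exact Subgroup.finite_quotient_of_finiteIndex
  haveI : Fintype (O ⧸ U.subgroupOf O) := Fintype.ofFinite _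
  have hcard : Fintype.card (O ⧸ U.subgroupOf O) = U.relIndex O := by
    rw [Subgroup.relIndex, Subgroup.index, Nat.card_eq_fintype_card]
  have hep : e * p = e := by
    have := congrArg adjoint hpe
    rwa [adj_mul, hp, he.adj] at this
  have hval : ∀ g : Γ, fn lam η e g = ENNReal.ofReal (‖cj lam g e (p η)‖ ^ 2) := by
    intro g
    unfold fn cj
    rw [esq]
    congr 2
    have : (lam g * e * lam g⁻¹) (p η) = lam g (e (lam g⁻¹ η)) := by
      rw [H160.mul_ap, H160.mul_ap, ← hpl.apply, ← H160.mul_ap e p, hep]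
    rw [this, h.regL.norm_map]
  have hfn : RInv U (fn lam η e) := rinv h.regL hUe η
  have h1 : sq U (fn lam η e) = ∑' q : Γ ⧸ O, ∑' k : O ⧸ U.subgroupOf O,
      ENNReal.ofReal (‖cj lam (q.out * (k.out : O)) e (p η)‖ ^ 2) := by
    rw [sq_sub hUO hfn]
    unfold H628.sq
    exact tsum_congr fun q => tsum_congr fun k => hval _
  rw [h1]
  have h2 : ∀ s : Finset (Γ ⧸ O), ∑ q ∈ s, ∑' k : O ⧸ U.subgroupOf O,
      ENNReal.ofReal (‖cj lam (q.out * (k.out : O)) e (p η)‖ ^ 2)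
      ≤ ENNReal.ofReal (U.relIndex O * ‖p η‖ ^ 2) := by
    intro s
    have h3 := H628.block_bessel s (fun (q : Γ ⧸ O) (k : O ⧸ U.subgroupOf O) =>
      cj lam (q.out * (k.out : O)) e)
      (fun q k => by
        show adjoint (cj lam (q.out * (k.out : O)) e) = _
        rw [cj_adj h.regL, he.adj])
      (fun q k => by
        show cj lam (q.out * (k.out : O)) e * cj lam (q.out * (k.out : O)) e = _
        rw [← cj_mul, he.idem])
      (by
        intro q _ q' _ hne k k'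
        apply cj_mul_cj h he
        intro hmem
        apply hne
        have h4 : q.out⁻¹ * q'.out ∈ O := by
          have e1 : q.out⁻¹ * q'.out = (k.out : O) *
              ((q.out * (k.out : O))⁻¹ * (q'.out * (k'.out : O))) * ((k'.out : O) : Γ)⁻¹ := by
            group
          rw [e1]
          exact O.mul_mem (O.mul_mem (k.out : O).2 hmem) (O.inv_mem (k'.out : O).2)
        have h5 := QuotientGroup.eq.mpr h4
        simpa using h5) (p η)
    rw [hcard] at h3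
    refine le_trans (le_of_eq ?_) (ENNReal.ofReal_le_ofReal h3)
    rw [ENNReal.ofReal_sum_of_nonneg fun q _ => Finset.sum_nonneg fun k _ => by positivity]
    refine Finset.sum_congr rfl fun q _ => ?_
    rw [ENNReal.ofReal_sum_of_nonneg fun k _ => by positivity, tsum_fintype]
  calc _ ≤ ENNReal.ofReal (U.relIndex O * ‖p η‖ ^ 2) := by
        rw [ENNReal.tsum_eq_iSup_sum]
        exact iSup_le h2
    _ ≤ ENNReal.ofReal (c * (U.relIndex Θ₀ * ‖p η‖ ^ 2)) := by
        apply ENNReal.ofReal_le_ofReal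
        have : (U.relIndex O : ℝ) ≤ c * U.relIndex Θ₀ := by exact_mod_cast hv3
        calc _ ≤ ((c : ℝ) * U.relIndex Θ₀) * ‖p η‖ ^ 2 := by gcongr
          _ = _ := by ring
    _ = _ := by
        rw [ENNReal.ofReal_mul (by positivity), ENNReal.ofReal_mul (by positivity),
          ENNReal.ofReal_natCast, ENNReal.ofReal_natCast, esq]

theorem bound (h : Sys lam R ω ξ 𝒰) {e : H →L[ℂ] H} (he : Mn lam R ξ 𝒰 D e)
    (hD : D.index = 0) {Θ₀ : Subgroup Γ} {c : ℕ} (hV : VolBdI 𝒰 Θ₀ c) {U : Subgroup Γ} (hU : U ∈ 𝒰)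
    (hUΘ : U ≤ Θ₀) (hUe : Com lam U e) {p : H →L[ℂ] H} (hp : adjoint p = p)
    (hpl : Cmm lam p) (hpe : p * e = e) :
    nn lam U ω e ≤ (U.relIndex Θ₀ : ℝ≥0∞) * ((c : ℝ≥0∞) * ∑ k, ‖p (ω k)‖ₑ ^ 2) := by
  unfold nn
  rw [Finset.mul_sum, Finset.mul_sum]
  refine Finset.sum_le_sum fun k _ => (bound1 h he hD hV hU hUΘ hUe hp hpl hpe (ω k)).trans
    (le_of_eq ?_)
  ring

end Vale.Agent.P092.TV628
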