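import Vale.Agent.P092.H632.T.Sca
import Vale.Agent.P092.H628.TV1

/-!
Torsion theorem: `C` is commensurated and the support of `Qd C` is everything.
-/

set_option linter.all false

open scoped InnerProductSpace ENNReal Pointwise
open Filter Topology ContinuousLinearMap

namespace Vale.Agent.P092.TV628

open Vale.Agent.P092.H160 (Cmm)
open Vale.Agent.P092.H628 (sq RInv fn Com esq enorm_adj adj_mul adj_adj enorm_le_op EE esum
  ee_memℓp ee_norm col col_apply col_norm sq_swap sq_congr sq_mono sq_mul_left sq_const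
  sq_translate sq_sub sq_part sq_conj sq_tsum)
open Vale.Agent.P092.H632.T
open Vale.Agent.P092.H945 (comm_of_norm proj_enorm_le inner_proj cjg mem_cjg star_comm mul_cancel_map inv_cancel_map
  cjg_top index_cjg Cmr mem_Cmr orb_finiteIndex)

variable {Γ Λ : Type} [Group Γ] [Group Λ] {H : Type} [NormedAddCommGroup H]
  [InnerProductSpace ℂ H] [CompleteSpace H] {κ κ' : Type} [Fintype κ] [Fintype κ']

variable {lam : Γ →* (H →L[ℂ] H)} {R : Λ →* (H →L[ℂ] H)} {ω : κ' → H} {ξ : κ → H} {𝒰 : Set (Subgroup Γ)}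
  {Θ₀ : Subgroup Γ} {c : ℕ} {C D : Subgroup Λ} {e f x y : H →L[ℂ] H}

theorem exists_U (h : Sys lam R ω ξ 𝒰) (hV : VolBdI 𝒰 Θ₀ c) (hx : Qd lam R ξ 𝒰 C x)
    (hy : Qd lam R ξ 𝒰 D y) : ∃ U ∈ 𝒰, U ≤ Θ₀ ∧ Com lam U x ∧ Com lam U y := by
  obtain ⟨U₁, hU₁, h1, _, _⟩ := hx
  obtain ⟨U₂, hU₂, h2, _, _⟩ := hy
  refine ⟨U₁ ⊓ U₂ ⊓ Θ₀, h.inf _ (h.inf _ hU₁ _ hU₂) _ hV.1, inf_le_right,
    h1.mono (inf_le_left.trans inf_le_left), h2.mono (inf_le_left.trans inf_le_right)⟩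

theorem fin_M (h : Sys lam R ω ξ 𝒰) (hV : VolBdI 𝒰 Θ₀ c) (he : Mn lam R ξ 𝒰 C e) (hC : C.index = 0)
    {U : Subgroup Γ} (hU : U ∈ 𝒰) (hUΘ : U ≤ Θ₀) (hUe : Com lam U e) :
    nn lam U ω e ≠ ⊤ := by
  refine ne_top_of_le_ne_top ?_ (bound h he hC hV hU hUΘ hUe (p := 1)
    (by rw [← star_eq_adjoint, star_one])
    H160.Cmm.one (one_mul e))
  refine ENNReal.mul_ne_top (by simp) (ENNReal.mul_ne_top (by simp) ?_)
  exact ENNReal.sum_ne_top.mpr fun k _ => by simp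

theorem relIndex_ne (h : Sys lam R ω ξ 𝒰) (hV : VolBdI 𝒰 Θ₀ c) (he : Mn lam R ξ 𝒰 C e)
    (hf : Mn lam R ξ 𝒰 D f) (hC : C.index = 0) (hfe : f * e ≠ 0) : D.relIndex C ≠ 0 := by
  obtain ⟨U, hU, hUΘ, hUe, hUf⟩ := exists_U h hV he.mem hf.mem
  obtain ⟨l, hl, hq⟩ := cmp_aux h he hf
  have h1 := cmp_M h he hf hq hUe hUf
  have h2 : l * nn lam U ω e ≠ ⊤ := ENNReal.mul_ne_top hl (fin_M h hV he hC hU hUΘ hUe)
  have h3 : nn lam U ω (f * e) ≠ 0 := fun h0 => hfe (nn_eq_zero h.regL (hUf.mul hUe) h0)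
  intro h0
  apply h2
  rw [h1]
  haveI : Infinite (C ⧸ D.subgroupOf C) := by
    by_contra hc
    rw [not_infinite_iff_finite] at hc
    have : (D.subgroupOf C).FiniteIndex := Subgroup.finiteIndex_of_finite_quotient
    exact this.index_ne_zero h0
  rw [ENat.card_eq_top_of_infinite, ENat.toENNReal_top, ENNReal.top_mul h3]

theorem orth (h : Sys lam R ω ξ 𝒰) (hV : VolBdI 𝒰 Θ₀ c) (hC : C.index = 0) {w : Λ}
    (hw : w ∉ Cmr C) : PP lam R ξ 𝒰 C * (R w * PP lam R ξ 𝒰 C) = 0 := by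
  rw [← mul_assoc]
  refine kill fun e' he' => ?_
  have hf := Mn.actR h he' w
  set f := R w * e' * R w⁻¹ with hfdef
  have h1 : ∀ e, Mn lam R ξ 𝒰 C e → f * e = 0 := by
    intro e he
    by_contra hne
    apply hw
    rw [mem_Cmr]
    refine ⟨relIndex_ne h hV he hf hC hne, relIndex_ne h hV hf he ?_ ?_⟩
    · rw [index_cjg, hC]
    · intro h0
      apply hne
      have := congrArg adjoint h0
      rwa [adj_mul, hf.adj, he.adj, map_zero] at this
  have h2 : f * PP lam R ξ 𝒰 C = 0 := kill h1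
  have h3 : PP lam R ξ 𝒰 C * f = 0 := by
    have := congrArg adjoint h2
    rwa [adj_mul, hf.adj, PP_adj, map_zero] at this
  calc PP lam R ξ 𝒰 C * R w * e' = PP lam R ξ 𝒰 C * (R w * e' * (R w⁻¹ * R w)) := by
        rw [inv_cancel_map, mul_one, mul_assoc]
    _ = (PP lam R ξ 𝒰 C * f) * R w := by rw [hfdef]; simp only [mul_assoc]
    _ = 0 := by rw [h3, zero_mul]

theorem Cmr_com (h : Sys lam R ω ξ 𝒰) : Com R (Cmr C) (PP lam R ξ 𝒰 C) := by
  have key : ∀ w ∈ Cmr C, ∀ v ∈ Sp lam R ξ 𝒰 C, R w v ∈ Sp lam R ξ 𝒰 C := by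
    intro w hw
    refine Sp_map fun e he v => ?_
    have hf := Mn.actR h he w
    have h1 := Qd_PP'' h (mem_Cmr.mp hw).2 hf.mem
    have h2 := congrArg adjoint h1
    rw [adj_mul, hf.adj, PP_adj] at h2
    have h3 := congrArg (fun S : H →L[ℂ] H => S (R w v)) h2
    simp only [H160.mul_ap] at h3
    rw [h.regR.inv_apply] at h3
    rw [← h3]
    exact Submodule.starProjection_apply_mem _ _
  intro w hw
  exact star_comm _ (h.regR.adj w) (key w hw) (key w⁻¹ ((Cmr C).inv_mem hw))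

theorem Cmr_index (h : Sys lam R ω ξ 𝒰) (hV : VolBdI 𝒰 Θ₀ c) (hC : C.index = 0)
    (he : Mn lam R ξ 𝒰 C e) : (Cmr C).index ≠ 0 := by
  classical
  intro h0
  have hP : PP lam R ξ 𝒰 C = 0 := by
    obtain ⟨U, hU⟩ := h.ne
    refine not_cmm h (PP_cmm h) ⟨U, hU, Com.of_cmm (PP_cmm h), Cmr_com h, ?_⟩ h0
    unfold nn
    refine ENNReal.sum_ne_top.mpr fun k _ => ?_
    have h1 : sq (Cmr C) (fn R (ξ k) (PP lam R ξ 𝒰 C)) ≤ ENNReal.ofReal (‖ξ k‖ ^ 2) := by
      unfold H628.sq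
      rw [ENNReal.tsum_eq_iSup_sum]
      refine iSup_le fun s => ?_
      set E : Λ ⧸ Cmr C → Unit → H →L[ℂ] H :=
        fun q _ => R q.out * PP lam R ξ 𝒰 C * R q.out⁻¹ with hE
      have h2 := H628.block_bessel (κ := Unit) s E ?_ ?_ ?_ (ξ k)
      · simp only [Finset.univ_unique, Finset.sum_singleton, Fintype.card_unit, Nat.cast_one,
          one_mul] at h2
        calc ∑ q ∈ s, fn R (ξ k) (PP lam R ξ 𝒰 C) q.out
            = ∑ q ∈ s, ENNReal.ofReal (‖E q () (ξ k)‖ ^ 2) := by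
              refine Finset.sum_congr rfl fun q _ => ?_
              unfold fn
              rw [esq]
              congr 2
              simp only [hE, H160.mul_ap]
              rw [h.regR.norm_map]
          _ = ENNReal.ofReal (∑ q ∈ s, ‖E q () (ξ k)‖ ^ 2) := by
              rw [ENNReal.ofReal_sum_of_nonneg fun _ _ => by positivity]
          _ ≤ _ := ENNReal.ofReal_le_ofReal h2
      · intro q _
        simp only [hE]
        rw [adj_mul, adj_mul, PP_adj, h.regR.adj, h.regR.adj, inv_inv, mul_assoc]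
      · intro q _
        simp only [hE]
        calc R q.out * PP lam R ξ 𝒰 C * R q.out⁻¹ * (R q.out * PP lam R ξ 𝒰 C * R q.out⁻¹)
            = R q.out * PP lam R ξ 𝒰 C * (R q.out⁻¹ * R q.out) * PP lam R ξ 𝒰 C * R q.out⁻¹ := by
              simp only [mul_assoc]
          _ = R q.out * (PP lam R ξ 𝒰 C * PP lam R ξ 𝒰 C) * R q.out⁻¹ := by
              rw [inv_cancel_map, mul_one, mul_assoc (R q.out) (PP lam R ξ 𝒰 C) _]
          _ = _ := by rw [PP_idem]
      · intro q _ q' _ hne _ _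
        simp only [hE]
        have hw : q.out⁻¹ * q'.out ∉ Cmr C := by
          intro hm
          apply hne
          rw [← QuotientGroup.eq, QuotientGroup.out_eq', QuotientGroup.out_eq'] at hm
          exact hm
        have h3 := orth h hV hC hw
        calc R q.out * PP lam R ξ 𝒰 C * R q.out⁻¹ * (R q'.out * PP lam R ξ 𝒰 C * R q'.out⁻¹)
            = R q.out * (PP lam R ξ 𝒰 C * (R (q.out⁻¹ * q'.out) * PP lam R ξ 𝒰 C))
                * R q'.out⁻¹ := by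
              rw [map_mul]; simp only [mul_assoc]
          _ = 0 := by rw [h3, mul_zero, zero_mul]
    exact ne_top_of_le_ne_top ENNReal.ofReal_ne_top h1
  have h2 := PP_mul he
  rw [hP, zero_mul] at h2
  exact he.ne h2.symm

/-- The support is everything. -/
theorem PP_eq_one (h : Sys lam R ω ξ 𝒰) (hV : VolBdI 𝒰 Θ₀ c) (hb : Bic lam R)
    (hΛ : ∀ g : Λ, g ≠ 1 → Set.Infinite {y : Λ | ∃ k : Λ, y = k * g * k⁻¹})
    (hC : C.index = 0) (he : Mn lam R ξ 𝒰 C e) : PP lam R ξ 𝒰 C = 1 := by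
  obtain ⟨a, hc⟩ := scalar_of h hb hΛ (Cmr_index h hV hC he) (PP_cmm h) (Cmr_com h)
  have h1 := PP_mul he
  rw [hc, smul_mul_assoc, one_mul] at h1
  have h2 : (a - 1) • e = 0 := by rw [sub_smul, h1, one_smul, sub_self]
  have h3 : a - 1 = 0 := (smul_eq_zero.mp h2).resolve_right he.ne
  rw [hc, sub_eq_zero.mp h3, one_smul]

/-- `C` is commensurated. -/
theorem Cmr_eq_top (h : Sys lam R ω ξ 𝒰) (hV : VolBdI 𝒰 Θ₀ c) (hb : Bic lam R)
    (hΛ : ∀ g : Λ, g ≠ 1 → Set.Infinite {y : Λ | ∃ k : Λ, y = k * g * k⁻¹})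
    (hC : C.index = 0) (he : Mn lam R ξ 𝒰 C e) (w : Λ) : w ∈ Cmr C := by
  by_contra hw
  have h1 := orth h hV hC hw
  rw [PP_eq_one h hV hb hΛ hC he, one_mul, mul_one] at h1
  apply he.ne
  calc e = R w⁻¹ * R w * e := by rw [inv_cancel_map, one_mul]
    _ = 0 := by rw [h1, mul_zero, zero_mul]

end Vale.Agent.P092.TV628
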