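import Vale.Agent.P092.H632.T.TorE
import Vale.Agent.P092.H628.TV3

/-!
Torsion theorem: the end.
-/

set_option linter.all false

open scoped InnerProductSpace ENNReal Pointwise
open Filter Topology ContinuousLinearMap

namespace Vale.Agent.P092.TV628

open Vale.Agent.P092.H160 (Cmm)
open Vale.Agent.P092.H628 (sq RInv fn Com esq enorm_adj adj_mul adj_adj enorm_le_op EE esum
  ee_memℓp ee_norm col col_apply col_norm sq_swap sq_congr sq_mono sq_mul_left sq_const
  sq_translate sq_sub sq_part sq_conj sq_tsum)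
open Vale.Agent.P092.H632.T
open Vale.Agent.P092.H945 (comm_of_norm proj_enorm_le inner_proj cjg mem_cjg star_comm mul_cancel_map inv_cancel_map
  cjg_top index_cjg Cmr mem_Cmr orb_finiteIndex card_quot card_ne index_centralizer)

variable {Γ Λ : Type} [Group Γ] [Group Λ] {H : Type} [NormedAddCommGroup H]
  [InnerProductSpace ℂ H] [CompleteSpace H] {κ κ' : Type} [Fintype κ] [Fintype κ']

variable {lam : Γ →* (H →L[ℂ] H)} {R : Λ →* (H →L[ℂ] H)} {ω : κ' → H} {ξ : κ → H} {𝒰 : Set (Subgroup Γ)}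
  {Θ₀ : Subgroup Γ} {c : ℕ} {C D : Subgroup Λ} {e f x y p : H →L[ℂ] H}

/-- Finite subgroups normalised by `C` have bounded cardinality. -/
theorem cardF_le (h : Sys lam R ω ξ 𝒰) (hV : VolBdI 𝒰 Θ₀ c) (hb : Bic lam R)
    (hΛ : ∀ g : Λ, g ≠ 1 → Set.Infinite {y : Λ | ∃ k : Λ, y = k * g * k⁻¹})
    (hC : C.index = 0) (he : Mn lam R ξ 𝒰 C e) (F : Subgroup Λ) [Fintype F]
    (hF : ∀ c ∈ C, ∀ f ∈ F, c * f * c⁻¹ ∈ F) :
    (Fintype.card F : ℝ≥0∞) * rat lam R ω ξ 𝒰 Θ₀ C e ≤ (c : ℝ≥0∞) := by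
  obtain ⟨e₀, he₀, hne⟩ : ∃ e₀, Mn lam R ξ 𝒰 C e₀ ∧ e₀ * pF R F ≠ 0 := by
    by_contra hcon
    push Not at hcon
    have h1 : pF R F * PP lam R ξ 𝒰 C = 0 := by
      refine kill fun e₀ he₀ => ?_
      have := congrArg adjoint (hcon e₀ he₀)
      rwa [adj_mul, pF_adj h, he₀.adj, map_zero] at this
    rw [PP_eq_one h hV hb hΛ hC he, mul_one] at h1
    exact pF_ne h hΛ h1
  obtain ⟨e₁, he₁, hpe⟩ := ex_le h (pF_adj h) pF_idem (pF_cmm h) (pF_com hF) he₀ hne
  have h1 := rat_le h hV he₁ hC (pF_adj h) (pF_cmm h) hpe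
  rw [rat_const h hV hb hΛ hC he₁ he, pF_norm h hΛ] at h1
  calc (Fintype.card F : ℝ≥0∞) * rat lam R ω ξ 𝒰 Θ₀ C e
      ≤ (Fintype.card F : ℝ≥0∞) * ((c : ℝ≥0∞) * (Fintype.card F : ℝ≥0∞)⁻¹) := by gcongr
    _ = (c : ℝ≥0∞) * ((Fintype.card F : ℝ≥0∞) * (Fintype.card F : ℝ≥0∞)⁻¹) := by ring
    _ ≤ (c : ℝ≥0∞) * 1 := by gcongr; exact ENNReal.mul_inv_le_one _
    _ = _ := mul_one _

/-- **Theorem T**: there is no nonzero element of finite trace for the centraliser of `s ≠ 1`. -/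
theorem tor (h : Sys lam R ω ξ 𝒰) (hV : VolBdI 𝒰 Θ₀ c) (hb : Bic lam R)
    (hΛ : ∀ g : Λ, g ≠ 1 → Set.Infinite {y : Λ | ∃ k : Λ, y = k * g * k⁻¹})
    {s : Λ} (hs : s ≠ 1) {X : H →L[ℂ] H}
    (hX : Qd lam R ξ 𝒰 (Subgroup.centralizer ({s} : Set Λ)) X) : X = 0 := by
  classical
  by_contra hX0
  set C := Subgroup.centralizer ({s} : Set Λ) with hCdef
  have hC : C.index = 0 := index_centralizer hΛ hs
  obtain ⟨e, he, _⟩ := ex_mn h hX hX0
  obtain ⟨n, hn⟩ := ENNReal.exists_nat_mul_gt (rat_ne_zero h hV he) (ENNReal.natCast_ne_top c)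
  obtain ⟨t, ht, htn⟩ := (hΛ s hs).exists_subset_card_eq n
  -- finite index subgroup centralising `t`
  set C1 : Subgroup Λ := ⨅ a : t, Subgroup.centralizer ({(a : Λ)} : Set Λ) with hC1
  have hC1i : C1.relIndex C ≠ 0 := by
    refine Subgroup.relIndex_iInf_ne_zero fun a => ?_
    obtain ⟨k, hk⟩ := ht a.2
    have h1 : Subgroup.centralizer ({(a : Λ)} : Set Λ) = cjg k C := by
      ext c
      rw [mem_cjg, hCdef, Subgroup.mem_centralizer_singleton_iff,
        Subgroup.mem_centralizer_singleton_iff, hk]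
      constructor
      · intro h1
        have h2 : k⁻¹ * (c * (k * s * k⁻¹)) * k = k⁻¹ * (k * s * k⁻¹ * c) * k := by rw [h1]
        calc k⁻¹ * c * k * s = k⁻¹ * (c * (k * s * k⁻¹)) * k := by group
          _ = k⁻¹ * (k * s * k⁻¹ * c) * k := h2
          _ = s * (k⁻¹ * c * k) := by group
      · intro h1
        calc c * (k * s * k⁻¹) = k * (k⁻¹ * c * k * s) * k⁻¹ := by group
          _ = k * (s * (k⁻¹ * c * k)) * k⁻¹ := by rw [h1]
          _ = k * s * k⁻¹ * c := by group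
    rw [h1]
    exact (mem_Cmr.mp (Cmr_eq_top h hV hb hΛ hC he k)).1
  haveI : (C1.subgroupOf C).FiniteIndex := ⟨hC1i⟩
  set N : Subgroup C := (C1.subgroupOf C).normalCore with hN
  haveI : N.FiniteIndex := Subgroup.finiteIndex_normalCore _
  haveI hNn : N.Normal := Subgroup.normalCore_normal _
  set C2 : Subgroup Λ := N.map C.subtype with hC2
  have hC2C : C2 ≤ C := by
    rintro _ ⟨c, _, rfl⟩
    exact c.2
  have hC2sub : C2.subgroupOf C = N := by
    rw [hC2]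
    exact Subgroup.comap_map_eq_self_of_injective C.subtype_injective N
  have hQ2 : Qd lam R ξ 𝒰 C2 e := by
    refine he.mem.sub_group h hC2C ?_
    rw [hC2sub]
    haveI : Finite (C ⧸ N) := Subgroup.finite_quotient_of_finiteIndex
    rw [ENat.card_eq_coe_natCard]
    exact ENat.coe_ne_top _
  obtain ⟨e2, he2, _⟩ := ex_mn h hQ2 he.ne
  set F : Subgroup Λ := Subgroup.centralizer (C2 : Set Λ) with hFdef
  have hFmem : ∀ b, b ∈ F ↔ ∀ d ∈ C2, b * d = d * b := by
    intro b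
    rw [hFdef, Subgroup.mem_centralizer_iff]
    exact ⟨fun hb d hd => (hb d hd).symm, fun hb d hd => (hb d hd).symm⟩
  haveI : Finite F := he2.finite_centralizer h F fun b hb d hd => (hFmem b).mp hb d hd
  haveI : Fintype F := Fintype.ofFinite F
  have hFC : ∀ c ∈ C, ∀ f ∈ F, c * f * c⁻¹ ∈ F := by
    intro c hc f hf
    rw [hFmem] at hf ⊢
    intro d hd
    have hd' : c⁻¹ * d * c ∈ C2 := by
      obtain ⟨d0, hd0, rfl⟩ := hd
      refine ⟨⟨c, hc⟩⁻¹ * d0 * ⟨c, hc⟩, ?_, rfl⟩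
      have := hNn.conj_mem d0 hd0 (⟨c, hc⟩⁻¹ : C)
      rwa [inv_inv] at this
    have h1 := hf _ hd'
    calc c * f * c⁻¹ * d = c * (f * (c⁻¹ * d * c)) * c⁻¹ := by group
      _ = c * (c⁻¹ * d * c * f) * c⁻¹ := by rw [h1]
      _ = d * (c * f * c⁻¹) := by group
  have htF : n ≤ Fintype.card F := by
    rw [← htn]
    have hinj : ∀ a ∈ t, a ∈ F := by
      intro a ha
      rw [hFmem]
      rintro _ ⟨d0, hd0, rfl⟩
      have h1 : (d0 : Λ) ∈ C1 := by
        have := Subgroup.normalCore_le _ hd0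
        rwa [Subgroup.mem_subgroupOf] at this
      rw [hC1, Subgroup.mem_iInf] at h1
      have h2 := Subgroup.mem_centralizer_singleton_iff.mp (h1 ⟨a, ha⟩)
      exact h2.symm
    have : Fintype.card t ≤ Fintype.card F :=
      Fintype.card_le_of_injective (fun a : t => (⟨a, hinj a a.2⟩ : F)) fun a b hab => by
        have := congrArg Subtype.val hab
        exact Subtype.ext this
    simpa using this
  have h1 := cardF_le h hV hb hΛ hC he F hFC
  refine absurd (lt_of_lt_of_le hn ?_) (lt_irrefl _)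
  refine le_trans ?_ h1
  gcongr

end Vale.Agent.P092.TV628
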