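import Vale.Agent.P092.H632.T.Glue
import Vale.Agent.P092.H971.ErgTd
import Vale.Agent.P092.H628.TV4

/-!
The torsion theorem for overgroups of finite index, part 5: no class of finite trace; totally
disconnected places `E` whose open subgroups of infinite index are compact of bounded volume.
-/

set_option linter.all false

open scoped InnerProductSpace ENNReal Topology
open Filter ContinuousLinearMap

namespace Vale.Agent.P092.TV628

open Vale.Agent.P092.H160 Vale.Agent.P092.H103 Vale.Agent.P092.H333 Vale.Agent.P092.H962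
open Vale.Agent.P092.H628 (esq Com)
open Vale.Agent.P092.H632.T
open Vale.Agent.P092.H632 (flt flt_up flt_inf flt_conj relIndex_comap_dense)
open Vale.Agent.P092.H333.Amp (ErgC ergC_td)
open Vale.Agent.P092.QC (Td)

section af

variable {I Λ Γ : Type} [Group Λ] [Group Γ] [Fintype I]
  {α β γ : Γ → (Ell2 (I × Λ) →L[ℂ] Ell2 (I × Λ))}

/-- **No class.** -/
theorem noClsT_over (hα : AF α)
    (hΛ : ∀ s : Λ, s ≠ 1 → Set.Infinite {y : Λ | ∃ h, y = h * s * h⁻¹})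
    {𝒰 : Set (Subgroup Γ)} {Θ₀ : Subgroup Γ} {c : ℕ}
    (up : ∀ U ∈ 𝒰, ∀ S : Subgroup Γ, U ≤ S → S ∈ 𝒰)
    (inf : ∀ U ∈ 𝒰, ∀ U' ∈ 𝒰, U ⊓ U' ∈ 𝒰)
    (conj : ∀ U ∈ 𝒰, ∀ g : Γ, ∃ U' ∈ 𝒰, ∀ k ∈ U', g⁻¹ * k * g ∈ U)
    (hr : ∀ U ∈ 𝒰, RIcc (U : Set Γ)) (hV : VolBdI 𝒰 Θ₀ c) {U : Subgroup Γ} (hU : U ∈ 𝒰) :
    NoClsT hα (U : Set Γ) := by
  obtain ⟨m, ω, hω⟩ := exists_fra_laE hα hΛ
  have hS := sysE hα hω ⟨U, hU⟩ up inf conj hr
  obtain ⟨e, he⟩ := exists_unit hα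
  refine ⟨e, fun s hs S hc => ?_⟩
  refine tor hS hV (bicE hα) hΛ hs ⟨U, hU, fun g hg => hc.ca _ ⟨⟨g, hg⟩, rfl⟩,
    fun c hc' => hc.cr c hc', ?_⟩
  unfold nn
  refine ENNReal.sum_ne_top.mpr fun i _ => ?_
  obtain ⟨h1, -⟩ := H776.TC.ClsM.form (irrM hα (hr U hU)) he hc
    ((((Real.sqrt (∑ i : I, ‖prj (pA_prj hα) (dl (i, (1 : Λ)))‖ ^ 2))⁻¹ : ℝ) : ℂ) •
      prj (pA_prj hα) (dl (i, (1 : Λ))))
  have h2 : H628.sq (Subgroup.centralizer {s}) (H628.fn (rE hα)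
      ((((Real.sqrt (∑ i : I, ‖prj (pA_prj hα) (dl (i, (1 : Λ)))‖ ^ 2))⁻¹ : ℝ) : ℂ) •
      prj (pA_prj hα) (dl (i, (1 : Λ)))) S)
      = ENNReal.ofReal (∑' q : Λ ⧸ Subgroup.centralizer {s}, ‖S (rE hα (q.out)⁻¹
      ((((Real.sqrt (∑ i : I, ‖prj (pA_prj hα) (dl (i, (1 : Λ)))‖ ^ 2))⁻¹ : ℝ) : ℂ) •
      prj (pA_prj hα) (dl (i, (1 : Λ)))))‖ ^ 2) := by
    rw [ENNReal.ofReal_tsum_of_nonneg (fun _ => by positivity) h1]
    unfold H628.sq H628.fn
    exact tsum_congr fun q => esq _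
  rw [h2]
  exact ENNReal.ofReal_ne_top

end af

/-- Totally disconnected groups: a basis of compact open subgroups, the open subgroups of infinite
index are compact and their volumes are bounded. -/
structure TdV (E : Type) [Group E] [TopologicalSpace E] : Prop where
  basis : H103.CptOpenBasis E
  proper : ∀ W : Subgroup E, IsOpen (W : Set E) → W.index = 0 → IsCompact (W : Set E)
  noncpt : ¬ IsCompact (Set.univ : Set E)
  vol : ∃ (K : Subgroup E) (c : ℕ), IsOpen (K : Set E) ∧ IsCompact (K : Set E) ∧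
    ∀ U W : Subgroup E, IsOpen (U : Set E) → IsOpen (W : Set E) → IsCompact (W : Set E) →
      U ≤ W → U ≤ K → U.relIndex W ≤ c * U.relIndex K

section td

variable {Γ Λ E : Type} [Group Γ] [Group Λ] [Group E] [TopologicalSpace E] [IsTopologicalGroup E]

/-- A compact subgroup of a noncompact group has infinite index. -/
theorem index_eq_zero_of_isCompact (hE : ¬ IsCompact (Set.univ : Set E)) {K : Subgroup E}
    (hK : IsCompact (K : Set E)) : K.index = 0 := by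
  by_contra hi
  apply hE
  haveI : K.FiniteIndex := ⟨hi⟩
  haveI : Finite (E ⧸ K) := Subgroup.finite_quotient_of_finiteIndex
  have h1 : (Set.univ : Set E) = ⋃ q : E ⧸ K, (fun x => q.out * x) '' (K : Set E) := by
    symm
    rw [Set.eq_univ_iff_forall]
    intro x
    rw [Set.mem_iUnion]
    refine ⟨(x : E ⧸ K), (x : E ⧸ K).out⁻¹ * x, ?_, ?_⟩
    · rw [SetLike.mem_coe, ← QuotientGroup.eq, QuotientGroup.out_eq']
    · simp only [mul_inv_cancel_left]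
  rw [h1]
  exact isCompact_iUnion fun q => hK.image (continuous_mul_left _)

theorem index_comap_dense {p : Γ →* E} (hp : DenseRange p) {W : Subgroup E}
    (hW : IsOpen (W : Set E)) : (W.comap p).index = W.index := by
  have h1 := relIndex_comap_dense (U := W) (W := ⊤) hp hW (by
    rw [Subgroup.coe_top]; exact isOpen_univ)
  rw [Subgroup.comap_top, Subgroup.relIndex_top_right, Subgroup.relIndex_top_right] at h1
  exact h1

/-- **(G2)** The bound on the size of the members of infinite index of the filter. -/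
theorem TdV.volBd (h : TdV E) {p : Γ →* E} (hp : DenseRange p) :
    ∃ Θ ∈ flt p, ∃ c : ℕ, VolBdI (flt p) Θ c := by
  obtain ⟨K₀, c, hK₀, hK₀c, hv⟩ := h.vol
  refine ⟨K₀.comap p, ⟨K₀, hK₀, hK₀c, le_rfl⟩, c, ⟨K₀, hK₀, hK₀c, le_rfl⟩, ?_, ?_⟩
  · rw [index_comap_dense hp hK₀]
    exact index_eq_zero_of_isCompact h.noncpt hK₀c
  rintro S ⟨K, hK, hKc, hKS⟩ hS U ⟨K', hK', hKc', hKU⟩ hUS hU0
  obtain ⟨W, hW, -, rfl⟩ := H971.exists_open hp hK hKS
  obtain ⟨V, hV, -, rfl⟩ := H971.exists_open hp hK' hKU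
  rw [index_comap_dense hp hW] at hS
  have hWc := h.proper W hW hS
  have hVW := H971.comap_le hp hV hW hUS
  have hVi := H971.comap_le hp hV hK₀ hU0
  rw [relIndex_comap_dense hp hV hW, relIndex_comap_dense hp hV hK₀]
  exact ⟨H971.relIndex_ne_zero hV hWc, H971.relIndex_ne_zero hV hK₀c, hv V W hV hW hWc hVW hVi⟩

theorem mem_flt (h : TdV E) {p : Γ →* E} {U : Subgroup E} (hU : IsOpen (U : Set E)) :
    U.comap p ∈ flt p := by
  obtain ⟨L, h1, h2, h3⟩ := h.basis U (hU.mem_nhds U.one_mem)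
  exact ⟨L, h1, h2, Subgroup.comap_mono h3⟩

end td

section erg

variable {I Λ Γ : Type} [Group Λ] [Group Γ] [Fintype I]
  {α β γ : Γ → (Ell2 (I × Λ) →L[ℂ] Ell2 (I × Λ))}
  {E : Type} [Group E] [TopologicalSpace E] [IsTopologicalGroup E] {p : Γ →* E}

/-- **No class of finite trace** at a totally disconnected place. -/
theorem noClsT_tdV (h : TdV E) (hα : AF α)
    (hΛ : ∀ s : Λ, s ≠ 1 → Set.Infinite {y : Λ | ∃ h, y = h * s * h⁻¹}) (hp : DenseRange p)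
    (ho : ∀ U : Subgroup E, IsOpen (U : Set E) → ∀ g : Γ, g ≠ 1 →
      Set.Infinite {y : Γ | ∃ k ∈ U.comap p, y = k * g * k⁻¹})
    {U : Subgroup E} (hU : IsOpen (U : Set E)) : NoClsT hα (U.comap p : Set Γ) := by
  obtain ⟨Θ, hΘ, c, hv⟩ := h.volBd hp
  refine noClsT_over hα hΛ (𝒰 := flt p) (fun U hU S hS => flt_up hU hS)
    (fun U hU U' hU' => flt_inf hU hU') (fun U hU g => flt_conj hU g) ?_ hv (mem_flt h hU)
  rintro S ⟨K, hK, -, hKS⟩ g hg
  refine (ho K hK g hg).mono ?_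
  rintro x ⟨k, hk, rfl⟩
  exact ⟨k, hKS hk, rfl⟩

/-- **Ergodicity of the stripped comultiplication** at a totally disconnected place. -/
theorem ergU_tdV (h : TdV E) (hα : AF α)
    (hΛ : ∀ s : Λ, s ≠ 1 → Set.Infinite {y : Λ | ∃ h, y = h * s * h⁻¹}) (hp : DenseRange p)
    (ho : ∀ U : Subgroup E, IsOpen (U : Set E) → ∀ g : Γ, g ≠ 1 →
      Set.Infinite {y : Γ | ∃ k ∈ U.comap p, y = k * g * k⁻¹})
    {U : Subgroup E} (hU : IsOpen (U : Set E)) : ErgU α (U.comap p : Set Γ) :=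
  ergU_of (Θ := U.comap p) hα (fun g hg => ho U hU g hg) (noClsT_tdV h hα hΛ hp ho hU)

/-- **Ergodicity of the model** at a totally disconnected place, `Λ` arbitrary, any `t`. -/
theorem ergAt_tdV (h : TdV E) (hα : AF α) (hβ : AF β) (hγ : AF γ)
    (hΛ : ∀ s : Λ, s ≠ 1 → Set.Infinite {y : Λ | ∃ h, y = h * s * h⁻¹}) (hp : DenseRange p)
    (ho : ∀ U : Subgroup E, IsOpen (U : Set E) → ∀ g : Γ, g ≠ 1 →
      Set.Infinite {y : Γ | ∃ k ∈ U.comap p, y = k * g * k⁻¹}) :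
    SR.ErgAt (V3 hα hβ hγ) (A3R hα hβ hγ) (B3R hα hβ hγ) p :=
  ergAt_HH hΛ hα hβ hγ fun U hU => ergU_tdV h hα hΛ hp ho hU

/-- **`ErgC` of the model** at the place `E`. -/
theorem ergC_tdV (h : TdV E)
    (hΓ : ∀ g : Γ, g ≠ 1 → Set.Infinite {y : Γ | ∃ h, y = h * g * h⁻¹})
    (hα : AF α) (hβ : AF β) (hγ : AF γ)
    (hΛ : ∀ s : Λ, s ≠ 1 → Set.Infinite {y : Λ | ∃ h, y = h * s * h⁻¹}) (hp : DenseRange p)
    (ho : ∀ U : Subgroup E, IsOpen (U : Set E) → ∀ g : Γ, g ≠ 1 →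
      Set.Infinite {y : Γ | ∃ k ∈ U.comap p, y = k * g * k⁻¹}) :
    ErgC p (V3 hα hβ hγ) (A3R hα hβ hγ) (B3R hα hβ hγ) := by
  obtain ⟨m, m', ξ, hT⟩ := exists_tri hα hβ hγ hΛ
  obtain ⟨n, n', ξ', hT'⟩ := exists_tri' hα hβ hγ hΛ
  refine ergC_td hT (tr0 hΓ hT hT') (fun W hW => ?_) (ergAt_tdV h hα hβ hγ hΛ hp ho)
  obtain ⟨K, hK, -, hKW⟩ := h.basis W hW
  exact ⟨K, hK, hKW⟩

end erg

end Vale.Agent.P092.TV628
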