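import Vale.Agent.P092.H628.TV5

/-!
The torsion theorem for overgroups of finite index, part 6: `Td G` gives `TdV E` for every open
homomorphism `G → E` with finite kernel and range of finite index.
-/

set_option linter.all false

open scoped Topology Pointwise
open Filter

namespace Vale.Agent.P092.TV628

open Vale.Agent.P092.QC (Td)

variable {G E : Type} [Group G] [TopologicalSpace G] [IsTopologicalGroup G]
  [Group E] [TopologicalSpace E] [IsTopologicalGroup E]

theorem isCompact_of_relIndex {A B : Subgroup E} (hA : IsCompact (A : Set E)) (hAB : A ≤ B)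
    (h : A.relIndex B ≠ 0) : IsCompact (B : Set E) := by
  haveI : (A.subgroupOf B).FiniteIndex := ⟨h⟩
  haveI : Finite (B ⧸ A.subgroupOf B) := Subgroup.finite_quotient_of_finiteIndex
  have h1 : (B : Set E) = ⋃ q : B ⧸ A.subgroupOf B, (fun x => (q.out : E) * x) '' (A : Set E) := by
    ext x
    rw [Set.mem_iUnion]
    constructor
    · intro hx
      refine ⟨((⟨x, hx⟩ : B) : B ⧸ A.subgroupOf B),
        (((⟨x, hx⟩ : B) : B ⧸ A.subgroupOf B).out : E)⁻¹ * x, ?_, ?_⟩
      · have h2 : (((⟨x, hx⟩ : B) : B ⧸ A.subgroupOf B).out)⁻¹ * (⟨x, hx⟩ : B) ∈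
            A.subgroupOf B := by
          rw [← QuotientGroup.eq, QuotientGroup.out_eq']
        exact h2
      · simp only [mul_inv_cancel_left]
    · rintro ⟨q, a, ha, rfl⟩
      exact B.mul_mem q.out.2 (hAB ha)
  rw [h1]
  exact isCompact_iUnion fun q => hA.image (continuous_mul_left _)

/-- The range of `φ` is not contained in a compact subgroup. -/
theorem compact_of_range_le (φ : G →* E) (ho : IsOpenMap φ) (hk : (φ.ker : Set G).Finite)
    {K : Subgroup G} {V : Subgroup E} (hK : IsOpen (K : Set G)) (hKc : IsCompact (K : Set G))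
    (hV : IsCompact (V : Set E)) (hR : φ.range ≤ V) : IsCompact (Set.univ : Set G) := by
  set L : Subgroup E := K.map φ with hL
  have hLo : IsOpen (L : Set E) := by rw [hL, Subgroup.coe_map]; exact ho _ hK
  have h1 : L.relIndex V ≠ 0 := H971.relIndex_ne_zero hLo hV
  have h2 : (L.comap φ).index ≠ 0 := by
    rw [← Subgroup.relIndex_top_right, Subgroup.relIndex_comap, ← MonoidHom.range_eq_map]
    intro h0
    exact h1 (Subgroup.relIndex_eq_zero_of_le_right hR h0)
  have h3 : IsCompact ((L.comap φ : Subgroup G) : Set G) := by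
    rw [hL, Subgroup.comap_map_eq, Subgroup.mul_normal]
    exact hKc.mul hk.isCompact
  by_contra hG
  exact h2 (index_eq_zero_of_isCompact hG h3)

/-- **`Td` passes to overgroups of finite index and to quotients by finite normal subgroups.** -/
theorem TdV.of_hom (φ : G →* E) (hc : Continuous φ) (ho : IsOpenMap φ)
    (hk : (φ.ker : Set G).Finite) (hi : φ.range.index ≠ 0) (h : Td G)
    (hG : ¬ IsCompact (Set.univ : Set G)) : TdV E := by
  obtain ⟨K₀, hK₀, hK₀c, hv⟩ := h.vol
  have hRo : IsOpen (φ.range : Set E) := by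
    rw [MonoidHom.coe_range]
    exact ho.isOpen_range
  have hne : ∀ V : Subgroup E, IsCompact (V : Set E) → ¬ φ.range ≤ V := fun V hV hR =>
    hG (compact_of_range_le φ ho hk hK₀ hK₀c hV hR)
  refine ⟨?_, ?_, ?_, K₀.map φ, φ.range.index, ?_, ?_, ?_⟩
  · intro W hW
    have h1 : φ ⁻¹' W ∈ 𝓝 (1 : G) := (hc.tendsto (1 : G)) (by rwa [map_one])
    obtain ⟨L, h2, h3, h4⟩ := h.basis _ h1
    refine ⟨L.map φ, ?_, ?_, ?_⟩
    · rw [Subgroup.coe_map]; exact ho _ h2
    · rw [Subgroup.coe_map]; exact h3.image hc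
    · rintro _ ⟨x, hx, rfl⟩
      exact h4 hx
  · intro W hW hWi
    have hW' : IsOpen ((W.comap φ : Subgroup G) : Set G) := hW.preimage hc
    have hne' : W.comap φ ≠ ⊤ := by
      intro h0
      apply hi
      rw [← Subgroup.relIndex_top_right]
      refine Subgroup.relIndex_eq_zero_of_le_left (K := W) ?_
        ((Subgroup.relIndex_top_right W).trans hWi)
      rintro _ ⟨x, rfl⟩
      have : x ∈ W.comap φ := h0 ▸ Subgroup.mem_top x
      exact this
    have h1 : IsCompact (((W.comap φ).map φ : Subgroup E) : Set E) := by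
      rw [Subgroup.coe_map]
      exact (h.proper _ hW' hne').image hc
    rw [Subgroup.map_comap_eq] at h1
    refine isCompact_of_relIndex h1 inf_le_right ?_
    rw [Subgroup.inf_relIndex_right]
    exact fun h0 => hi (Subgroup.index_eq_zero_of_relIndex_eq_zero h0)
  · intro hE
    exact hne ⊤ (by rwa [Subgroup.coe_top]) le_top
  · rw [Subgroup.coe_map]; exact ho _ hK₀
  · rw [Subgroup.coe_map]; exact hK₀c.image hc
  · intro U W hU hW hWc hUW hUK
    have hW' : IsOpen ((W.comap φ : Subgroup G) : Set G) := hW.preimage hc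
    have hWt : W.comap φ ≠ ⊤ := by
      intro h0
      refine hne W hWc ?_
      rintro _ ⟨x, rfl⟩
      have : x ∈ W.comap φ := h0 ▸ Subgroup.mem_top x
      exact this
    have hWc' := h.proper _ hW' hWt
    have hU' : IsOpen ((U.comap φ ⊓ K₀ : Subgroup G) : Set G) := (hU.preimage hc).inter hK₀
    have h1 := hv (U.comap φ ⊓ K₀) (W.comap φ) hU' hW' hWc'
      (inf_le_left.trans (Subgroup.comap_mono hUW)) inf_le_right
    rw [Subgroup.inf_relIndex_right, Subgroup.relIndex_comap] at h1
    have h2 : (U.comap φ).relIndex (W.comap φ) ≤ (U.comap φ ⊓ K₀).relIndex (W.comap φ) :=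
      Subgroup.relIndex_le_of_le_left inf_le_left (H971.relIndex_ne_zero hU' hWc')
    rw [Subgroup.relIndex_comap, Subgroup.map_comap_eq] at h2
    have hUR : U ≤ φ.range ⊓ W := le_inf (hUK.trans (by
      rintro _ ⟨x, -, rfl⟩
      exact ⟨x, rfl⟩)) hUW
    have h3 := Subgroup.relIndex_mul_relIndex U (φ.range ⊓ W) W hUR inf_le_right
    rw [Subgroup.inf_relIndex_right] at h3
    have h4 : φ.range.relIndex W ≤ φ.range.index := by
      rw [← Subgroup.relIndex_top_right φ.range]
      exact Subgroup.relIndex_le_of_le_right le_top (by rwa [Subgroup.relIndex_top_right])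
    rw [← h3, mul_comm]
    exact Nat.mul_le_mul h4 (h2.trans h1)

/-- The case of an open subgroup of finite index. -/
theorem TdV.of_sub (N : Subgroup E) (ho : IsOpen (N : Set E)) (hi : N.FiniteIndex) (h : Td N)
    (hN : ¬ CompactSpace N) : TdV E := by
  refine TdV.of_hom N.subtype continuous_subtype_val ho.isOpenMap_subtype_val ?_ ?_ h ?_
  · rw [Subgroup.ker_subtype]
    simp
  · rw [Subgroup.range_subtype]
    exact hi.index_ne_zero
  · intro hc
    exact hN ⟨hc⟩

/-- The trivial case: a noncompact group itself. -/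
theorem TdV.of_td (h : Td G) (hG : ¬ IsCompact (Set.univ : Set G)) : TdV G := by
  refine TdV.of_hom (MonoidHom.id G) continuous_id IsOpenMap.id ?_ ?_ h hG
  · rw [MonoidHom.ker_id]
    simp
  · have : (MonoidHom.id G).range = ⊤ := MonoidHom.range_eq_top.2 Function.surjective_id
    rw [this]
    simp

section erg

open Vale.Agent.P092.H160 Vale.Agent.P092.H103 Vale.Agent.P092.H333 Vale.Agent.P092.H962
open Vale.Agent.P092.H333.Amp (ErgC)

variable {I Λ Γ : Type} [Group Λ] [Group Γ] [Fintype I]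
  {α β γ : Γ → (Ell2 (I × Λ) →L[ℂ] Ell2 (I × Λ))} {p : Γ →* E}

/-- **[V-ERG-T]** `ErgC` of the model at an overgroup of finite index. -/
theorem ergC_td_over (N : Subgroup E) (hNo : IsOpen (N : Set E)) (hi : N.FiniteIndex) (h : Td N)
    (hN : ¬ CompactSpace N)
    (hΓ : ∀ g : Γ, g ≠ 1 → Set.Infinite {y : Γ | ∃ h, y = h * g * h⁻¹})
    (hα : AF α) (hβ : AF β) (hγ : AF γ)
    (hΛ : ∀ s : Λ, s ≠ 1 → Set.Infinite {y : Λ | ∃ h, y = h * s * h⁻¹}) (hp : DenseRange p)
    (ho : ∀ U : Subgroup E, IsOpen (U : Set E) → ∀ g : Γ, g ≠ 1 →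
      Set.Infinite {y : Γ | ∃ k ∈ U.comap p, y = k * g * k⁻¹}) :
    ErgC p (V3 hα hβ hγ) (A3R hα hβ hγ) (B3R hα hβ hγ) :=
  ergC_tdV (TdV.of_sub N hNo hi h hN) hΓ hα hβ hγ hΛ hp ho

end erg

end Vale.Agent.P092.TV628
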