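import Vale.Agent.P092.H628.TorBd

/-!
The bound of the `Γ`-trace of a minimal projection, and finite dimensionality.
-/

set_option linter.all false

open scoped InnerProductSpace ENNReal
open Filter Topology ContinuousLinearMap

namespace Vale.Agent.P092.H628

open Vale.Agent.P092.H160 (RegRep Cmm)

/-- Orthogonality of blocks of projections. -/
theorem block_bessel {H : Type} [NormedAddCommGroup H] [InnerProductSpace ℂ H] [CompleteSpace H]
    {ι κ : Type} [Fintype κ] (s : Finset ι) (E : ι → κ → H →L[ℂ] H)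
    (h1 : ∀ i j, adjoint (E i j) = E i j) (h2 : ∀ i j, E i j * E i j = E i j)
    (h3 : ∀ i ∈ s, ∀ i' ∈ s, i ≠ i' → ∀ j j', E i j * E i' j' = 0) (ζ : H) :
    ∑ i ∈ s, ∑ j, ‖E i j ζ‖ ^ 2 ≤ Fintype.card κ * ‖ζ‖ ^ 2 := by
  set w : ι → H := fun i => ∑ j, E i j ζ with hw
  set W : H := ∑ i ∈ s, w i with hW
  set t : ℝ := ∑ i ∈ s, ∑ j, ‖E i j ζ‖ ^ 2 with ht
  have e1 : ∀ i j, ⟪ζ, E i j ζ⟫_ℂ = ((‖E i j ζ‖ ^ 2 : ℝ) : ℂ) := by
    intro i j
    have : ⟪E i j ζ, E i j ζ⟫_ℂ = ⟪ζ, E i j ζ⟫_ℂ := by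
      rw [← adjoint_inner_right, h1, ← H160.mul_ap, h2]
    rw [← this, inner_self_eq_norm_sq_to_K]
    norm_cast
  have e2 : ⟪ζ, W⟫_ℂ = (t : ℂ) := by
    rw [hW, hw, ht]
    simp only [inner_sum, e1]
    push_cast
    rfl
  have e3 : t ≤ ‖ζ‖ * ‖W‖ := by
    have h4 : t = (⟪ζ, W⟫_ℂ).re := by rw [e2, Complex.ofReal_re]
    rw [h4]
    exact (Complex.re_le_norm _).trans (norm_inner_le_norm _ _)
  have e4 : ⟪W, W⟫_ℂ = ∑ i ∈ s, ((‖w i‖ ^ 2 : ℝ) : ℂ) := by
    rw [hW]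
    simp only [sum_inner, inner_sum]
    refine Finset.sum_congr rfl fun i hi => ?_
    rw [Finset.sum_eq_single i]
    · rw [inner_self_eq_norm_sq_to_K]
      norm_cast
    · intro i' hi' hne
      rw [hw]
      simp only [sum_inner, inner_sum]
      refine Finset.sum_eq_zero fun j _ => Finset.sum_eq_zero fun j' _ => ?_
      first
        | (rw [← adjoint_inner_right, h1, ← H160.mul_ap, h3 _ hi _ hi' (Ne.symm hne)]; simp)
        | (rw [← adjoint_inner_right, h1, ← H160.mul_ap, h3 _ hi' _ hi hne]; simp)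
    · intro h; exact absurd hi h
  have e5 : ‖W‖ ^ 2 ≤ Fintype.card κ * t := by
    have h5 : (‖W‖ ^ 2 : ℝ) = ∑ i ∈ s, ‖w i‖ ^ 2 := by
      rw [inner_self_eq_norm_sq_to_K] at e4
      apply Complex.ofReal_injective
      push_cast
      push_cast at e4
      exact e4
    rw [h5, ht, Finset.mul_sum]
    refine Finset.sum_le_sum fun i _ => ?_
    calc ‖w i‖ ^ 2 ≤ (∑ j, ‖E i j ζ‖) ^ 2 := by
          gcongr
          exact norm_sum_le _ _
      _ ≤ _ := by
          have := sq_sum_le_card_mul_sum_sq (s := (Finset.univ : Finset κ))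
            (f := fun j => ‖E i j ζ‖)
          simpa using this
  have ht0 : 0 ≤ t := by
    rw [ht]; exact Finset.sum_nonneg fun i _ => Finset.sum_nonneg fun j _ => by positivity
  rcases ht0.eq_or_lt with h0 | hpos
  · rw [← h0]; positivity
  · have h6 : t * t ≤ (Fintype.card κ * ‖ζ‖ ^ 2) * t := by
      calc t * t ≤ (‖ζ‖ * ‖W‖) * (‖ζ‖ * ‖W‖) := by gcongr
        _ = ‖ζ‖ ^ 2 * ‖W‖ ^ 2 := by ring
        _ ≤ ‖ζ‖ ^ 2 * (Fintype.card κ * t) := by gcongr
        _ = _ := by ring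
    exact le_of_mul_le_mul_right h6 hpos

variable {Γ Λ : Type} [Group Γ] [Group Λ] {H : Type} [NormedAddCommGroup H]
  [InnerProductSpace ℂ H] [CompleteSpace H]
  {lam : Γ →* (H →L[ℂ] H)} {R : Λ →* (H →L[ℂ] H)} {ξ : H} {𝒰 : Set (Subgroup Γ)}
  {D : Subgroup Λ}

theorem Mn.bound (h : Sys lam R ξ 𝒰) {e : H →L[ℂ] H} (he : Mn lam R ξ 𝒰 D e)
    (hD : D.index = 0) {Θ₀ : Subgroup Γ} (hV : VolBd 𝒰 Θ₀) {U : Subgroup Γ} (hU : U ∈ 𝒰)
    (hUΘ : U ≤ Θ₀) (hUe : Com lam U e) {p : H →L[ℂ] H} (hp : adjoint p = p)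
    (hpl : Cmm lam p) (hpe : p * e = e) :
    nn lam U ξ e ≤ (U.relIndex Θ₀ : ℝ≥0∞) * ‖p ξ‖ₑ ^ 2 := by
  classical
  set O := Ostab h he with hO
  have hUO : U ≤ O := le_Ostab h he hUe
  obtain ⟨hv1, hv2, hv3⟩ := hV.2 O (Ostab_mem h he) (Ostab_ne_top h he hD) U hU hUO hUΘ
  have hfin : Finite (O ⧸ U.subgroupOf O) := by
    have : (U.subgroupOf O).FiniteIndex := ⟨hv1⟩
    exact Subgroup.finite_quotient_of_finiteIndex
  haveI : Fintype (O ⧸ U.subgroupOf O) := Fintype.ofFinite _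
  have hcard : Fintype.card (O ⧸ U.subgroupOf O) = U.relIndex O := by
    rw [Subgroup.relIndex, Subgroup.index, Nat.card_eq_fintype_card]
  have hep : e * p = e := by
    have := congrArg adjoint hpe
    rwa [adj_mul, hp, he.adj] at this
  have hval : ∀ g : Γ, fn lam ξ e g = ENNReal.ofReal (‖cj lam g e (p ξ)‖ ^ 2) := by
    intro g
    unfold fn cj
    rw [esq]
    congr 2
    have : (lam g * e * lam g⁻¹) (p ξ) = lam g (e (lam g⁻¹ ξ)) := by
      rw [H160.mul_ap, H160.mul_ap, ← hpl.apply, ← H160.mul_ap e p, hep]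
    rw [this, h.regL.norm_map]
  have hfn : RInv U (fn lam ξ e) := rinv h.regL hUe ξ
  have h1 : nn lam U ξ e = ∑' q : Γ ⧸ O, ∑' k : O ⧸ U.subgroupOf O,
      ENNReal.ofReal (‖cj lam (q.out * (k.out : O)) e (p ξ)‖ ^ 2) := by
    unfold nn
    rw [sq_sub hUO hfn]
    unfold sq
    exact tsum_congr fun q => tsum_congr fun k => hval _
  rw [h1]
  have h2 : ∀ s : Finset (Γ ⧸ O), ∑ q ∈ s, ∑' k : O ⧸ U.subgroupOf O,
      ENNReal.ofReal (‖cj lam (q.out * (k.out : O)) e (p ξ)‖ ^ 2)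
      ≤ ENNReal.ofReal (U.relIndex O * ‖p ξ‖ ^ 2) := by
    intro s
    have h3 := block_bessel s (fun (q : Γ ⧸ O) (k : O ⧸ U.subgroupOf O) =>
      cj lam (q.out * (k.out : O)) e)
      (fun q k => by
        show adjoint (cj lam (q.out * (k.out : O)) e) = _
        rw [cj_adj h.regL, he.adj])
      (fun q k => by
        show cj lam (q.out * (k.out : O)) e * cj lam (q.out * (k.out : O)) e = _
        rw [← cj_mul, he.idem])
      (by
        intro q _ q' _ hne k k'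
        apply cj_mul_cj h he
        intro hmem
        apply hne
        have h4 : q.out⁻¹ * q'.out ∈ O := by
          have e1 : q.out⁻¹ * q'.out = (k.out : O) *
              ((q.out * (k.out : O))⁻¹ * (q'.out * (k'.out : O))) * ((k'.out : O) : Γ)⁻¹ := by
            group
          rw [e1]
          exact O.mul_mem (O.mul_mem (k.out : O).2 hmem) (O.inv_mem (k'.out : O).2)
        have h5 := QuotientGroup.eq.mpr h4
        simpa using h5) (p ξ)
    rw [hcard] at h3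
    refine le_trans (le_of_eq ?_) (ENNReal.ofReal_le_ofReal h3)
    rw [ENNReal.ofReal_sum_of_nonneg fun q _ => Finset.sum_nonneg fun k _ => by positivity]
    refine Finset.sum_congr rfl fun q _ => ?_
    rw [ENNReal.ofReal_sum_of_nonneg fun k _ => by positivity, tsum_fintype]
  calc _ ≤ ENNReal.ofReal (U.relIndex O * ‖p ξ‖ ^ 2) := by
        rw [ENNReal.tsum_eq_iSup_sum]
        exact iSup_le h2
    _ ≤ ENNReal.ofReal (U.relIndex Θ₀ * ‖p ξ‖ ^ 2) := by
        apply ENNReal.ofReal_le_ofReal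
        have : (U.relIndex O : ℝ) ≤ U.relIndex Θ₀ := by exact_mod_cast hv3
        gcongr
    _ = _ := by
        rw [ENNReal.ofReal_mul (by positivity), ENNReal.ofReal_natCast, esq]

/-- the submodule `Q^D e` -/
def Ve (h : Sys lam R ξ 𝒰) (D : Subgroup Λ) (e : H →L[ℂ] H) : Submodule ℂ (H →L[ℂ] H) where
  carrier := {x | Qd lam R ξ 𝒰 D x ∧ x * e = x}
  add_mem' := fun {x y} hx hy => ⟨hx.1.add h hy.1, by rw [add_mul, hx.2, hy.2]⟩
  zero_mem' := ⟨Qd.zero h, zero_mul _⟩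
  smul_mem' := fun c x hx => ⟨hx.1.smul c, by rw [smul_mul_assoc, hx.2]⟩

theorem mem_Ve (h : Sys lam R ξ 𝒰) {e x : H →L[ℂ] H} :
    x ∈ Ve h D e ↔ Qd lam R ξ 𝒰 D x ∧ x * e = x := Iff.rfl

theorem Mn.fd (h : Sys lam R ξ 𝒰) {e : H →L[ℂ] H} (he : Mn lam R ξ 𝒰 D e) :
    FiniteDimensional ℂ (Ve h D e) := by
  classical
  obtain ⟨n, x, h1, h2, h3, h4⟩ := he.exists_basis h
  have hle : Ve h D e ≤ Submodule.span ℂ (Set.range x) := by
    intro y hy
    rw [h4 y hy.1 hy.2]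
    exact Submodule.sum_mem _ fun i _ => Submodule.smul_mem _ _ (Submodule.subset_span ⟨i, rfl⟩)
  haveI : FiniteDimensional ℂ (Submodule.span ℂ (Set.range x)) :=
    FiniteDimensional.span_of_finite ℂ (Set.finite_range x)
  exact Submodule.finiteDimensional_of_le hle

/-- The centralizer of a subgroup `C'` for which there is a minimal projection is finite. -/
theorem Mn.finite_centralizer (h : Sys lam R ξ 𝒰) {e : H →L[ℂ] H} (he : Mn lam R ξ 𝒰 D e)
    (B : Subgroup Λ) (hB : ∀ b ∈ B, ∀ d ∈ D, b * d = d * b) : Finite B := by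
  classical
  obtain ⟨n, x, h1, h2, h3, h4⟩ := he.exists_basis h
  by_contra hinf
  rw [not_finite_iff_infinite] at hinf
  have hcom : ∀ b : B, Com R D (R (b : Λ)) := by
    intro b d hd
    rw [← map_mul, ← map_mul, hB b b.2 d hd]
  have hQ : ∀ b : B, Qd lam R ξ 𝒰 D (R (b : Λ) * e) := fun b =>
    he.mem.mulL h (h.comRL b) (hcom b)
  have hQe : ∀ b : B, (R (b : Λ) * e) * e = R (b : Λ) * e := fun b => by
    rw [mul_assoc, he.idem]
  have hten : ∀ i, Tendsto (fun b : B => ip R D ξ (x i) (R (b : Λ) * e)) cofinite (𝓝 0) := by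
    intro i
    have hx1 := (h1 i).fin
    have he1 := he.mem.fin
    have h5 : Tendsto (fun b : B => ∑' q : Λ ⧸ D,
        ⟪x i (R (q.out)⁻¹ ξ), R (b : Λ) (e (R (q.out)⁻¹ ξ))⟫_ℂ)
        cofinite (𝓝 (∑' q : Λ ⧸ D, (0 : ℂ))) := by
      refine tendsto_tsum_of_dominated_convergence
        (bound := fun q : Λ ⧸ D => ‖x i (R (q.out)⁻¹ ξ)‖ ^ 2 + ‖e (R (q.out)⁻¹ ξ)‖ ^ 2)
        ((esum hx1).add (esum he1))
        (fun q => (coeff0 h.regR _ _).comp Subtype.val_injective.tendsto_cofinite)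
        (Eventually.of_forall fun k q => ?_)
      refine (norm_inner_le_norm _ _).trans ?_
      rw [h.regR.norm_map]
      nlinarith [sq_nonneg (‖x i (R (q.out)⁻¹ ξ)‖ - ‖e (R (q.out)⁻¹ ξ)‖),
        sq_nonneg ‖x i (R (q.out)⁻¹ ξ)‖, sq_nonneg ‖e (R (q.out)⁻¹ ξ)‖]
    rw [tsum_zero] at h5
    exact h5
  have hexp : ∀ b : B, R (b : Λ) * e = ∑ i, ip R D ξ (x i) (R (b : Λ) * e) • x i := fun b =>
    h4 _ (hQ b) (hQe b)
  have h6 : Tendsto (fun b : B => R (b : Λ) * e) cofinite (𝓝 0) := by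
    have h7 : Tendsto (fun b : B => ∑ i, ip R D ξ (x i) (R (b : Λ) * e) • x i) cofinite
        (𝓝 (∑ i, (0 : ℂ) • x i)) :=
      tendsto_finsetSum _ fun i _ => (hten i).smul_const _
    simp only [zero_smul, Finset.sum_const_zero] at h7
    exact h7.congr fun b => (hexp b).symm
  have h8 : ∀ b : B, ‖R (b : Λ) * e‖ = ‖e‖ := by
    intro b
    apply le_antisymm
    · refine (R (b : Λ) * e).opNorm_le_bound (norm_nonneg _) fun ζ => ?_
      rw [H160.mul_ap, h.regR.norm_map]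
      exact e.le_opNorm ζ
    · refine e.opNorm_le_bound (norm_nonneg _) fun ζ => ?_
      have := (R (b : Λ) * e).le_opNorm ζ
      rwa [H160.mul_ap, h.regR.norm_map] at this
  have h9 := h6.norm
  simp only [h8, norm_zero] at h9
  have h10 := tendsto_nhds_unique h9 tendsto_const_nhds
  exact he.ne (norm_eq_zero.mp h10.symm)

end Vale.Agent.P092.H628
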