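import Mathlib

/-!
Sums over left cosets `G ⧸ K` of right `K`-invariant functions with values in `ℝ≥0∞`.
-/

set_option linter.all false

open scoped ENNReal

namespace Vale.Agent.P092.H628

section sums

variable {G : Type} [Group G] {K : Subgroup G}

/-- `f` is right `K`-invariant. -/
def RInv {α : Type} (K : Subgroup G) (f : G → α) : Prop := ∀ g, ∀ k ∈ K, f (g * k) = f g

/-- The sum of `f` over `G ⧸ K`. -/
noncomputable def sq (K : Subgroup G) (f : G → ℝ≥0∞) : ℝ≥0∞ := ∑' q : G ⧸ K, f q.out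

theorem RInv.out {α : Type} {f : G → α} (h : RInv K f) (g : G) : f ((g : G ⧸ K)).out = f g := by
  obtain ⟨k, hk⟩ := QuotientGroup.mk_out_eq_mul K g
  rw [hk, h g k k.2]

theorem RInv.mono {α : Type} {K' : Subgroup G} {f : G → α} (h : RInv K f) (hK : K' ≤ K) :
    RInv K' f := fun g k hk => h g k (hK hk)

theorem sq_mono {f f' : G → ℝ≥0∞} (h : ∀ g, f g ≤ f' g) : sq K f ≤ sq K f' :=
  ENNReal.tsum_le_tsum fun q => h _

theorem sq_mul_left (c : ℝ≥0∞) (f : G → ℝ≥0∞) : sq K (fun g => c * f g) = c * sq K f :=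
  ENNReal.tsum_mul_left

theorem sq_congr {f f' : G → ℝ≥0∞} (h : ∀ g, f g = f' g) : sq K f = sq K f' := by
  unfold sq; simp only [h]

theorem sq_tsum {ι : Type} (f : ι → G → ℝ≥0∞) :
    sq K (fun g => ∑' i, f i g) = ∑' i, sq K (f i) :=
  ENNReal.tsum_comm

theorem bij_out (K : Subgroup G) :
    Function.Bijective (fun p : (G ⧸ K) × K => p.1.out * (p.2 : G)) := by
  constructor
  · rintro ⟨q, k⟩ ⟨q', k'⟩ h
    have h1 : q = q' := by
      have h2 := congrArg (fun g : G => (g : G ⧸ K)) h
      simpa using h2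
    subst h1
    simp only [mul_right_inj, SetLike.coe_eq_coe] at h
    rw [h]
  · intro g
    obtain ⟨k, hk⟩ := QuotientGroup.mk_out_eq_mul K g
    refine ⟨((g : G ⧸ K), k⁻¹), ?_⟩
    simp only [hk]
    simp

/-- full sum -/
theorem tsum_eq_sq (K : Subgroup G) (f : G → ℝ≥0∞) :
    ∑' g, f g = sq K (fun g => ∑' k : K, f (g * k)) := by
  unfold sq
  rw [← (Equiv.ofBijective _ (bij_out K)).tsum_eq, ENNReal.tsum_prod']
  rfl

theorem sq_sub {K' : Subgroup G} (hK : K' ≤ K) {f : G → ℝ≥0∞} (hf : RInv K' f) :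
    sq K' f = sq K (fun g => sq (K'.subgroupOf K) (fun k => f (g * k))) := by
  unfold sq
  rw [← (Subgroup.quotientEquivProdOfLE hK).symm.tsum_eq, ENNReal.tsum_prod']
  refine tsum_congr fun q => tsum_congr fun k => ?_
  have h1 : (Subgroup.quotientEquivProdOfLE hK).symm (q, k)
      = ((q.out * (k.out : K) : G) : G ⧸ K') := by
    rw [Equiv.symm_apply_eq]
    ext
    · simp [Subgroup.quotientEquivProdOfLE, Subgroup.quotientEquivProdOfLE']
    · simp [Subgroup.quotientEquivProdOfLE, Subgroup.quotientEquivProdOfLE']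
  rw [h1, hf.out]

theorem sq_const {K' : Subgroup G} (hK : K' ≤ K) {f : G → ℝ≥0∞} (hf : RInv K f) :
    sq K' f = ENat.card (K ⧸ (K'.subgroupOf K)) * sq K f := by
  rw [sq_sub hK (hf.mono hK), ← sq_mul_left]
  refine sq_congr fun g => ?_
  have h1 : (fun k : K => f (g * k)) = fun _ => f g := by
    funext k; exact hf g k k.2
  rw [h1]
  unfold sq
  rw [ENNReal.tsum_const]

/-- Reindexing by a translation on the left. -/
theorem sq_translate {f : G → ℝ≥0∞} (hf : RInv K f) (a : G) :
    sq K (fun g => f (a * g)) = sq K f := by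
  unfold sq
  rw [← (MulAction.toPerm (α := G) (β := G ⧸ K) a).tsum_eq (fun q => f q.out)]
  refine tsum_congr fun q => ?_
  obtain ⟨g, rfl⟩ := QuotientGroup.mk_surjective q
  have h1 : (MulAction.toPerm a : Equiv.Perm (G ⧸ K)) (g : G ⧸ K) = ((a * g : G) : G ⧸ K) := rfl
  have h2 : RInv K (fun g => f (a * g)) := fun x k hk => by
    show f (a * (x * k)) = f (a * x)
    rw [← mul_assoc, hf _ k hk]
  rw [h1, hf.out]
  exact h2.out g

/-- Part of a sum. -/
theorem sq_part (C : Subgroup G) {f : G → ℝ≥0∞} (hf : RInv K f) :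
    sq (K.subgroupOf C) (fun c : C => f c) ≤ sq K f := by
  unfold sq
  let e : C ⧸ (K.subgroupOf C) → G ⧸ K :=
    Quotient.map' (fun c : C => (c : G)) (by
      intro a b h
      rw [QuotientGroup.leftRel_apply] at h ⊢
      exact h)
  have he : ∀ c : C, e (c : C ⧸ (K.subgroupOf C)) = ((c : G) : G ⧸ K) := fun c => rfl
  have hinj : Function.Injective e := by
    intro a b h
    obtain ⟨a, rfl⟩ := QuotientGroup.mk_surjective a
    obtain ⟨b, rfl⟩ := QuotientGroup.mk_surjective b
    rw [he, he, QuotientGroup.eq] at h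
    rw [QuotientGroup.eq]
    exact h
  refine le_trans (le_of_eq ?_) (ENNReal.tsum_comp_le_tsum_of_injective hinj _)
  refine tsum_congr fun q => ?_
  obtain ⟨c, rfl⟩ := QuotientGroup.mk_surjective q
  rw [he, hf.out]
  have h2 : RInv (K.subgroupOf C) (fun c : C => f c) := fun x k hk => hf x k hk
  exact h2.out c

/-- Conjugation of the subgroup. -/
theorem sq_conj {K' : Subgroup G} {f : G → ℝ≥0∞} (hf : RInv K f) (w : G)
    (hK : ∀ k, k ∈ K' ↔ w⁻¹ * k * w ∈ K) :
    sq K' (fun g => f (g * w)) = sq K f := by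
  unfold sq
  let e : G ⧸ K' ≃ G ⧸ K :=
    { toFun := Quotient.map' (fun g : G => g * w) (by
        intro a b h
        rw [QuotientGroup.leftRel_apply] at h ⊢
        rw [hK] at h
        convert h using 1
        group)
      invFun := Quotient.map' (fun g : G => g * w⁻¹) (by
        intro a b h
        rw [QuotientGroup.leftRel_apply] at h ⊢
        rw [hK]
        convert h using 1
        group)
      left_inv := by
        intro q
        obtain ⟨g, rfl⟩ := QuotientGroup.mk_surjective q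
        show ((g * w * w⁻¹ : G) : G ⧸ K') = g
        rw [mul_inv_cancel_right]
      right_inv := by
        intro q
        obtain ⟨g, rfl⟩ := QuotientGroup.mk_surjective q
        show ((g * w⁻¹ * w : G) : G ⧸ K) = g
        rw [inv_mul_cancel_right] }
  have he : ∀ g : G, e (g : G ⧸ K') = ((g * w : G) : G ⧸ K) := fun g => rfl
  rw [← e.tsum_eq]
  refine tsum_congr fun q => ?_
  obtain ⟨g, rfl⟩ := QuotientGroup.mk_surjective q
  rw [he, hf.out]
  have h2 : RInv K' (fun g => f (g * w)) := fun x k hk => by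
    show f (x * k * w) = f (x * w)
    have h3 : x * k * w = x * w * (w⁻¹ * k * w) := by group
    rw [h3, hf _ _ ((hK k).mp hk)]
  exact h2.out g

/-- Symmetry of sums of functions which are invariant under the diagonal action. -/
theorem sq_swap (h : G → G → ℝ≥0∞) (hh : ∀ a b, ∀ k ∈ K, h (a * k) (b * k) = h a b) :
    sq K (fun a => ∑' b, h a b) = sq K (fun b => ∑' a, h a b) := by
  have e1 : sq K (fun a => ∑' b, h a b)
      = ∑' q : G ⧸ K, ∑' q' : G ⧸ K, ∑' k : K, h q.out (q'.out * k) := by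
    unfold sq
    refine tsum_congr fun q => ?_
    exact tsum_eq_sq K _
  have e2 : sq K (fun b => ∑' a, h a b)
      = ∑' q' : G ⧸ K, ∑' q : G ⧸ K, ∑' k : K, h (q.out * k) q'.out := by
    unfold sq
    refine tsum_congr fun q => ?_
    exact tsum_eq_sq K _
  rw [e1, e2, ENNReal.tsum_comm]
  refine tsum_congr fun q' => tsum_congr fun q => ?_
  rw [← (Equiv.inv K).tsum_eq]
  refine tsum_congr fun k => ?_
  rw [← hh q.out _ (k : G) k.2]
  simp

end sums

end Vale.Agent.P092.H628
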