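import Vale.Agent.P092.H160.Rep
import Vale.Agent.P092.H628.TorSum

/-!
Relative Hilbert-Schmidt norms: for a regular representation `π` of `G` with trace vector `ξ`,
a subgroup `K` and an operator `x` commuting with `π(K)`,
`nn π K ξ x = ∑_{q ∈ G ⧸ K} ‖x π(q)⁻¹ ξ‖²`.
-/

set_option linter.all false

open scoped InnerProductSpace ENNReal
open Filter Topology ContinuousLinearMap

namespace Vale.Agent.P092.H628

open Vale.Agent.P092.H160 (RegRep Cmm)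

theorem esq {E : Type} [SeminormedAddCommGroup E] (z : E) :
    ‖z‖ₑ ^ 2 = ENNReal.ofReal (‖z‖ ^ 2) := by
  rw [← ofReal_norm_eq_enorm, ENNReal.ofReal_pow (norm_nonneg _)]

section gen

variable {G : Type} [Group G] {H : Type} [NormedAddCommGroup H] [InnerProductSpace ℂ H]
    [CompleteSpace H] {π : G →* (H →L[ℂ] H)} {ξ : H} {K : Subgroup G}

/-- `x` commutes with `π(K)`. -/
def Com (π : G →* (H →L[ℂ] H)) (K : Subgroup G) (x : H →L[ℂ] H) : Prop :=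
  ∀ k ∈ K, x * π k = π k * x

theorem Com.apply {x : H →L[ℂ] H} (h : Com π K x) {k : G} (hk : k ∈ K) (v : H) :
    x (π k v) = π k (x v) := congrArg (fun T : H →L[ℂ] H => T v) (h k hk)

theorem Com.mul {x y : H →L[ℂ] H} (hx : Com π K x) (hy : Com π K y) : Com π K (x * y) :=
  fun k hk => by rw [mul_assoc, hy k hk, ← mul_assoc, hx k hk, mul_assoc]

theorem Com.add {x y : H →L[ℂ] H} (hx : Com π K x) (hy : Com π K y) : Com π K (x + y) :=
  fun k hk => by rw [add_mul, mul_add, hx k hk, hy k hk]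

theorem Com.sub {x y : H →L[ℂ] H} (hx : Com π K x) (hy : Com π K y) : Com π K (x - y) :=
  fun k hk => by rw [sub_mul, mul_sub, hx k hk, hy k hk]

theorem Com.smul {x : H →L[ℂ] H} (c : ℂ) (hx : Com π K x) : Com π K (c • x) :=
  fun k hk => by rw [smul_mul_assoc, mul_smul_comm, hx k hk]

theorem Com.one : Com π K (1 : H →L[ℂ] H) := fun k _ => by rw [one_mul, mul_one]

theorem Com.zero : Com π K (0 : H →L[ℂ] H) := fun k _ => by rw [zero_mul, mul_zero]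

theorem Com.pow {x : H →L[ℂ] H} (hx : Com π K x) (n : ℕ) : Com π K (x ^ n) := by
  induction n with
  | zero => rw [pow_zero]; exact Com.one
  | succ n ih => rw [pow_succ]; exact ih.mul hx

theorem Com.sum {ι : Type} {s : Finset ι} {x : ι → H →L[ℂ] H} (hx : ∀ i ∈ s, Com π K (x i)) :
    Com π K (∑ i ∈ s, x i) := fun k hk => by
  rw [Finset.sum_mul, Finset.mul_sum]
  exact Finset.sum_congr rfl fun i hi => hx i hi k hk

theorem Com.mono {K' : Subgroup G} {x : H →L[ℂ] H} (hx : Com π K x) (hK : K' ≤ K) :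
    Com π K' x := fun k hk => hx k (hK hk)

theorem Com.of_cmm {x : H →L[ℂ] H} (hx : Cmm π x) : Com π K x := fun k _ => hx k

theorem com_top {x : H →L[ℂ] H} (hx : Com π ⊤ x) : Cmm π x := fun k => hx k trivial

theorem Com.adj (h : RegRep π ξ) {x : H →L[ℂ] H} (hx : Com π K x) : Com π K (adjoint x) := by
  intro g hg
  have h1 := congrArg adjoint (hx g⁻¹ (K.inv_mem hg))
  rw [← star_eq_adjoint, ← star_eq_adjoint, star_mul, star_mul, star_eq_adjoint (π g⁻¹),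
    h.adj, inv_inv, star_eq_adjoint] at h1
  exact h1.symm

/-- conjugation -/
theorem Com.conj (h : RegRep π ξ) {x : H →L[ℂ] H} (hx : Com π K x) (w : G) {K' : Subgroup G}
    (hK : ∀ k ∈ K', w⁻¹ * k * w ∈ K) : Com π K' (π w * x * π w⁻¹) := by
  intro k hk
  have h1 : π w⁻¹ * π k = π (w⁻¹ * k * w) * π w⁻¹ := by
    rw [← map_mul, ← map_mul]; congr 1; group
  have h2 : π w * π (w⁻¹ * k * w) = π k * π w := by
    rw [← map_mul, ← map_mul]; congr 1; group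
  calc π w * x * π w⁻¹ * π k = π w * x * (π w⁻¹ * π k) := by rw [mul_assoc]
    _ = π w * (x * π (w⁻¹ * k * w)) * π w⁻¹ := by rw [h1]; simp only [mul_assoc]
    _ = π w * π (w⁻¹ * k * w) * x * π w⁻¹ := by rw [hx _ (hK k hk)]; simp only [mul_assoc]
    _ = π k * (π w * x * π w⁻¹) := by rw [h2]; simp only [mul_assoc]

theorem enorm_map (h : RegRep π ξ) (g : G) (v : H) : ‖π g v‖ₑ = ‖v‖ₑ := by
  rw [← ofReal_norm_eq_enorm, h.norm_map, ofReal_norm_eq_enorm]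

/-- the function whose sum over cosets is the norm -/
noncomputable def fn (π : G →* (H →L[ℂ] H)) (ζ : H) (x : H →L[ℂ] H) (g : G) : ℝ≥0∞ :=
  ‖x (π g⁻¹ ζ)‖ₑ ^ 2

theorem rinv (h : RegRep π ξ) {x : H →L[ℂ] H} (hx : Com π K x) (ζ : H) :
    RInv K (fn π ζ x) := by
  intro g k hk
  unfold fn
  rw [mul_inv_rev, map_mul, H160.mul_ap, hx.apply (K.inv_mem hk), enorm_map h]

/-- the relative Hilbert-Schmidt norm (squared) -/
noncomputable def nn (π : G →* (H →L[ℂ] H)) (K : Subgroup G) (ζ : H) (x : H →L[ℂ] H) : ℝ≥0∞ :=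
  sq K (fn π ζ x)

theorem parseval (h : RegRep π ξ) (u : H) : ∑' g, ‖⟪π g ξ, u⟫_ℂ‖ₑ ^ 2 = ‖u‖ₑ ^ 2 := by
  have h1 : HasSum (fun g => ‖⟪π g ξ, u⟫_ℂ‖ ^ 2) (‖u‖ ^ 2) := by
    have h2 := h.hasSum_inner u u
    rw [inner_self_eq_norm_sq_to_K] at h2
    have h3 : (fun g => ⟪u, π g ξ⟫_ℂ * ⟪π g ξ, u⟫_ℂ) = fun g => ((‖⟪π g ξ, u⟫_ℂ‖ ^ 2 : ℝ) : ℂ) := by
      funext g
      rw [← inner_conj_symm u, RCLike.conj_mul]
      norm_cast
    rw [h3] at h2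
    have h5 : HasSum (fun g => ((‖⟪π g ξ, u⟫_ℂ‖ ^ 2 : ℝ) : ℂ)) ((‖u‖ ^ 2 : ℝ) : ℂ) := by
      convert h2 using 1
      push_cast
      rfl
    exact Complex.hasSum_ofReal.mp h5
  rw [esq, ← h1.tsum_eq, ENNReal.ofReal_tsum_of_nonneg (fun _ => by positivity) h1.summable]
  exact tsum_congr fun g => esq _

theorem parseval_inv (h : RegRep π ξ) (u : H) : ∑' g : G, ‖⟪π g⁻¹ ξ, u⟫_ℂ‖ₑ ^ 2 = ‖u‖ₑ ^ 2 := by
  rw [← parseval h u]
  exact (Equiv.inv G).tsum_eq (fun g => ‖⟪π g ξ, u⟫_ℂ‖ₑ ^ 2)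

theorem enorm_inner_symm (u v : H) : ‖⟪u, v⟫_ℂ‖ₑ = ‖⟪v, u⟫_ℂ‖ₑ := by
  rw [← ofReal_norm_eq_enorm, norm_inner_symm, ofReal_norm_eq_enorm]

/-- The trace property. -/
theorem nn_adjoint (h : RegRep π ξ) {x : H →L[ℂ] H} (hx : Com π K x) :
    nn π K ξ (adjoint x) = nn π K ξ x := by
  have e1 : ∀ (y : H →L[ℂ] H) (a : G), fn π ξ y a = ∑' b : G, ‖⟪π b⁻¹ ξ, y (π a⁻¹ ξ)⟫_ℂ‖ₑ ^ 2 :=
    fun y a => (parseval_inv h _).symm
  have h2 := sq_swap (K := K) (fun a b => ‖⟪π b⁻¹ ξ, x (π a⁻¹ ξ)⟫_ℂ‖ₑ ^ 2) (by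
    intro a b k hk
    show ‖⟪π (b * k)⁻¹ ξ, x (π (a * k)⁻¹ ξ)⟫_ℂ‖ₑ ^ 2 = _
    rw [mul_inv_rev, mul_inv_rev, map_mul, map_mul, H160.mul_ap, H160.mul_ap,
      hx.apply (K.inv_mem hk), h.inner_map])
  have e2 : ∀ b : G, ∑' a : G, ‖⟪π b⁻¹ ξ, x (π a⁻¹ ξ)⟫_ℂ‖ₑ ^ 2 = fn π ξ (adjoint x) b := by
    intro b
    rw [e1]
    refine tsum_congr fun a => ?_
    rw [← adjoint_inner_left, enorm_inner_symm]
  unfold nn
  rw [sq_congr (K := K) (e1 x), h2]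
  exact sq_congr fun b => (e2 b).symm

theorem enorm_le_op (y : H →L[ℂ] H) (v : H) : ‖y v‖ₑ ≤ ‖y‖ₑ * ‖v‖ₑ := by
  rw [← ofReal_norm_eq_enorm, ← ofReal_norm_eq_enorm, ← ofReal_norm_eq_enorm,
    ← ENNReal.ofReal_mul (norm_nonneg _)]
  exact ENNReal.ofReal_le_ofReal (y.le_opNorm v)

theorem nn_mul_left (y x : H →L[ℂ] H) (ζ : H) :
    nn π K ζ (y * x) ≤ ‖y‖ₑ ^ 2 * nn π K ζ x := by
  unfold nn
  rw [← sq_mul_left]
  refine sq_mono fun g => ?_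
  unfold fn
  rw [← mul_pow]
  exact pow_le_pow_left' (enorm_le_op y _) 2

theorem enorm_adj (x : H →L[ℂ] H) : ‖adjoint x‖ₑ = ‖x‖ₑ := by
  rw [← ofReal_norm_eq_enorm, LinearIsometryEquiv.norm_map, ofReal_norm_eq_enorm]

theorem adj_mul (x y : H →L[ℂ] H) : adjoint (x * y) = adjoint y * adjoint x := by
  rw [← star_eq_adjoint, star_mul, star_eq_adjoint, star_eq_adjoint]

theorem adj_adj (x : H →L[ℂ] H) : adjoint (adjoint x) = x := adjoint_adjoint x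

theorem nn_mul_right (h : RegRep π ξ) {x y : H →L[ℂ] H} (hx : Com π K x) (hy : Com π K y) :
    nn π K ξ (x * y) ≤ ‖y‖ₑ ^ 2 * nn π K ξ x := by
  rw [← nn_adjoint h (hx.mul hy), adj_mul, ← nn_adjoint h hx, ← enorm_adj y]
  exact nn_mul_left _ _ _

theorem nn_isom_left {u : H →L[ℂ] H} (hu : ∀ v, ‖u v‖ₑ = ‖v‖ₑ) (x : H →L[ℂ] H) (ζ : H) :
    nn π K ζ (u * x) = nn π K ζ x := by
  unfold nn
  refine sq_congr fun g => ?_
  unfold fn
  rw [H160.mul_ap, hu]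

theorem nn_isom_right (h : RegRep π ξ) {x u : H →L[ℂ] H} (hx : Com π K x) (hu : Com π K u)
    (hu' : ∀ v, ‖adjoint u v‖ₑ = ‖v‖ₑ) : nn π K ξ (x * u) = nn π K ξ x := by
  rw [← nn_adjoint h (hx.mul hu), adj_mul, nn_isom_left hu', nn_adjoint h hx]

theorem nn_smul (c : ℂ) (x : H →L[ℂ] H) (ζ : H) :
    nn π K ζ (c • x) = ‖c‖ₑ ^ 2 * nn π K ζ x := by
  unfold nn
  rw [← sq_mul_left]
  refine sq_congr fun g => ?_
  unfold fn
  rw [smul_apply, enorm_smul, mul_pow]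

theorem nn_zero (ζ : H) : nn π K ζ (0 : H →L[ℂ] H) = 0 := by
  have := nn_smul (π := π) (K := K) 0 (0 : H →L[ℂ] H) ζ
  simpa using this

theorem nn_add_le (x y : H →L[ℂ] H) (ζ : H) :
    nn π K ζ (x + y) ≤ 2 * nn π K ζ x + 2 * nn π K ζ y := by
  unfold nn
  rw [← sq_mul_left, ← sq_mul_left]
  unfold sq
  rw [← ENNReal.tsum_add]
  refine ENNReal.tsum_le_tsum fun q => ?_
  unfold fn
  have h1 : ∀ a b : H, ‖a + b‖ₑ ^ 2 ≤ 2 * ‖a‖ₑ ^ 2 + 2 * ‖b‖ₑ ^ 2 := by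
    intro a b
    rw [esq, esq, esq, ← ENNReal.ofReal_ofNat 2, ← ENNReal.ofReal_mul (by norm_num),
      ← ENNReal.ofReal_mul (by norm_num), ← ENNReal.ofReal_add (by positivity) (by positivity)]
    apply ENNReal.ofReal_le_ofReal
    have := norm_add_le a b
    nlinarith [norm_nonneg (a + b), norm_nonneg a, norm_nonneg b, sq_nonneg (‖a‖ - ‖b‖)]
  exact h1 _ _

theorem nn_neg (x : H →L[ℂ] H) (ζ : H) : nn π K ζ (-x) = nn π K ζ x := by
  have := nn_smul (π := π) (K := K) (-1) x ζ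
  simpa using this

theorem nn_sub {K' : Subgroup G} (hK : K' ≤ K) (h : RegRep π ξ) {x : H →L[ℂ] H}
    (hx : Com π K x) (ζ : H) :
    nn π K' ζ x = ENat.card (K ⧸ (K'.subgroupOf K)) * nn π K ζ x :=
  sq_const hK (rinv h hx ζ)

theorem nn_eq_zero (h : RegRep π ξ) {x : H →L[ℂ] H} (hx : Com π K x) (h0 : nn π K ξ x = 0) :
    x = 0 := by
  have h1 : ∀ g : G, fn π ξ x g = 0 := by
    intro g
    rw [← (rinv h hx ξ).out]
    unfold nn sq at h0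
    exact (ENNReal.tsum_eq_zero.mp h0) _
  refine h.ext_op fun g => ?_
  have h2 := h1 g⁻¹
  unfold fn at h2
  rw [inv_inv] at h2
  rw [zero_apply]
  simpa using h2

end gen

end Vale.Agent.P092.H628
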