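import Vale.Agent.P092.H628.TorDefs

/-!
The basic identity: for `x, y ∈ Qd D`,
`∑_{q ∈ Λ ⧸ D} ⟪x R(q)⁻¹ ζ, y R(q)⁻¹ η⟫ = ip x y * ⟪ζ, η⟫`.
-/

set_option linter.all false

open scoped InnerProductSpace ENNReal
open Filter Topology ContinuousLinearMap

namespace Vale.Agent.P092.H628

open Vale.Agent.P092.H160 (RegRep Cmm)

section one

variable {G : Type} [Group G] {H : Type} [NormedAddCommGroup H] [InnerProductSpace ℂ H]
    [CompleteSpace H] {π : G →* (H →L[ℂ] H)} {ξ : H} {K : Subgroup G}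

theorem expand (h : RegRep π ξ) (ζ : H) : HasSum (fun g => ⟪π g ξ, ζ⟫_ℂ • π g ξ) ζ := by
  have h1 := h.basis.hasSum_repr ζ
  simpa only [h.basis.repr_apply_apply, h.basis_apply] using h1

/-- matrix coefficients of a regular representation vanish at infinity -/
theorem coeff0 (h : RegRep π ξ) (u v : H) :
    Tendsto (fun x : G => ⟪u, π x v⟫_ℂ) cofinite (𝓝 0) := by
  have hb : ∀ a : G, Tendsto (fun x : G => ⟪π a ξ, π x v⟫_ℂ) cofinite (𝓝 0) := by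
    intro a
    have h1 : Tendsto (fun y => ⟪π y ξ, v⟫_ℂ) cofinite (𝓝 0) := by
      have h2 := (h.summable_coeff v).tendsto_cofinite_zero
      rw [tendsto_zero_iff_norm_tendsto_zero]
      have h3 := (Real.continuous_sqrt.tendsto 0).comp h2
      rw [Real.sqrt_zero] at h3
      refine h3.congr fun y => ?_
      simp only [Function.comp_apply]
      exact Real.sqrt_sq (norm_nonneg _)
    have hinj : Function.Injective (fun x : G => x⁻¹ * a) := by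
      intro x y hxy
      simpa using hxy
    refine (h1.comp hinj.tendsto_cofinite).congr fun x => ?_
    simp only [Function.comp_apply]
    rw [h.inner_right, map_mul, H160.mul_ap]
  have hs : ∀ s : Finset G, ∀ c : G → ℂ,
      Tendsto (fun x : G => ⟪∑ a ∈ s, c a • π a ξ, π x v⟫_ℂ) cofinite (𝓝 0) := by
    intro s c
    simp only [sum_inner, inner_smul_left]
    have : Tendsto (fun x : G => ∑ a ∈ s, (starRingEnd ℂ) (c a) * ⟪π a ξ, π x v⟫_ℂ)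
        cofinite (𝓝 (∑ a ∈ s, (starRingEnd ℂ) (c a) * 0)) :=
      tendsto_finsetSum s fun a _ => (hb a).const_mul _
    simpa using this
  rw [Metric.tendsto_nhds]
  intro ε hε
  have h1 := (expand h u).eventually (Metric.ball_mem_nhds u (ε := ε / (2 * (‖v‖ + 1)))
    (by positivity))
  obtain ⟨s, hs'⟩ := h1.exists
  have h2 := (Metric.tendsto_nhds.mp (hs s fun a => ⟪π a ξ, u⟫_ℂ)) (ε / 2) (by positivity)
  filter_upwards [h2] with x hx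
  rw [dist_zero_right] at hx ⊢
  set w := ∑ a ∈ s, ⟪π a ξ, u⟫_ℂ • π a ξ with hw
  have h3 : ⟪u, π x v⟫_ℂ = ⟪u - w, π x v⟫_ℂ + ⟪w, π x v⟫_ℂ := by
    rw [← inner_add_left, sub_add_cancel]
  rw [h3]
  have hs'' : ‖u - w‖ < ε / (2 * (‖v‖ + 1)) := by
    rw [← dist_eq_norm, dist_comm]
    exact hs'
  have h4 : ‖⟪u - w, π x v⟫_ℂ‖ ≤ ε / 2 := by
    calc ‖⟪u - w, π x v⟫_ℂ‖
        ≤ ‖u - w‖ * ‖π x v‖ := norm_inner_le_norm _ _
      _ ≤ ε / (2 * (‖v‖ + 1)) * (‖v‖ + 1) := by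
          rw [h.norm_map]
          gcongr
          linarith
      _ = ε / 2 := by field_simp
  calc _ ≤ ‖⟪u - w, π x v⟫_ℂ‖ + ‖⟪w, π x v⟫_ℂ‖ := norm_add_le _ _
    _ < ε := by linarith

theorem ip_left_isom {u : H →L[ℂ] H} (hu : ∀ a b, ⟪u a, u b⟫_ℂ = ⟪a, b⟫_ℂ) (x y : H →L[ℂ] H) :
    ip π K ξ (u * x) (u * y) = ip π K ξ x y := by
  unfold ip
  exact tsum_congr fun q => hu _ _

theorem ip_right_isom (h : RegRep π ξ) {x y u : H →L[ℂ] H} (hx : Com π K x) (hy : Com π K y)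
    (hu : Com π K u) (hx' : nn π K ξ x ≠ ∞) (hy' : nn π K ξ y ≠ ∞)
    (hi : ∀ a b, ⟪adjoint u a, adjoint u b⟫_ℂ = ⟪a, b⟫_ℂ) :
    ip π K ξ (x * u) (y * u) = ip π K ξ x y := by
  rw [ip_adjoint h (hx.mul hu) (hy.mul hu) (nn_right_ne h hx hu hx') (nn_right_ne h hy hu hy'),
    adj_mul, adj_mul, ip_left_isom hi, ip_adjoint h hx hy hx' hy']

theorem ip_move (x y z : H →L[ℂ] H) :
    ip π K ξ x (z * y) = ip π K ξ (adjoint z * x) y := by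
  unfold ip
  refine tsum_congr fun q => ?_
  rw [H160.mul_ap, H160.mul_ap, adjoint_inner_left]

end one

variable {Γ Λ : Type} [Group Γ] [Group Λ] {H : Type} [NormedAddCommGroup H]
  [InnerProductSpace ℂ H] [CompleteSpace H]
  {lam : Γ →* (H →L[ℂ] H)} {R : Λ →* (H →L[ℂ] H)} {ξ : H} {𝒰 : Set (Subgroup Γ)}
  {D : Subgroup Λ}

theorem Sys.comL (h : Sys lam R ξ 𝒰) (g : Γ) : Com R D (lam g) := fun k _ => h.comm g k

theorem Sys.comRL (h : Sys lam R ξ 𝒰) (w : Λ) : Cmm lam (R w) := fun k => (h.comm k w).symm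

theorem tendsto_ip (h : Sys lam R ξ 𝒰) {a b : H →L[ℂ] H} (ha : nn R D ξ a ≠ ∞)
    (hb : nn R D ξ b ≠ ∞) :
    Tendsto (fun k : Γ => ip R D ξ b (lam k * a)) cofinite (𝓝 0) := by
  have h1 : Tendsto (fun k : Γ => ∑' q : Λ ⧸ D, ⟪b (R (q.out)⁻¹ ξ), lam k (a (R (q.out)⁻¹ ξ))⟫_ℂ)
      cofinite (𝓝 (∑' q : Λ ⧸ D, (0 : ℂ))) := by
    refine tendsto_tsum_of_dominated_convergence
      (bound := fun q : Λ ⧸ D => ‖b (R (q.out)⁻¹ ξ)‖ ^ 2 + ‖a (R (q.out)⁻¹ ξ)‖ ^ 2)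
      ((esum hb).add (esum ha)) (fun q => coeff0 h.regL _ _) (Eventually.of_forall fun k q => ?_)
    refine (norm_inner_le_norm _ _).trans ?_
    rw [h.regL.norm_map]
    nlinarith [sq_nonneg (‖b (R (q.out)⁻¹ ξ)‖ - ‖a (R (q.out)⁻¹ ξ)‖),
      sq_nonneg ‖b (R (q.out)⁻¹ ξ)‖, sq_nonneg ‖a (R (q.out)⁻¹ ξ)‖]
  rw [tsum_zero] at h1
  exact h1

/-- the coefficient is invariant under conjugation by `U` -/
theorem ip_conj (h : Sys lam R ξ 𝒰) {a b : H →L[ℂ] H} (ha : nn R D ξ a ≠ ∞)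
    (hb : nn R D ξ b ≠ ∞) (ha' : Com R D a) (hb' : Com R D b) {U : Subgroup Γ}
    (hUa : Com lam U a) (hUb : Com lam U b) (k : Γ) {t : Γ} (ht : t ∈ U) :
    ip R D ξ b (lam (t * k * t⁻¹) * a) = ip R D ξ b (lam k * a) := by
  have e1 : lam (t * k * t⁻¹) * a = lam t * ((lam k * a) * lam t⁻¹) := by
    have := hUa _ (U.inv_mem ht)
    rw [map_mul, map_mul, mul_assoc, ← this]
    simp only [mul_assoc]
  have e2 : adjoint (lam t) * b = b * lam t⁻¹ := by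
    rw [h.regL.adj, hUb _ (U.inv_mem ht)]
  rw [e1, ip_move, e2]
  refine ip_right_isom h.regR hb' ((h.comL k).mul ha') (h.comL _) hb (nn_left_ne _ ha) ?_
  intro u v
  rw [h.regL.adj, h.regL.inner_map]

theorem ip_zero (h : Sys lam R ξ 𝒰) {a b : H →L[ℂ] H} (ha : Qd lam R ξ 𝒰 D a)
    (hb : Qd lam R ξ 𝒰 D b) {k : Γ} (hk : k ≠ 1) : ip R D ξ b (lam k * a) = 0 := by
  obtain ⟨U, hU, h1, h2, h3⟩ := ha
  obtain ⟨U', hU', h1', h2', h3'⟩ := hb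
  have hV := h.inf U hU U' hU'
  have h1V : Com lam (U ⊓ U') a := h1.mono inf_le_left
  have h1V' : Com lam (U ⊓ U') b := h1'.mono inf_le_right
  by_contra hne
  have ht := tendsto_ip h h3 h3'
  have h4 := ht.eventually ((isOpen_ne (x := ip R D ξ b (lam k * a))).mem_nhds
    (show (0 : ℂ) ≠ ip R D ξ b (lam k * a) from fun h => hne h.symm))
  rw [Filter.eventually_cofinite] at h4
  refine h.orb _ hV k hk (h4.subset ?_)
  rintro y ⟨t, ht', rfl⟩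
  rw [Set.mem_setOf_eq, ip_conj h h3 h3' h2 h2' h1V h1V' k ht']
  exact fun hc => hc rfl

/-- orthogonality of the right translates -/
theorem ip_lam (h : Sys lam R ξ 𝒰) {x y : H →L[ℂ] H} (hx : Qd lam R ξ 𝒰 D x)
    (hy : Qd lam R ξ 𝒰 D y) (g k : Γ) [Decidable (g = k)] :
    ip R D ξ (x * lam g) (y * lam k) = if g = k then ip R D ξ x y else 0 := by
  have hxg : nn R D ξ (x * lam g) ≠ ∞ := nn_right_ne h.regR hx.comR (h.comL _) hx.fin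
  have hyk : nn R D ξ (y * lam k) ≠ ∞ := nn_right_ne h.regR hy.comR (h.comL _) hy.fin
  have e1 : ip R D ξ (x * lam g) (y * lam k)
      = ip R D ξ (adjoint y) (lam (k * g⁻¹) * adjoint x) := by
    rw [ip_adjoint h.regR (hx.comR.mul (h.comL _)) (hy.comR.mul (h.comL _)) hxg hyk, adj_mul,
      adj_mul, h.regL.adj, h.regL.adj, ip_move]
    have : adjoint (lam g⁻¹) * (lam k⁻¹ * adjoint y) = lam (g * k⁻¹) * adjoint y := by
      rw [h.regL.adj, inv_inv, map_mul, mul_assoc]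
    rw [this, ip_move, h.regL.adj]
    have e3 : (g * k⁻¹ : Γ) = (k * g⁻¹)⁻¹ := by group
    rw [← e3]
  rw [e1]
  split_ifs with hgk
  · subst hgk
    rw [mul_inv_cancel, map_one, one_mul, ip_adjoint h.regR hx.comR hy.comR hx.fin hy.fin]
  · exact ip_zero h (hx.adj h) (hy.adj h) (fun hc => hgk (by
      rw [mul_inv_eq_one] at hc; exact hc.symm))

theorem sum_apply_lam (h : Sys lam R ξ 𝒰) (x : H →L[ℂ] H) (s : Finset Γ) (c : Γ → ℂ) (w : Λ) :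
    x (R w (∑ g ∈ s, c g • lam g ξ)) = (∑ g ∈ s, c g • (x * lam g)) (R w ξ) := by
  simp only [map_sum, map_smul, ContinuousLinearMap.sum_apply, ContinuousLinearMap.smul_apply,
    H160.mul_ap]
  refine Finset.sum_congr rfl fun g _ => ?_
  rw [← H160.mul_ap (R w) (lam g), ← h.comm, H160.mul_ap]

theorem norm_sum_lam (h : Sys lam R ξ 𝒰) {x : H →L[ℂ] H} (hx : Qd lam R ξ 𝒰 D x)
    (s : Finset Γ) (c : Γ → ℂ) :
    nn R D ξ (∑ g ∈ s, c g • (x * lam g)) = nn R D ξ x * ‖∑ g ∈ s, c g • lam g ξ‖ₑ ^ 2 := by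
  classical
  have hxg : ∀ g, nn R D ξ (x * lam g) ≠ ∞ := fun g =>
    nn_right_ne h.regR hx.comR (h.comL _) hx.fin
  have hf : nn R D ξ (∑ g ∈ s, c g • (x * lam g)) ≠ ∞ :=
    nn_sum_ne s fun g _ => nn_smul_ne _ (hxg g)
  have e1 : vec (∑ g ∈ s, c g • (x * lam g)) hf = ∑ g ∈ s, c g • vec (x * lam g) (hxg g) := by
    ext q
    rw [vec_apply, lp.coeFn_sum, Finset.sum_apply]
    simp only [ContinuousLinearMap.sum_apply, ContinuousLinearMap.smul_apply]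
    rfl
  have e2 : ⟪vec (∑ g ∈ s, c g • (x * lam g)) hf, vec (∑ g ∈ s, c g • (x * lam g)) hf⟫_ℂ
      = (nn R D ξ x).toReal * ⟪∑ g ∈ s, c g • lam g ξ, ∑ g ∈ s, c g • lam g ξ⟫_ℂ := by
    rw [e1]
    simp only [sum_inner, inner_sum, inner_smul_left, inner_smul_right, Finset.mul_sum]
    refine Finset.sum_congr rfl fun k _ => Finset.sum_congr rfl fun g _ => ?_
    rw [← ip_eq (x * lam g) (x * lam k) (hxg g) (hxg k), ip_lam h hx hx, ip_self _ hx.fin]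
    have e3 : ⟪lam g ξ, lam k ξ⟫_ℂ = if g = k then (1 : ℂ) else 0 :=
      (orthonormal_iff_ite (𝕜 := ℂ)).mp h.regL.orthonormal g k
    rw [e3]
    split_ifs
    · ring
    · ring
  rw [inner_self_eq_norm_sq_to_K, inner_self_eq_norm_sq_to_K] at e2
  have e4 : ‖vec (∑ g ∈ s, c g • (x * lam g)) hf‖ ^ 2
      = (nn R D ξ x).toReal * ‖∑ g ∈ s, c g • lam g ξ‖ ^ 2 := by
    apply Complex.ofReal_injective
    push_cast
    exact e2
  rw [← vec_norm _ hf, esq, e4, ENNReal.ofReal_mul ENNReal.toReal_nonneg,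
    ENNReal.ofReal_toReal hx.fin, esq]

theorem K_le (h : Sys lam R ξ 𝒰) {x : H →L[ℂ] H} (hx : Qd lam R ξ 𝒰 D x) (ζ : H) :
    ∑' q : Λ ⧸ D, ‖(x * R (q.out)⁻¹) ζ‖ₑ ^ 2
      ≤ ENNReal.ofReal (Real.sqrt (nn R D ξ x).toReal ^ 2 * ‖ζ‖ ^ 2) := by
  rw [Real.sq_sqrt ENNReal.toReal_nonneg]
  have key : ∀ (F : Finset (Λ ⧸ D)) (ζ : H),
      ∑ q ∈ F, ‖(x * R (q.out)⁻¹) ζ‖ ^ 2 ≤ (nn R D ξ x).toReal * ‖ζ‖ ^ 2 := by
    intro F ζ
    have h1 : Tendsto (fun s : Finset Γ =>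
        ∑ q ∈ F, ‖(x * R (q.out)⁻¹) (∑ g ∈ s, ⟪lam g ξ, ζ⟫_ℂ • lam g ξ)‖ ^ 2) atTop
        (𝓝 (∑ q ∈ F, ‖(x * R (q.out)⁻¹) ζ‖ ^ 2)) := by
      refine tendsto_finsetSum F fun q _ => ?_
      exact ((((x * R (q.out)⁻¹).continuous.tendsto ζ).comp (expand h.regL ζ)).norm).pow 2
    have h2 : Tendsto (fun s : Finset Γ =>
        (nn R D ξ x).toReal * ‖∑ g ∈ s, ⟪lam g ξ, ζ⟫_ℂ • lam g ξ‖ ^ 2) atTop
        (𝓝 ((nn R D ξ x).toReal * ‖ζ‖ ^ 2)) :=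
      (((expand h.regL ζ)).norm.pow 2).const_mul _
    refine le_of_tendsto_of_tendsto' h1 h2 fun s => ?_
    have h3 := norm_sum_lam h hx s fun g => ⟪lam g ξ, ζ⟫_ℂ
    have h4 : ∑ q ∈ F, ‖(x * R (q.out)⁻¹) (∑ g ∈ s, ⟪lam g ξ, ζ⟫_ℂ • lam g ξ)‖ₑ ^ 2
        ≤ nn R D ξ x * ‖∑ g ∈ s, ⟪lam g ξ, ζ⟫_ℂ • lam g ξ‖ₑ ^ 2 := by
      rw [← h3]
      unfold nn sq fn
      refine le_trans (le_of_eq (Finset.sum_congr rfl fun q _ => ?_))
        (ENNReal.sum_le_tsum F)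
      rw [H160.mul_ap, sum_apply_lam h]
    have h5 := ENNReal.toReal_mono (ENNReal.mul_ne_top hx.fin (by simp)) h4
    rw [ENNReal.toReal_mul, ENNReal.toReal_sum (fun q _ => by simp)] at h5
    simpa using h5
  rw [ENNReal.tsum_eq_iSup_sum]
  refine iSup_le fun F => ?_
  have h1 : ∑ q ∈ F, ‖(x * R (q.out)⁻¹) ζ‖ₑ ^ 2
      = ENNReal.ofReal (∑ q ∈ F, ‖(x * R (q.out)⁻¹) ζ‖ ^ 2) := by
    rw [ENNReal.ofReal_sum_of_nonneg fun q _ => by positivity]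
    exact Finset.sum_congr rfl fun q _ => esq _
  rw [h1]
  exact ENNReal.ofReal_le_ofReal (key F ζ)

/-- the operator `ζ ↦ (x R(q)⁻¹ ζ)_q` -/
noncomputable def AA (h : Sys lam R ξ 𝒰) {x : H →L[ℂ] H} (hx : Qd lam R ξ 𝒰 D x) :
    H →L[ℂ] EE (Λ ⧸ D) H :=
  col (fun q : Λ ⧸ D => x * R (q.out)⁻¹) (Real.sqrt (nn R D ξ x).toReal) (K_le h hx)

theorem AA_apply (h : Sys lam R ξ 𝒰) {x : H →L[ℂ] H} (hx : Qd lam R ξ 𝒰 D x) (ζ : H)
    (q : Λ ⧸ D) : AA h hx ζ q = x (R (q.out)⁻¹ ζ) := rfl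

theorem AA_lam (h : Sys lam R ξ 𝒰) {x : H →L[ℂ] H} (hx : Qd lam R ξ 𝒰 D x) (g : Γ) :
    AA h hx (lam g ξ) = vec (x * lam g) (nn_right_ne h.regR hx.comR (h.comL g) hx.fin) := by
  ext q
  rw [AA_apply, vec_apply, H160.mul_ap, ← H160.mul_ap (R _) (lam g), ← h.comm, H160.mul_ap]

/-- The basic identity. -/
theorem AA_inner (h : Sys lam R ξ 𝒰) {x y : H →L[ℂ] H} (hx : Qd lam R ξ 𝒰 D x)
    (hy : Qd lam R ξ 𝒰 D y) (ζ η : H) :
    ⟪AA h hx ζ, AA h hy η⟫_ℂ = ip R D ξ x y * ⟪ζ, η⟫_ℂ := by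
  classical
  have h1 : adjoint (AA h hx) ∘L AA h hy = ip R D ξ x y • (1 : H →L[ℂ] H) := by
    refine h.regL.ext_op fun k => h.regL.ext_vec fun g => ?_
    rw [comp_apply, adjoint_inner_right, AA_lam, AA_lam, ← ip_eq, ip_lam h hx hy,
      ContinuousLinearMap.smul_apply, inner_smul_right]
    have e3 : ⟪lam g ξ, (1 : H →L[ℂ] H) (lam k ξ)⟫_ℂ = if g = k then (1 : ℂ) else 0 :=
      (orthonormal_iff_ite (𝕜 := ℂ)).mp h.regL.orthonormal g k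
    rw [e3]
    split_ifs
    · ring
    · ring
  have h2 : ⟪ζ, (adjoint (AA h hx) ∘L AA h hy) η⟫_ℂ = ⟪AA h hx ζ, AA h hy η⟫_ℂ := by
    rw [comp_apply, adjoint_inner_right]
  rw [← h2, h1, ContinuousLinearMap.smul_apply, inner_smul_right]
  rfl

/-- (K) -/
theorem K_eq (h : Sys lam R ξ 𝒰) {x : H →L[ℂ] H} (hx : Qd lam R ξ 𝒰 D x) (ζ : H) :
    sq D (fn R ζ x) = nn R D ξ x * ‖ζ‖ₑ ^ 2 := by
  have h1 : sq D (fn R ζ x) = ‖AA h hx ζ‖ₑ ^ 2 := by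
    rw [ee_norm]; rfl
  have h2 := AA_inner h hx hx ζ ζ
  rw [inner_self_eq_norm_sq_to_K, inner_self_eq_norm_sq_to_K, ip_self _ hx.fin] at h2
  have h3 : ‖AA h hx ζ‖ ^ 2 = (nn R D ξ x).toReal * ‖ζ‖ ^ 2 := by
    apply Complex.ofReal_injective
    push_cast
    exact h2
  rw [h1, esq, h3, ENNReal.ofReal_mul ENNReal.toReal_nonneg, ENNReal.ofReal_toReal hx.fin, esq]

theorem apply_le (h : Sys lam R ξ 𝒰) {x : H →L[ℂ] H} (hx : Qd lam R ξ 𝒰 D x) (ζ : H) :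
    ‖x ζ‖ₑ ^ 2 ≤ nn R D ξ x * ‖ζ‖ₑ ^ 2 := by
  rw [← K_eq h hx]
  have h1 : ‖x ζ‖ₑ ^ 2 = fn R ζ x ((1 : Λ) : Λ ⧸ D).out := by
    rw [(rinv h.regR hx.comR ζ).out]
    unfold fn
    rw [inv_one, map_one]
    rfl
  rw [h1]
  exact ENNReal.le_tsum _

theorem norm_le (h : Sys lam R ξ 𝒰) {x : H →L[ℂ] H} (hx : Qd lam R ξ 𝒰 D x) :
    ‖x‖ₑ ^ 2 ≤ nn R D ξ x := by
  have h1 : ‖x‖ ≤ Real.sqrt (nn R D ξ x).toReal := by
    refine x.opNorm_le_bound (Real.sqrt_nonneg _) fun ζ => ?_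
    refine abs_le_of_sq_le_sq' ?_ (by positivity) |>.2
    rw [mul_pow, Real.sq_sqrt ENNReal.toReal_nonneg]
    have h2 := apply_le h hx ζ
    have h3 := ENNReal.toReal_mono (ENNReal.mul_ne_top hx.fin (by simp)) h2
    rw [ENNReal.toReal_mul] at h3
    simpa using h3
  rw [esq, ← ENNReal.ofReal_toReal hx.fin]
  refine ENNReal.ofReal_le_ofReal ?_
  calc ‖x‖ ^ 2 ≤ (Real.sqrt (nn R D ξ x).toReal) ^ 2 := by gcongr
    _ = _ := Real.sq_sqrt ENNReal.toReal_nonneg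

/-- a nonzero projection has trace at least one -/
theorem one_le_nn (h : Sys lam R ξ 𝒰) {x : H →L[ℂ] H} (hx : Qd lam R ξ 𝒰 D x) (h0 : x ≠ 0)
    (hi : x * x = x) : 1 ≤ nn R D ξ x := by
  obtain ⟨ζ, hζ⟩ : ∃ ζ, x ζ ≠ 0 := by
    by_contra hc
    exact h0 (ContinuousLinearMap.ext fun ζ => by
      by_contra h1
      exact hc ⟨ζ, h1⟩)
  have h1 := apply_le h hx (x ζ)
  rw [← H160.mul_ap, hi] at h1
  have h2 : ‖x ζ‖ₑ ^ 2 ≠ 0 := by simp [hζ]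
  have h3 : ‖x ζ‖ₑ ^ 2 ≠ ∞ := by simp
  have h4 : 1 * ‖x ζ‖ₑ ^ 2 ≤ nn R D ξ x * ‖x ζ‖ₑ ^ 2 := by rwa [one_mul]
  exact (ENNReal.mul_le_mul_iff_left h2 h3).mp h4

end Vale.Agent.P092.H628
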