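import Vale.Agent.P092.H628.TorHS

/-!
The vector of `ℓ²(G ⧸ K; H)` of an operator with finite relative Hilbert-Schmidt norm, the
polarised trace property and the basic identity.
-/

set_option linter.all false

open scoped InnerProductSpace ENNReal
open Filter Topology ContinuousLinearMap

namespace Vale.Agent.P092.H628

open Vale.Agent.P092.H160 (RegRep Cmm)

/-- the Hilbert space `ℓ²(ι; H)` -/
abbrev EE (ι H : Type) [NormedAddCommGroup H] : Type := lp (fun _ : ι => H) 2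

theorem esum {ι : Type} {H : Type} [NormedAddCommGroup H] {f : ι → H}
    (h : ∑' i, ‖f i‖ₑ ^ 2 ≠ ∞) : Summable fun i => ‖f i‖ ^ 2 := by
  have h1 : ∀ i, ‖f i‖ₑ ^ 2 = ENNReal.ofReal (‖f i‖ ^ 2) := fun i => esq _
  simp only [h1] at h
  have h2 := ENNReal.summable_toReal h
  refine h2.congr fun i => ?_
  rw [ENNReal.toReal_ofReal (by positivity)]

theorem ee_memℓp {ι : Type} {H : Type} [NormedAddCommGroup H] {f : ι → H}
    (h : ∑' i, ‖f i‖ₑ ^ 2 ≠ ∞) : Memℓp f 2 := by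
  rw [memℓp_gen_iff (by norm_num)]
  simpa using esum h

theorem ee_norm {ι : Type} {H : Type} [NormedAddCommGroup H] (f : EE ι H) :
    ‖f‖ₑ ^ 2 = ∑' i, ‖f i‖ₑ ^ 2 := by
  have h := lp.norm_rpow_eq_tsum (p := 2) (by norm_num) f
  have h2 : ‖f‖ ^ 2 = ∑' i, ‖f i‖ ^ 2 := by simpa using h
  have h3 : Summable fun i => ‖f i‖ ^ 2 := by
    have h := lp.memℓp f
    rw [memℓp_gen_iff (by norm_num)] at h
    simpa using h
  rw [esq, h2, ENNReal.ofReal_tsum_of_nonneg (fun _ => by positivity) h3]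
  exact tsum_congr fun g => (esq _).symm

section col

variable {ι H F : Type} [NormedAddCommGroup H] [InnerProductSpace ℂ H]
  [NormedAddCommGroup F] [InnerProductSpace ℂ F]

/-- column operator -/
noncomputable def col (T : ι → H →L[ℂ] F) (C : ℝ)
    (hT : ∀ ζ : H, ∑' i, ‖T i ζ‖ₑ ^ 2 ≤ ENNReal.ofReal (C ^ 2 * ‖ζ‖ ^ 2)) : H →L[ℂ] EE ι F :=
  LinearMap.mkContinuous
    { toFun := fun ζ => ⟨fun i => T i ζ, ee_memℓp (ne_top_of_le_ne_top ENNReal.ofReal_ne_top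
        (hT ζ))⟩
      map_add' := fun u v => by ext i; exact map_add (T i) u v
      map_smul' := fun c u => by ext i; exact map_smul (T i) c u }
    |C| (fun ζ => by
      refine abs_le_of_sq_le_sq' ?_ (by positivity) |>.2
      rw [mul_pow, sq_abs]
      have h1 := hT ζ
      have h2 := ee_norm (⟨fun i => T i ζ, ee_memℓp (ne_top_of_le_ne_top ENNReal.ofReal_ne_top
        (hT ζ))⟩ : EE ι F)
      have h3 : ‖(⟨fun i => T i ζ, ee_memℓp (ne_top_of_le_ne_top ENNReal.ofReal_ne_top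
        (hT ζ))⟩ : EE ι F)‖ₑ ^ 2 ≤ ENNReal.ofReal (C ^ 2 * ‖ζ‖ ^ 2) := by
        rw [h2]; exact h1
      rw [esq] at h3
      exact (ENNReal.ofReal_le_ofReal_iff (by positivity)).mp h3)

theorem col_apply (T : ι → H →L[ℂ] F) (C : ℝ)
    (hT : ∀ ζ : H, ∑' i, ‖T i ζ‖ₑ ^ 2 ≤ ENNReal.ofReal (C ^ 2 * ‖ζ‖ ^ 2)) (ζ : H) (i : ι) :
    col T C hT ζ i = T i ζ := rfl

theorem col_norm (T : ι → H →L[ℂ] F) (C : ℝ)
    (hT : ∀ ζ : H, ∑' i, ‖T i ζ‖ₑ ^ 2 ≤ ENNReal.ofReal (C ^ 2 * ‖ζ‖ ^ 2)) (ζ : H) :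
    ‖col T C hT ζ‖ₑ ^ 2 = ∑' i, ‖T i ζ‖ₑ ^ 2 := ee_norm _

end col

section gen

variable {G : Type} [Group G] {H : Type} [NormedAddCommGroup H] [InnerProductSpace ℂ H]
    [CompleteSpace H] {π : G →* (H →L[ℂ] H)} {ξ : H} {K : Subgroup G}

/-- the vector of an operator -/
noncomputable def vec (x : H →L[ℂ] H) (hx : nn π K ξ x ≠ ∞) : EE (G ⧸ K) H :=
  ⟨fun q => x (π (q.out)⁻¹ ξ), ee_memℓp hx⟩

theorem vec_apply (x : H →L[ℂ] H) (hx : nn π K ξ x ≠ ∞) (q : G ⧸ K) :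
    vec x hx q = x (π (q.out)⁻¹ ξ) := rfl

theorem vec_norm (x : H →L[ℂ] H) (hx : nn π K ξ x ≠ ∞) : ‖vec x hx‖ₑ ^ 2 = nn π K ξ x :=
  ee_norm _

theorem vec_norm' (x : H →L[ℂ] H) (hx : nn π K ξ x ≠ ∞) :
    ‖vec x hx‖ ^ 2 = (nn π K ξ x).toReal := by
  rw [← vec_norm x hx, esq, ENNReal.toReal_ofReal (by positivity)]

/-- the inner product of two operators -/
noncomputable def ip (π : G →* (H →L[ℂ] H)) (K : Subgroup G) (ξ : H) (x y : H →L[ℂ] H) : ℂ :=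
  ∑' q : G ⧸ K, ⟪x (π (q.out)⁻¹ ξ), y (π (q.out)⁻¹ ξ)⟫_ℂ

theorem ip_eq (x y : H →L[ℂ] H) (hx : nn π K ξ x ≠ ∞) (hy : nn π K ξ y ≠ ∞) :
    ip π K ξ x y = ⟪vec x hx, vec y hy⟫_ℂ := by
  rw [lp.inner_eq_tsum]; rfl

theorem ip_self (x : H →L[ℂ] H) (hx : nn π K ξ x ≠ ∞) :
    ip π K ξ x x = ((nn π K ξ x).toReal : ℂ) := by
  rw [ip_eq x x hx hx, inner_self_eq_norm_sq_to_K, ← vec_norm' x hx]
  norm_cast

theorem nn_add_ne {x y : H →L[ℂ] H} (hx : nn π K ξ x ≠ ∞) (hy : nn π K ξ y ≠ ∞) :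
    nn π K ξ (x + y) ≠ ∞ :=
  ne_top_of_le_ne_top (ENNReal.add_ne_top.mpr ⟨ENNReal.mul_ne_top (by simp) hx,
    ENNReal.mul_ne_top (by simp) hy⟩) (nn_add_le x y ξ)

theorem nn_smul_ne {x : H →L[ℂ] H} (c : ℂ) (hx : nn π K ξ x ≠ ∞) :
    nn π K ξ (c • x) ≠ ∞ := by
  rw [nn_smul]
  exact ENNReal.mul_ne_top (by simp) hx

theorem nn_neg_ne {x : H →L[ℂ] H} (hx : nn π K ξ x ≠ ∞) :
    nn π K ξ (-x) ≠ ∞ := by
  rwa [nn_neg]

theorem nn_sub_ne {x y : H →L[ℂ] H} (hx : nn π K ξ x ≠ ∞) (hy : nn π K ξ y ≠ ∞) :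
    nn π K ξ (x - y) ≠ ∞ := by
  rw [sub_eq_add_neg]
  exact nn_add_ne hx (nn_neg_ne hy)

theorem nn_sum_ne {ι : Type} (s : Finset ι) {x : ι → H →L[ℂ] H}
    (hx : ∀ i ∈ s, nn π K ξ (x i) ≠ ∞) : nn π K ξ (∑ i ∈ s, x i) ≠ ∞ := by
  classical
  induction s using Finset.induction_on with
  | empty => simp [nn_zero]
  | insert a s ha ih =>
    rw [Finset.sum_insert ha]
    exact nn_add_ne (hx a (Finset.mem_insert_self _ _))
      (ih fun i hi => hx i (Finset.mem_insert_of_mem hi))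

theorem nn_left_ne {x : H →L[ℂ] H} (y : H →L[ℂ] H) (hx : nn π K ξ x ≠ ∞) :
    nn π K ξ (y * x) ≠ ∞ :=
  ne_top_of_le_ne_top (ENNReal.mul_ne_top (by simp) hx) (nn_mul_left y x ξ)

theorem nn_right_ne (h : RegRep π ξ) {x y : H →L[ℂ] H} (hxc : Com π K x) (hy : Com π K y)
    (hx : nn π K ξ x ≠ ∞) : nn π K ξ (x * y) ≠ ∞ :=
  ne_top_of_le_ne_top (ENNReal.mul_ne_top (by simp) hx) (nn_mul_right h hxc hy)

theorem nn_adj_ne (h : RegRep π ξ) {x : H →L[ℂ] H} (hxc : Com π K x)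
    (hx : nn π K ξ x ≠ ∞) : nn π K ξ (adjoint x) ≠ ∞ := by
  rwa [nn_adjoint h hxc]

theorem ip_polar {x y : H →L[ℂ] H} (hx : nn π K ξ x ≠ ∞) (hy : nn π K ξ y ≠ ∞) :
    ip π K ξ x y = (((nn π K ξ (x + y)).toReal : ℂ) - ((nn π K ξ (x - y)).toReal : ℂ) +
      (((nn π K ξ (x - Complex.I • y)).toReal : ℂ) -
        ((nn π K ξ (x + Complex.I • y)).toReal : ℂ)) * Complex.I) / 4 := by
  have hIy := nn_smul_ne Complex.I hy
  rw [ip_eq x y hx hy, inner_eq_sum_norm_sq_div_four]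
  rw [← vec_norm' _ (nn_add_ne hx hy), ← vec_norm' _ (nn_sub_ne hx hy),
    ← vec_norm' _ (nn_sub_ne hx hIy), ← vec_norm' _ (nn_add_ne hx hIy)]
  have e1 : vec (x + y) (nn_add_ne hx hy) = vec x hx + vec y hy := rfl
  have e2 : vec (x - y) (nn_sub_ne hx hy) = vec x hx - vec y hy := rfl
  have e3 : vec (x - Complex.I • y) (nn_sub_ne hx hIy) = vec x hx - Complex.I • vec y hy := rfl
  have e4 : vec (x + Complex.I • y) (nn_add_ne hx hIy) = vec x hx + Complex.I • vec y hy := rfl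
  rw [e1, e2, e3, e4]
  push_cast
  rfl

theorem enorm_I : ‖Complex.I‖ₑ = 1 := by
  rw [← ofReal_norm_eq_enorm, Complex.norm_I, ENNReal.ofReal_one]

/-- The polarised trace property. -/
theorem ip_adjoint (h : RegRep π ξ) {x y : H →L[ℂ] H} (hxc : Com π K x) (hyc : Com π K y)
    (hx : nn π K ξ x ≠ ∞) (hy : nn π K ξ y ≠ ∞) :
    ip π K ξ x y = ip π K ξ (adjoint y) (adjoint x) := by
  have hIy : Com π K (Complex.I • y) := hyc.smul _
  rw [ip_polar hx hy, ip_polar (nn_adj_ne h hyc hy) (nn_adj_ne h hxc hx)]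
  have e1 : nn π K ξ (adjoint y + adjoint x) = nn π K ξ (x + y) := by
    rw [← map_add, nn_adjoint h (hyc.add hxc), add_comm]
  have e2 : nn π K ξ (adjoint y - adjoint x) = nn π K ξ (x - y) := by
    rw [← map_sub, nn_adjoint h (hyc.sub hxc), ← nn_neg, neg_sub]
  have e3 : nn π K ξ (adjoint y - Complex.I • adjoint x) = nn π K ξ (x - Complex.I • y) := by
    have : adjoint y - Complex.I • adjoint x = adjoint (Complex.I • (x - Complex.I • y)) := by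
      rw [map_smulₛₗ, map_sub, map_smulₛₗ, smul_sub, smul_smul]
      simp
      abel
    rw [this, nn_adjoint h ((hxc.sub hIy).smul _), nn_smul, enorm_I, one_pow, one_mul]
  have e4 : nn π K ξ (adjoint y + Complex.I • adjoint x) = nn π K ξ (x + Complex.I • y) := by
    have : adjoint y + Complex.I • adjoint x = adjoint ((-Complex.I) • (x + Complex.I • y)) := by
      rw [map_smulₛₗ, map_add, map_smulₛₗ, smul_add, smul_smul]
      simp
      abel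
    rw [this, nn_adjoint h ((hxc.add hIy).smul _), nn_smul, enorm_neg, enorm_I, one_pow, one_mul]
  rw [e1, e2, e3, e4]

end gen

end Vale.Agent.P092.H628
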