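import Vale.Agent.P092.H133.V1
import Vale.Agent.P092.H628.SuperT
import Vale.Agent.P092.H628.TorMain

/-!
P092, project B: the final assembly, arbitrary ICC `Λ` (torsion allowed), `t = 1`, two factors.
-/

set_option linter.all false

open Vale.Agent.P092.H160 Vale.Agent.P092.H160.St Vale.Agent.P092.H103.St Vale.Agent.P092.H515.St

namespace Vale.Agent.P092.H628

open Vale.Agent.P092 Vale.Agent.P092.SR Vale.Agent.P092.SR.St Vale.Agent.P092.H133

theorem superTStmt : SuperTStmt :=
  superT_of_blocks torStmt H971.gfStmt H113.irrIsoStmt H793.projLatStmt H839.modelStmt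
    H839.flipStmt H839.a1Stmt SR.swapLegStmt H144.matchStmt H113.passStmt
    H103.finStmt H217.thAStmt H911.c5Stmt H911.c6Stmt H941.c7Stmt H828.endStmt
    H200.HeightL.heightStmt fun n k _ hn => finite_center_sl n k hn

theorem final1 (h : SuperTStmt) : ∀ (Γ : Type) [Group Γ], PadicProductLattice Γ → Super Γ := by
  intro Γ _ hΓ Λ _ _ _ θ
  obtain ⟨hicc, k, l, _, _, m, n, i, hk, hl, huk, hul, hm, hn, hi⟩ := hΓ
  haveI := hk
  haveI := hl
  haveI := huk
  haveI := hul
  exact canonical_transS (eqv hi) θ (h m n k l i.range hm hn hi.lat (dense_fst hi) (dense_snd hi)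
    (icc_equiv (eqv hi) hicc) (transS (eqv hi) θ))

/-- `Final1F`: the irreducible ICC lattices in products of two groups `SL_n` over non-archimedean
local fields are `W*`-superrigid. -/
theorem final1F : Final1F := H58.final1F_of (final1 superTStmt)

end Vale.Agent.P092.H628
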