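import Mathlib

/-!
[VOL-CL], part 1: integral matrices, bases of lattices, lattices stable under a compact group of
isometries.
-/

set_option linter.all false

open Matrix Topology

namespace Vale.Agent.P092.H628.VC

section basic

variable {n : Type} [Fintype n] {k : Type} [NontriviallyNormedField k] [IsUltrametricDist k]

/-- The entries are bounded by `r`. -/
def Vb (r : ℝ) (v : n → k) : Prop := ∀ i, ‖v i‖ ≤ r

/-- The entries are bounded by `r`. -/
def Bd (r : ℝ) (A : Matrix n n k) : Prop := ∀ i j, ‖A i j‖ ≤ r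

theorem norm_dot_le {v w : n → k} {r s : ℝ} (hr : 0 ≤ r) (hs : 0 ≤ s) (hv : Vb r v) (hw : Vb s w) :
    ‖v ⬝ᵥ w‖ ≤ r * s := by
  refine IsUltrametricDist.norm_sum_le_of_forall_le_of_nonneg (mul_nonneg hr hs) fun i _ => ?_
  rw [norm_mul]
  exact mul_le_mul (hv i) (hw i) (norm_nonneg _) hr

theorem Vb.mul {v : n → k} {A : Matrix n n k} {r s : ℝ} (hr : 0 ≤ r) (hs : 0 ≤ s) (hv : Vb r v)
    (hA : Bd s A) : Vb (r * s) (v ᵥ* A) := fun j => norm_dot_le hr hs hv fun i => hA i j

theorem Vb.mul' {v : n → k} {A : Matrix n n k} {r s : ℝ} (hr : 0 ≤ r) (hs : 0 ≤ s) (hv : Vb r v)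
    (hA : Bd s A) : Vb (s * r) (A *ᵥ v) := fun i => norm_dot_le hs hr (fun j => hA i j) hv

theorem Bd.mul {A B : Matrix n n k} {r s : ℝ} (hr : 0 ≤ r) (hs : 0 ≤ s) (hA : Bd r A)
    (hB : Bd s B) : Bd (r * s) (A * B) := fun i j =>
  norm_dot_le hr hs (fun l => hA i l) fun l => hB l j

theorem Bd.mul_one {A B : Matrix n n k} (hA : Bd 1 A) (hB : Bd 1 B) : Bd 1 (A * B) := by
  have := hA.mul zero_le_one zero_le_one hB
  rwa [_root_.mul_one] at this

theorem Bd.mono {A : Matrix n n k} {r s : ℝ} (hA : Bd r A) (h : r ≤ s) : Bd s A := fun i j =>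
  (hA i j).trans h

theorem Vb.mono {v : n → k} {r s : ℝ} (hv : Vb r v) (h : r ≤ s) : Vb s v := fun i =>
  (hv i).trans h

theorem Bd.add {A B : Matrix n n k} {r : ℝ} (hA : Bd r A) (hB : Bd r B) : Bd r (A + B) :=
  fun i j => (IsUltrametricDist.norm_add_le_max _ _).trans (max_le (hA i j) (hB i j))

theorem Vb.add {v w : n → k} {r : ℝ} (hv : Vb r v) (hw : Vb r w) : Vb r (v + w) :=
  fun i => (IsUltrametricDist.norm_add_le_max _ _).trans (max_le (hv i) (hw i))

theorem Bd.neg {A : Matrix n n k} {r : ℝ} (hA : Bd r A) : Bd r (-A) := fun i j => by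
  rw [Matrix.neg_apply, norm_neg]; exact hA i j

theorem Bd.sub {A B : Matrix n n k} {r : ℝ} (hA : Bd r A) (hB : Bd r B) : Bd r (A - B) := by
  rw [sub_eq_add_neg]; exact hA.add hB.neg

theorem Bd.smul {A : Matrix n n k} {r : ℝ} (hA : Bd r A) (c : k) : Bd (‖c‖ * r) (c • A) :=
  fun i j => by
    rw [Matrix.smul_apply, smul_eq_mul, norm_mul]
    exact mul_le_mul_of_nonneg_left (hA i j) (norm_nonneg _)

theorem Vb.smul {v : n → k} {r : ℝ} (hv : Vb r v) (c : k) : Vb (‖c‖ * r) (c • v) :=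
  fun i => by
    rw [Pi.smul_apply, smul_eq_mul, norm_mul]
    exact mul_le_mul_of_nonneg_left (hv i) (norm_nonneg _)

theorem Bd.transpose {A : Matrix n n k} {r : ℝ} (hA : Bd r A) : Bd r Aᵀ := fun i j => hA j i

theorem Bd.map {A : Matrix n n k} {r : ℝ} (hA : Bd r A) {σ : k →+* k} (hσ : ∀ x, ‖σ x‖ = ‖x‖) :
    Bd r (A.map σ) := fun i j => by rw [Matrix.map_apply, hσ]; exact hA i j

theorem Bd.one [DecidableEq n] : Bd 1 (1 : Matrix n n k) := fun i j => by
  rw [Matrix.one_apply]; split_ifs <;> simp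

/-- every matrix is bounded -/
theorem exists_bd (A : Matrix n n k) : ∃ r : ℝ, 0 < r ∧ Bd r A := by
  refine ⟨1 + ∑ i, ∑ j, ‖A i j‖, ?_, fun i j => ?_⟩
  · have : 0 ≤ ∑ i, ∑ j, ‖A i j‖ := Finset.sum_nonneg fun i _ => Finset.sum_nonneg fun j _ => norm_nonneg _
    linarith
  · have h1 : ‖A i j‖ ≤ ∑ j, ‖A i j‖ :=
      Finset.single_le_sum (f := fun j => ‖A i j‖) (fun _ _ => norm_nonneg _) (Finset.mem_univ j)
    have h2 : ∑ j, ‖A i j‖ ≤ ∑ i, ∑ j, ‖A i j‖ :=
      Finset.single_le_sum (f := fun i => ∑ j, ‖A i j‖)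
        (fun i _ => Finset.sum_nonneg fun j _ => norm_nonneg _) (Finset.mem_univ i)
    linarith

/-- the determinant of an integral matrix is integral -/
theorem norm_det_le [DecidableEq n] {A : Matrix n n k} {r : ℝ} (hr : 0 ≤ r) (hA : Bd r A) :
    ‖A.det‖ ≤ r ^ Fintype.card n := by
  rw [Matrix.det_apply]
  refine IsUltrametricDist.norm_sum_le_of_forall_le_of_nonneg (by positivity) fun τ _ => ?_
  have h1 : ‖(Equiv.Perm.sign τ : ℤˣ) • ∏ i, A (τ i) i‖ = ‖∏ i, A (τ i) i‖ := by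
    rcases Int.units_eq_one_or (Equiv.Perm.sign τ) with h | h
    · rw [h, one_smul]
    · rw [h, Units.neg_smul, one_smul, norm_neg]
  rw [h1, norm_prod]
  calc ∏ i, ‖A (τ i) i‖ ≤ ∏ _i : n, r := Finset.prod_le_prod (fun _ _ => norm_nonneg _) fun i _ => hA _ _
    _ = r ^ Fintype.card n := by rw [Finset.prod_const, Finset.card_univ]

end basic

section lat

variable {n : Type} [Fintype n] [DecidableEq n] {k : Type} [NontriviallyNormedField k]
  [IsUltrametricDist k]

/-- A lattice. -/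
structure Lat (M : Set (n → k)) : Prop where
  add : ∀ u ∈ M, ∀ v ∈ M, u + v ∈ M
  smul : ∀ c : k, ‖c‖ ≤ 1 → ∀ v ∈ M, c • v ∈ M
  bdd : ∃ R : ℝ, ∀ v ∈ M, Vb R v
  abs : ∃ t : k, t ≠ 0 ∧ ∀ v, Vb ‖t‖ v → v ∈ M

variable {M : Set (n → k)}

theorem Lat.zero (h : Lat M) : (0 : n → k) ∈ M := by
  obtain ⟨t, -, ht⟩ := h.abs
  exact ht 0 fun i => by simp

theorem Lat.neg (h : Lat M) {v : n → k} (hv : v ∈ M) : -v ∈ M := by
  have := h.smul (-1) (by simp) v hv
  rwa [neg_one_smul] at this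

theorem Lat.sum (h : Lat M) {ι : Type} (s : Finset ι) (f : ι → n → k) (hf : ∀ i ∈ s, f i ∈ M) :
    ∑ i ∈ s, f i ∈ M := by
  classical
  induction s using Finset.induction_on with
  | empty => simpa using h.zero
  | insert a s ha ih =>
    rw [Finset.sum_insert ha]
    exact h.add _ (hf a (Finset.mem_insert_self a s)) _
      (ih fun i hi => hf i (Finset.mem_insert_of_mem hi))

theorem Lat.isClosed (h : Lat M) : IsClosed M := by
  rw [← isOpen_compl_iff, Metric.isOpen_iff]
  intro v hv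
  obtain ⟨t, ht0, ht⟩ := h.abs
  refine ⟨‖t‖, norm_pos_iff.mpr ht0, fun w hw hwM => hv ?_⟩
  have h1 : v - w ∈ M := by
    refine ht _ fun i => ?_
    have h2 : ‖(w - v) i‖ ≤ ‖w - v‖ := norm_le_pi_norm _ i
    rw [Metric.mem_ball, dist_eq_norm] at hw
    rw [Pi.sub_apply, norm_sub_rev]
    exact (h2.trans hw.le)
  have h3 : v = w + (v - w) := by abel
  rw [h3]
  exact h.add _ hwM _ h1

theorem Lat.isCompact [ProperSpace k] (h : Lat M) : IsCompact M := by
  obtain ⟨R, hR⟩ := h.bdd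
  have hc : IsCompact (Set.pi Set.univ fun _ : n => Metric.closedBall (0 : k) R) :=
    isCompact_univ_pi fun _ => isCompact_closedBall _ _
  refine hc.of_isClosed_subset h.isClosed fun v hv i _ => ?_
  rw [Metric.mem_closedBall, dist_zero_right]
  exact hR v hv i

theorem vecMul_eq_sum (a : n → k) (z : Matrix n n k) : a ᵥ* z = ∑ i, a i • z i := by
  funext j
  simp [vecMul, dotProduct, Finset.sum_apply]

/-- A lattice has a basis. -/
theorem Lat.exists_basis [ProperSpace k] (h : Lat M) :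
    ∃ z : Matrix n n k, IsUnit z.det ∧ ∀ v, v ∈ M ↔ Vb 1 (v ᵥ* z⁻¹) := by
  have hT : IsCompact (Set.pi Set.univ fun _ : n => M) := isCompact_univ_pi fun _ => h.isCompact
  obtain ⟨t, ht0, ht⟩ := h.abs
  have hf1 : (fun j : n => (Pi.single j t : n → k)) ∈ Set.pi Set.univ fun _ : n => M := by
    intro j _
    refine ht _ fun i => ?_
    by_cases hij : i = j
    · subst hij; simp
    · simp [Pi.single_eq_of_ne hij]
  have hcont : Continuous fun f : n → n → k => ‖(Matrix.of f).det‖ :=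
    (Continuous.matrix_det (by exact continuous_id)).norm
  obtain ⟨f, hf, hmax⟩ := hT.exists_isMaxOn ⟨_, hf1⟩ hcont.continuousOn
  have hmax' : ∀ f' ∈ Set.pi Set.univ (fun _ : n => M),
      ‖(Matrix.of f').det‖ ≤ ‖(Matrix.of f).det‖ := fun f' hf' => hmax hf'
  have hdet : (Matrix.of f).det ≠ 0 := by
    have h1 := hmax' _ hf1
    have h2 : (Matrix.of fun j : n => (Pi.single j t : n → k)).det = t ^ Fintype.card n := by
      have : (Matrix.of fun j : n => (Pi.single j t : n → k)) = Matrix.diagonal fun _ => t := by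
        ext a b
        rw [Matrix.of_apply, Matrix.diagonal_apply, Pi.single_apply]
        by_cases h : a = b
        · subst h; simp
        · simp [h, Ne.symm h]
      rw [this, Matrix.det_diagonal]
      simp
    rw [h2] at h1
    intro h0
    rw [h0, norm_zero] at h1
    exact pow_ne_zero _ ht0 (norm_le_zero_iff.mp h1)
  have hu : IsUnit (Matrix.of f).det := hdet.isUnit
  refine ⟨Matrix.of f, hu, fun v => ⟨fun hv i => ?_, fun hv => ?_⟩⟩
  · have e1 : (v ᵥ* (Matrix.of f)⁻¹) i =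
        ((Matrix.of f).det)⁻¹ * ((Matrix.of f).updateRow i v).det := by
      rw [← Matrix.mulVec_transpose, Matrix.transpose_nonsing_inv, Matrix.inv_def,
        Matrix.smul_mulVec, Pi.smul_apply, smul_eq_mul, ← Matrix.cramer_eq_adjugate_mulVec,
        Matrix.cramer_transpose_apply, Ring.inverse_eq_inv', Matrix.det_transpose]
    have e2 : ‖((Matrix.of f).updateRow i v).det‖ ≤ ‖(Matrix.of f).det‖ := by
      have h3 : (Matrix.of f).updateRow i v = Matrix.of (Function.update f i v) := rfl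
      rw [h3]
      refine hmax' _ fun l _ => ?_
      by_cases hl : l = i
      · subst hl; rw [Function.update_self]; exact hv
      · rw [Function.update_of_ne hl]; exact hf l trivial
    rw [e1, norm_mul, norm_inv]
    have h4 : 0 < ‖(Matrix.of f).det‖ := norm_pos_iff.mpr hdet
    rw [inv_mul_le_iff₀ h4, mul_one]
    exact e2
  · have h1 : v = (v ᵥ* (Matrix.of f)⁻¹) ᵥ* (Matrix.of f) := by
      rw [Matrix.vecMul_vecMul, Matrix.nonsing_inv_mul _ hu, Matrix.vecMul_one]
    rw [h1, vecMul_eq_sum]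
    exact h.sum _ _ fun i _ => h.smul _ (hv i) _ (hf i trivial)

end lat

end Vale.Agent.P092.H628.VC
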