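import Vale.Agent.P092.H628.VC1

/-!
[VOL-CL], part 2: a bounded group of isometries stabilises an almost unimodular lattice.
-/

set_option linter.all false

open Matrix Topology

namespace Vale.Agent.P092.H628.VC

variable {n : Type} [Fintype n] [DecidableEq n] {k : Type} [NontriviallyNormedField k]
  [IsUltrametricDist k]

/-- The form `h(x, y) = x J σ(y)ᵀ`. -/
def hf (σ : k →+* k) (J : Matrix n n k) (x y : n → k) : k := x ⬝ᵥ (J *ᵥ fun i => σ (y i))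

section alg

variable {σ : k →+* k} {J : Matrix n n k}

theorem hf_add_left (x x' y : n → k) : hf σ J (x + x') y = hf σ J x y + hf σ J x' y := by
  unfold hf; rw [add_dotProduct]

theorem hf_smul_left (a : k) (x y : n → k) : hf σ J (a • x) y = a * hf σ J x y := by
  unfold hf; rw [smul_dotProduct, smul_eq_mul]

theorem hf_add_right (x y y' : n → k) : hf σ J x (y + y') = hf σ J x y + hf σ J x y' := by
  unfold hf
  have e : (fun i => σ ((y + y') i)) = (fun i => σ (y i)) + fun i => σ (y' i) := by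
    funext i; simp
  rw [e, mulVec_add, dotProduct_add]

theorem hf_smul_right (a : k) (x y : n → k) : hf σ J x (a • y) = σ a * hf σ J x y := by
  unfold hf
  have e : (fun i => σ ((a • y) i)) = σ a • fun i => σ (y i) := by
    funext i; simp
  rw [e, mulVec_smul, dotProduct_smul, smul_eq_mul]

end alg

/-- The assumptions on the form. -/
structure Hrm (σ : k →+* k) (J : Matrix n n k) : Prop where
  nrm : ∀ x, ‖σ x‖ = ‖x‖
  inv : ∀ x, σ (σ x) = x
  sym : ∀ x y, ‖hf σ J y x‖ = ‖hf σ J x y‖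
  det : IsUnit J.det

variable {σ : k →+* k} {J : Matrix n n k}

theorem norm_hf_le (hJ : Hrm σ J) {r a b : ℝ} (hr : 0 ≤ r) (ha : 0 ≤ a) (hb : 0 ≤ b)
    (hB : Bd r J) {x y : n → k} (hx : Vb a x) (hy : Vb b y) : ‖hf σ J x y‖ ≤ a * (r * b) := by
  unfold hf
  refine norm_dot_le ha (mul_nonneg hr hb) hx ?_
  exact Vb.mul' hb hr (fun i => by rw [hJ.nrm]; exact hy i) hB

/-- The dual lattice. -/
def dual (σ : k →+* k) (J : Matrix n n k) (M : Set (n → k)) : Set (n → k) :=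
  {v | ∀ m ∈ M, ‖hf σ J v m‖ ≤ 1}

theorem hf_single (v : n → k) (i : n) (t : k) :
    hf σ J v (Pi.single i t) = σ t * (v ᵥ* J) i := by
  have e : (fun l => σ ((Pi.single i t : n → k) l)) = Pi.single i (σ t) := by
    funext l
    by_cases hl : l = i
    · subst hl; simp
    · simp [Pi.single_eq_of_ne hl]
  unfold hf
  rw [e, Matrix.dotProduct_mulVec, dotProduct_single, mul_comm]

theorem exists_small' {C : ℝ} (hC : 0 ≤ C) {δ : ℝ} (hδ : 0 < δ) : ∃ t : k, t ≠ 0 ∧ ‖t‖ * C ≤ δ := by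
  obtain ⟨t, ht0, ht⟩ := NormedField.exists_norm_lt k (r := δ / (C + 1)) (by positivity)
  refine ⟨t, norm_pos_iff.mp ht0, ?_⟩
  rw [lt_div_iff₀ (by positivity)] at ht
  nlinarith [norm_nonneg t]

theorem dual_lat (hJ : Hrm σ J) {M : Set (n → k)} (h : Lat M) : Lat (dual σ J M) where
  add := fun u hu v hv m hm => by
    rw [hf_add_left]
    exact (IsUltrametricDist.norm_add_le_max _ _).trans (max_le (hu m hm) (hv m hm))
  smul := fun c hc v hv m hm => by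
    rw [hf_smul_left, norm_mul]
    exact mul_le_one₀ hc (norm_nonneg _) (hv m hm)
  bdd := by
    obtain ⟨t, ht0, ht⟩ := h.abs
    obtain ⟨r, hr0, hr⟩ := exists_bd J⁻¹
    refine ⟨‖t‖⁻¹ * r, fun v hv => ?_⟩
    have h1 : Vb ‖t‖⁻¹ (v ᵥ* J) := by
      intro i
      have h2 := hv (Pi.single i t) (ht _ fun l => by
        by_cases hl : l = i
        · subst hl; simp
        · simp [Pi.single_eq_of_ne hl])
      rw [hf_single, norm_mul, hJ.nrm] at h2
      rw [← one_div, le_div_iff₀ (norm_pos_iff.mpr ht0), mul_comm]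
      exact h2
    have h2 := h1.mul (inv_nonneg.mpr (norm_nonneg t)) hr0.le hr
    rwa [Matrix.vecMul_vecMul, Matrix.mul_nonsing_inv _ hJ.det, Matrix.vecMul_one] at h2
  abs := by
    obtain ⟨R, hR⟩ := h.bdd
    obtain ⟨r, hr0, hr⟩ := exists_bd J
    obtain ⟨t, ht0, ht⟩ := exists_small' (k := k) (C := r * |R|) (by positivity) one_pos
    refine ⟨t, ht0, fun v hv m hm => ?_⟩
    exact (norm_hf_le hJ hr0.le (norm_nonneg t) (abs_nonneg R) hr hv
      ((hR m hm).mono (le_abs_self R))).trans ht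

/-- the vectors dual to a basis -/
theorem exists_dual (hJ : Hrm σ J) {z : Matrix n n k} (hz : IsUnit z.det) (i : n) :
    ∃ m : n → k, ∀ u, hf σ J u m = (u ᵥ* z⁻¹) i := by
  refine ⟨fun l => σ ((J⁻¹ *ᵥ (z⁻¹ *ᵥ Pi.single i 1)) l), fun u => ?_⟩
  unfold hf
  have e : (fun l => σ (σ ((J⁻¹ *ᵥ (z⁻¹ *ᵥ Pi.single i 1)) l))) =
      J⁻¹ *ᵥ (z⁻¹ *ᵥ Pi.single i 1) := by
    funext l; exact hJ.inv _
  rw [e, Matrix.mulVec_mulVec, Matrix.mul_nonsing_inv _ hJ.det, Matrix.one_mulVec,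
    Matrix.dotProduct_mulVec, dotProduct_single, mul_one]

theorem dual_dual [ProperSpace k] (hJ : Hrm σ J) {M : Set (n → k)} (h : Lat M) {v : n → k}
    (hv : v ∈ dual σ J (dual σ J M)) : v ∈ M := by
  obtain ⟨z, hz, hM⟩ := h.exists_basis
  rw [hM]
  intro i
  obtain ⟨m, hm⟩ := exists_dual hJ hz i
  rw [← hm]
  refine hv m fun u hu => ?_
  rw [hJ.sym, hm]
  exact (hM u).mp hu i

/-- A bounded group of isometries. -/
structure Wcp (σ : k →+* k) (J : Matrix n n k) (W : Set (Matrix n n k)) : Prop where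
  one : (1 : Matrix n n k) ∈ W
  mul : ∀ g ∈ W, ∀ h ∈ W, g * h ∈ W
  inv : ∀ g ∈ W, ∃ g' ∈ W, g' * g = 1
  bdd : ∃ R : ℝ, ∀ g ∈ W, Bd R g
  iso : ∀ g ∈ W, ∀ x y, hf σ J (x ᵥ* g) (y ᵥ* g) = hf σ J x y

variable {W : Set (Matrix n n k)} {ϖ : k}

/-- A stable integral lattice with `ϖ ^ r M^# ⊆ M`. -/
structure PM (σ : k →+* k) (J : Matrix n n k) (W : Set (Matrix n n k)) (ϖ : k) (M : Set (n → k))
    (r : ℕ) : Prop where
  lat : Lat M
  stab : ∀ v ∈ M, ∀ g ∈ W, v ᵥ* g ∈ M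
  int : ∀ u ∈ M, ∀ v ∈ M, ‖hf σ J u v‖ ≤ 1
  near : ∀ v ∈ dual σ J M, ϖ ^ r • v ∈ M

theorem PM.start (hJ : Hrm σ J) (hW : Wcp σ J W) (hϖ : ‖ϖ‖ < 1) :
    ∃ M r, PM σ J W ϖ M r := by
  obtain ⟨R, hR⟩ := hW.bdd
  obtain ⟨r, hr0, hr⟩ := exists_bd J
  -- `t` with `‖t‖ * r * ‖t‖ ≤ 1`
  obtain ⟨t, ht0, ht⟩ := exists_small' (k := k) (C := max 1 r) (by positivity) one_pos
  have ht1 : ‖t‖ ≤ 1 := by
    have := le_max_left 1 r
    nlinarith [norm_nonneg t]
  have htr : ‖t‖ * (r * ‖t‖) ≤ 1 := by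
    have h1 : ‖t‖ * r ≤ 1 := le_trans (mul_le_mul_of_nonneg_left (le_max_right 1 r) (norm_nonneg t)) ht
    have h2 : 0 ≤ ‖t‖ * r := by positivity
    nlinarith [norm_nonneg t]
  set M : Set (n → k) := {v | ∀ g ∈ W, Vb ‖t‖ (v ᵥ* g)} with hM
  have hLat : Lat M :=
    { add := fun u hu v hv g hg => by rw [Matrix.add_vecMul]; exact (hu g hg).add (hv g hg)
      smul := fun c hc v hv g hg => by
        rw [Matrix.smul_vecMul]
        exact ((hv g hg).smul c).mono (mul_le_of_le_one_left (norm_nonneg _) hc)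
      bdd := ⟨‖t‖, fun v hv => by have := hv 1 hW.one; rwa [Matrix.vecMul_one] at this⟩
      abs := by
        obtain ⟨s, hs0, hs⟩ := exists_small' (k := k) (C := |R|) (abs_nonneg _) one_pos
        refine ⟨t * s, mul_ne_zero ht0 hs0, fun v hv g hg => ?_⟩
        refine (hv.mul (norm_nonneg _) (abs_nonneg R) ((hR g hg).mono (le_abs_self R))).mono ?_
        rw [norm_mul, mul_assoc]
        exact mul_le_of_le_one_right (norm_nonneg _) hs }
  obtain ⟨R', hR'⟩ := (dual_lat hJ hLat).bdd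
  obtain ⟨t', ht0', ht'⟩ := hLat.abs
  obtain ⟨m, hm⟩ := exists_pow_lt_of_lt_one (show (0 : ℝ) < ‖t'‖ / (|R'| + 1) from
    div_pos (norm_pos_iff.mpr ht0') (by positivity)) hϖ
  refine ⟨M, m, hLat, fun v hv g hg h hh => ?_, fun u hu v hv => ?_, fun v hv => ht' _ ?_⟩
  · rw [Matrix.vecMul_vecMul]
    exact hv _ (hW.mul g hg h hh)
  · have h1 := hu 1 hW.one
    have h2 := hv 1 hW.one
    rw [Matrix.vecMul_one] at h1 h2
    exact (norm_hf_le hJ hr0.le (norm_nonneg _) (norm_nonneg _) hr h1 h2).trans htr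
  · have h1 : Vb |R'| v := (hR' v hv).mono (le_abs_self R')
    refine (h1.smul (ϖ ^ m)).mono ?_
    rw [norm_pow]
    rw [lt_div_iff₀ (by positivity)] at hm
    have : 0 ≤ ‖ϖ‖ ^ m := by positivity
    nlinarith

theorem PM.step [ProperSpace k] (hJ : Hrm σ J) (hW : Wcp σ J W) (hϖ : ‖ϖ‖ < 1) (hϖ0 : ϖ ≠ 0)
    {M : Set (n → k)} {r s : ℕ} (h : PM σ J W ϖ M r) (hs : r ≤ 2 * s) :
    ∃ M', PM σ J W ϖ M' s := by
  have hD := dual_lat hJ h.lat
  have hn0 : 0 ≤ ‖ϖ‖ := norm_nonneg _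
  have hps : ∀ j : ℕ, ‖ϖ ^ j‖ ≤ 1 := fun j => by
    rw [norm_pow]; exact pow_le_one₀ hn0 hϖ.le
  have hMD : ∀ v ∈ M, v ∈ dual σ J M := fun v hv m hm => h.int v hv m hm
  have hb : ∀ x ∈ dual σ J M, ∀ y ∈ dual σ J M, ‖hf σ J x y‖ ≤ (‖ϖ‖ ^ r)⁻¹ := by
    intro x hx y hy
    have h1 := hy _ (h.near x hx)
    rw [hJ.sym, hf_smul_left, norm_mul, norm_pow] at h1
    have h2 : 0 < ‖ϖ‖ ^ r := pow_pos (norm_pos_iff.mpr hϖ0) r
    rw [← one_div, le_div_iff₀ h2, mul_comm]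
    exact h1
  have hstab : ∀ v ∈ dual σ J M, ∀ g ∈ W, v ᵥ* g ∈ dual σ J M := by
    intro v hv g hg m hm
    obtain ⟨g', hg', hgg⟩ := hW.inv g hg
    have h1 : m = (m ᵥ* g') ᵥ* g := by rw [Matrix.vecMul_vecMul, hgg, Matrix.vecMul_one]
    rw [h1, hW.iso g hg]
    exact hv _ (h.stab m hm g' hg')
  set M' : Set (n → k) := {v | ∃ a ∈ M, ∃ b ∈ dual σ J M, v = a + ϖ ^ s • b} with hM'
  have hMM : ∀ v ∈ M, v ∈ M' := fun v hv => ⟨v, hv, 0, hD.zero, by rw [smul_zero, add_zero]⟩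
  have hDM : ∀ v ∈ dual σ J M, ϖ ^ s • v ∈ M' := fun v hv =>
    ⟨0, h.lat.zero, v, hv, by rw [zero_add]⟩
  have hM'D : ∀ v ∈ M', v ∈ dual σ J M := by
    rintro _ ⟨a, ha, b, hb, rfl⟩
    exact hD.add _ (hMD a ha) _ (hD.smul _ (hps s) _ hb)
  refine ⟨M', ⟨⟨?_, ?_, ?_, ?_⟩, ?_, ?_, ?_⟩⟩
  · rintro _ ⟨a, ha, b, hb, rfl⟩ _ ⟨a', ha', b', hb', rfl⟩
    refine ⟨a + a', h.lat.add _ ha _ ha', b + b', hD.add _ hb _ hb', ?_⟩
    rw [smul_add]; abel
  · rintro c hc _ ⟨a, ha, b, hb, rfl⟩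
    refine ⟨c • a, h.lat.smul c hc _ ha, c • b, hD.smul c hc _ hb, ?_⟩
    rw [smul_add, smul_comm]
  · obtain ⟨R, hR⟩ := hD.bdd
    exact ⟨R, fun v hv => hR v (hM'D v hv)⟩
  · obtain ⟨t, ht0, ht⟩ := h.lat.abs
    exact ⟨t, ht0, fun v hv => hMM _ (ht v hv)⟩
  · rintro _ ⟨a, ha, b, hb, rfl⟩ g hg
    refine ⟨a ᵥ* g, h.stab a ha g hg, b ᵥ* g, hstab b hb g hg, ?_⟩
    rw [Matrix.add_vecMul, Matrix.smul_vecMul]
  · rintro _ ⟨a, ha, b, hb', rfl⟩ _ ⟨a', ha', b', hb'', rfl⟩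
    rw [hf_add_left, hf_add_right, hf_add_right]
    have h1 : ‖hf σ J a a'‖ ≤ 1 := h.int a ha a' ha'
    have h2 : ‖hf σ J a (ϖ ^ s • b')‖ ≤ 1 := by
      rw [hJ.sym]
      exact (hD.smul _ (hps s) _ hb'') a ha
    have h3 : ‖hf σ J (ϖ ^ s • b) a'‖ ≤ 1 := (hD.smul _ (hps s) _ hb') a' ha'
    have h4 : ‖hf σ J (ϖ ^ s • b) (ϖ ^ s • b')‖ ≤ 1 := by
      rw [hf_smul_left, hf_smul_right, norm_mul, norm_mul, hJ.nrm, norm_pow]
      have h5 := hb b hb' b' hb''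
      have h6 : 0 < ‖ϖ‖ ^ r := pow_pos (norm_pos_iff.mpr hϖ0) r
      have h7 : ‖ϖ‖ ^ s * ‖ϖ‖ ^ s ≤ ‖ϖ‖ ^ r := by
        rw [← pow_add]
        exact pow_le_pow_of_le_one hn0 hϖ.le (by omega)
      calc ‖ϖ‖ ^ s * (‖ϖ‖ ^ s * ‖hf σ J b b'‖) = (‖ϖ‖ ^ s * ‖ϖ‖ ^ s) * ‖hf σ J b b'‖ := by ring
        _ ≤ ‖ϖ‖ ^ r * (‖ϖ‖ ^ r)⁻¹ := mul_le_mul h7 h5 (norm_nonneg _) h6.le
        _ = 1 := mul_inv_cancel₀ h6.ne'
    refine (IsUltrametricDist.norm_add_le_max _ _).trans (max_le ?_ ?_)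
    · exact (IsUltrametricDist.norm_add_le_max _ _).trans (max_le h1 h2)
    · exact (IsUltrametricDist.norm_add_le_max _ _).trans (max_le h3 h4)
  · intro v hv
    refine hMM _ (dual_dual hJ h.lat ?_)
    intro m hm
    rw [hf_smul_left, norm_mul, ← hJ.nrm (ϖ ^ s), ← norm_mul, ← hf_smul_right]
    exact hv _ (hDM m hm)

theorem PM.last [ProperSpace k] (hJ : Hrm σ J) (hW : Wcp σ J W) (hϖ : ‖ϖ‖ < 1) (hϖ0 : ϖ ≠ 0) :
    ∃ M, PM σ J W ϖ M 1 := by
  obtain ⟨M, r, h⟩ := PM.start hJ hW hϖ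
  induction r using Nat.strong_induction_on generalizing M with
  | _ r ih =>
    by_cases hr : r ≤ 2
    · exact h.step hJ hW hϖ hϖ0 (s := 1) (by omega)
    · obtain ⟨M', h'⟩ := h.step hJ hW hϖ hϖ0 (s := (r + 1) / 2) (by omega)
      exact ih _ (by omega) M' h'

/-- The Gram matrix. -/
def gram (σ : k →+* k) (J z : Matrix n n k) : Matrix n n k := z * J * (z.map σ)ᵀ

theorem hf_rows (z : Matrix n n k) (a b : n → k) :
    hf σ J (a ᵥ* z) (b ᵥ* z) = hf σ (gram σ J z) a b := by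
  unfold hf gram
  have e : (fun i => σ ((b ᵥ* z) i)) = (z.map σ)ᵀ *ᵥ fun i => σ (b i) := by
    funext i
    simp only [vecMul, dotProduct, mulVec, transpose_apply, map_apply, map_sum, map_mul]
    exact Finset.sum_congr rfl fun j _ => mul_comm _ _
  rw [e, mulVec_mulVec, ← dotProduct_mulVec, mulVec_mulVec, ← Matrix.mul_assoc]

theorem gram_apply (z : Matrix n n k) (i j : n) :
    gram σ J z i j = hf σ J (z i) (z j) := by
  have h1 := hf_rows (σ := σ) (J := J) z (Pi.single i 1) (Pi.single j 1)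
  rw [single_one_vecMul, single_one_vecMul] at h1
  rw [hf_single, map_one, one_mul, single_one_vecMul] at h1
  exact h1.symm

/-- **(1) + (2)** A bounded group of isometries is integral with respect to a basis whose Gram
matrix is integral and almost invertible. -/
theorem exists_near [ProperSpace k] (hJ : Hrm σ J) (hW : Wcp σ J W) (hϖ : ‖ϖ‖ < 1) (hϖ0 : ϖ ≠ 0) :
    ∃ z : Matrix n n k, IsUnit z.det ∧ (∀ g ∈ W, Bd 1 (z * g * z⁻¹)) ∧ Bd 1 (gram σ J z) ∧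
      Bd ‖ϖ‖⁻¹ (gram σ J z)⁻¹ := by
  obtain ⟨M, h⟩ := PM.last hJ hW hϖ hϖ0
  obtain ⟨z, hz, hM⟩ := h.lat.exists_basis
  have hrow : ∀ i, z i ∈ M := by
    intro i
    rw [hM]
    have : z i = Pi.single i 1 ᵥ* z := by rw [single_one_vecMul]; rfl
    rw [this, Matrix.vecMul_vecMul, Matrix.mul_nonsing_inv _ hz, Matrix.vecMul_one]
    intro l
    by_cases hl : l = i
    · subst hl; simp
    · simp [Pi.single_eq_of_ne hl]
  refine ⟨z, hz, fun g hg i j => ?_, fun i j => ?_, fun i j => ?_⟩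
  · have h1 := (hM _).mp (h.stab _ (hrow i) g hg) j
    rw [Matrix.vecMul_vecMul] at h1
    have h2 : (z * g * z⁻¹) i j = (z i ᵥ* (g * z⁻¹)) j := by rw [Matrix.mul_assoc]; rfl
    rw [h2]
    exact h1
  · rw [gram_apply]
    exact h.int _ (hrow i) _ (hrow j)
  · obtain ⟨m, hm⟩ := exists_dual hJ hz j
    have hmD : m ∈ dual σ J M := fun u hu => by
      rw [hJ.sym, hm]
      exact (hM u).mp hu j
    have h1 := (hM _).mp (h.near m hmD)
    rw [pow_one, Matrix.smul_vecMul] at h1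
    set b := m ᵥ* z⁻¹ with hb
    have hmb : m = b ᵥ* z := by
      rw [hb, Matrix.vecMul_vecMul, Matrix.nonsing_inv_mul _ hz, Matrix.vecMul_one]
    have h2 : gram σ J z *ᵥ (fun l => σ (b l)) = Pi.single j 1 := by
      funext l
      have h3 := hm (Pi.single l 1 ᵥ* z)
      rw [hmb, hf_rows, Matrix.vecMul_vecMul, Matrix.mul_nonsing_inv _ hz, Matrix.vecMul_one] at h3
      unfold hf at h3
      rw [single_one_dotProduct] at h3
      rw [h3, Pi.single_apply, Pi.single_apply]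
      by_cases hlj : l = j
      · subst hlj; simp
      · simp [hlj, Ne.symm hlj]
    have hG : IsUnit (gram σ J z).det := by
      unfold gram
      rw [Matrix.det_mul, Matrix.det_mul, Matrix.det_transpose]
      have h3 : (z.map σ).det = σ z.det := by
        rw [RingHom.map_det]; rfl
      rw [h3]
      exact (hz.mul hJ.det).mul (hz.map σ)
    have h3 : (gram σ J z)⁻¹ *ᵥ (Pi.single j 1) = fun l => σ (b l) := by
      rw [← h2, Matrix.mulVec_mulVec, Matrix.nonsing_inv_mul _ hG, Matrix.one_mulVec]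
    have h4 : (gram σ J z)⁻¹ i j = σ (b i) := by
      have := congrFun h3 i
      rwa [mulVec_single_one] at this
    rw [h4, hJ.nrm]
    have h5 := h1 i
    rw [Pi.smul_apply, smul_eq_mul, norm_mul] at h5
    rw [← one_div, le_div_iff₀ (norm_pos_iff.mpr hϖ0), mul_comm]
    exact h5

end Vale.Agent.P092.H628.VC
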