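import Vale.Agent.P092.H628.VC2

/-!
[VOL-CL], part 3: nearby forms are equivalent (uniform Hensel lemma), and finitely many lattices up
to isometry.
-/

set_option linter.all false

open Matrix Topology

namespace Vale.Agent.P092.H628.VC

variable {n : Type} [Fintype n] [DecidableEq n] {k : Type} [NontriviallyNormedField k]
  [IsUltrametricDist k]

/-- `GL_n` of the ring of integers. -/
def IsInt (u : Matrix n n k) : Prop := Bd 1 u ∧ ‖u.det‖ = 1

theorem IsInt.isUnit {u : Matrix n n k} (h : IsInt u) : IsUnit u.det := by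
  have : u.det ≠ 0 := fun h0 => by
    have := h.2
    rw [h0, norm_zero] at this
    exact zero_ne_one this
  exact this.isUnit

theorem bd_adjugate {u : Matrix n n k} (h : Bd 1 u) : Bd 1 u.adjugate := by
  intro i j
  rw [Matrix.adjugate_apply]
  have h1 : Bd 1 (u.updateRow j (Pi.single i 1)) := by
    intro a b
    by_cases ha : a = j
    · subst ha
      rw [Matrix.updateRow_self]
      by_cases hb : b = i
      · subst hb; simp
      · simp [Pi.single_eq_of_ne hb]
    · rw [Matrix.updateRow_ne ha]; exact h a b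
  have := norm_det_le zero_le_one h1
  rwa [one_pow] at this

theorem IsInt.inv {u : Matrix n n k} (h : IsInt u) : IsInt u⁻¹ := by
  refine ⟨fun i j => ?_, ?_⟩
  · rw [Matrix.inv_def, Matrix.smul_apply, smul_eq_mul, norm_mul, Ring.inverse_eq_inv', norm_inv,
      h.2, inv_one, one_mul]
    exact bd_adjugate h.1 i j
  · rw [Matrix.det_nonsing_inv, Ring.inverse_eq_inv', norm_inv, h.2, inv_one]

theorem IsInt.mul {u v : Matrix n n k} (h : IsInt u) (h' : IsInt v) : IsInt (u * v) :=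
  ⟨h.1.mul_one h'.1, by rw [Matrix.det_mul, norm_mul, h.2, h'.2, one_mul]⟩

theorem IsInt.one : IsInt (1 : Matrix n n k) := ⟨Bd.one, by rw [Matrix.det_one, norm_one]⟩

theorem isInt_of {z : Matrix n n k} (h : Bd 1 z) (hz : IsUnit z.det) (h' : Bd 1 z⁻¹) : IsInt z := by
  refine ⟨h, le_antisymm ?_ ?_⟩
  · have := norm_det_le zero_le_one h
    rwa [one_pow] at this
  · have h1 := norm_det_le zero_le_one h'
    rw [one_pow, Matrix.det_nonsing_inv, Ring.inverse_eq_inv', norm_inv] at h1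
    have h2 : 0 < ‖z.det‖ := norm_pos_iff.mpr hz.ne_zero
    rw [← one_div, div_le_iff₀ h2, one_mul] at h1
    exact h1

theorem prod_sub_le {ι : Type} (s : Finset ι) (a b : ι → k) {r : ℝ} (hr : 0 ≤ r)
    (ha : ∀ i, ‖a i‖ ≤ 1) (hb : ∀ i, ‖b i‖ ≤ 1) (h : ∀ i, ‖a i - b i‖ ≤ r) :
    ‖∏ i ∈ s, a i - ∏ i ∈ s, b i‖ ≤ r := by
  classical
  induction s using Finset.induction_on with
  | empty => simpa using hr
  | insert x s hx ih =>
    rw [Finset.prod_insert hx, Finset.prod_insert hx]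
    have e : a x * ∏ i ∈ s, a i - b x * ∏ i ∈ s, b i =
        (a x - b x) * ∏ i ∈ s, a i + b x * (∏ i ∈ s, a i - ∏ i ∈ s, b i) := by ring
    rw [e]
    refine (IsUltrametricDist.norm_add_le_max _ _).trans (max_le ?_ ?_)
    · rw [norm_mul, norm_prod]
      exact (mul_le_of_le_one_right (norm_nonneg _)
        (Finset.prod_le_one (fun _ _ => norm_nonneg _) fun i _ => ha i)).trans (h x)
    · rw [norm_mul]
      exact (mul_le_of_le_one_left (norm_nonneg _) (hb x)).trans ih

theorem det_sub_le {A B : Matrix n n k} {r : ℝ} (hr : 0 ≤ r) (hA : Bd 1 A) (hB : Bd 1 B)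
    (h : Bd r (A - B)) : ‖A.det - B.det‖ ≤ r := by
  rw [Matrix.det_apply, Matrix.det_apply, ← Finset.sum_sub_distrib]
  refine IsUltrametricDist.norm_sum_le_of_forall_le_of_nonneg hr fun τ _ => ?_
  rw [← smul_sub]
  have h1 : ∀ x : k, ‖(Equiv.Perm.sign τ : ℤˣ) • x‖ = ‖x‖ := by
    intro x
    rcases Int.units_eq_one_or (Equiv.Perm.sign τ) with h | h
    · rw [h, one_smul]
    · rw [h, Units.neg_smul, one_smul, norm_neg]
  rw [h1]
  exact prod_sub_le _ _ _ hr (fun i => hA _ _) (fun i => hB _ _) fun i => h _ _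

theorem isInt_one_add {X : Matrix n n k} {r : ℝ} (h0 : 0 ≤ r) (h1 : r < 1) (hX : Bd r X) :
    IsInt (1 + X) := by
  have hb : Bd 1 (1 + X) := Bd.one.add (hX.mono h1.le)
  refine ⟨hb, ?_⟩
  have h2 := det_sub_le h0 hb Bd.one (A := 1 + X) (by rw [add_sub_cancel_left]; exact hX)
  rw [Matrix.det_one] at h2
  have h3 : ‖(1 + X).det - 1‖ < 1 := lt_of_le_of_lt h2 h1
  have h4 : (1 + X).det = ((1 + X).det - 1) + 1 := by ring
  rw [h4, IsUltrametricDist.norm_add_eq_max_of_norm_ne_norm (by rw [norm_one]; exact h3.ne),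
    norm_one, max_eq_right h3.le]

section hens

variable {σ : k →+* k} {ε : k}

/-- The trace class. -/
def Tc (σ : k →+* k) (ε : k) (E : Matrix n n k) : Prop := ∃ D, E = D + ε • (D.map σ)ᵀ

/-- The assumptions on the involution; `C` is the constant of the trace map. -/
structure Inv (n : Type) [Fintype n] [DecidableEq n] (σ : k →+* k) (ε : k) (C : ℝ) : Prop where
  nrm : ∀ x, ‖σ x‖ = ‖x‖
  inv : ∀ x, σ (σ x) = x
  eps : ε * ε = 1
  seps : σ ε = ε
  c0 : 1 ≤ C
  trc : ∀ (E : Matrix n n k) (r : ℝ), Tc σ ε E → Bd r E →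
    ∃ D, E = D + ε • (D.map σ)ᵀ ∧ Bd (C * r) D

theorem map_mul' (A B : Matrix n n k) : (A * B).map σ = A.map σ * B.map σ := Matrix.map_mul

theorem map_map_self (h : ∀ x, σ (σ x) = x) (A : Matrix n n k) : (A.map σ).map σ = A := by
  ext i j; simp [h]

theorem Tc.sub {A B : Matrix n n k} (hA : Tc σ ε A) (hB : Tc σ ε B) : Tc σ ε (A - B) := by
  obtain ⟨D, rfl⟩ := hA
  obtain ⟨D', rfl⟩ := hB
  refine ⟨D - D', ?_⟩
  have : ((D - D').map σ)ᵀ = (D.map σ)ᵀ - (D'.map σ)ᵀ := by ext i j; simp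
  rw [this, smul_sub]
  abel

theorem Tc.congr (h : ∀ x, σ (σ x) = x) {A : Matrix n n k} (hA : Tc σ ε A) (z : Matrix n n k) :
    Tc σ ε (z * A * (z.map σ)ᵀ) := by
  obtain ⟨D, rfl⟩ := hA
  refine ⟨z * D * (z.map σ)ᵀ, ?_⟩
  have e : ((z * D * (z.map σ)ᵀ).map σ)ᵀ = z * (D.map σ)ᵀ * (z.map σ)ᵀ := by
    rw [map_mul', map_mul', ← Matrix.transpose_map, map_map_self h, Matrix.transpose_mul,
      Matrix.transpose_mul, Matrix.transpose_transpose, Matrix.mul_assoc, Matrix.transpose_map]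
  rw [e, Matrix.mul_add, Matrix.add_mul, Matrix.mul_smul, Matrix.smul_mul]

theorem Tc.herm {C : ℝ} (hI : Inv n σ ε C) {A : Matrix n n k} (hA : Tc σ ε A) :
    A = ε • (A.map σ)ᵀ := by
  obtain ⟨D, rfl⟩ := hA
  have e : ((D + ε • (D.map σ)ᵀ).map σ)ᵀ = (D.map σ)ᵀ + ε • D := by
    ext i j
    simp [hI.inv, hI.seps]
  rw [e, smul_add, smul_smul, hI.eps, one_smul, add_comm]

/-- One Newton step. -/
theorem newton {C : ℝ} (hI : Inv n σ ε C) {A B : Matrix n n k} (hA : Tc σ ε A) (hB : Tc σ ε B)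
    (hA1 : Bd 1 A) (hAu : IsUnit A.det) {s e : ℝ} (hs : 1 ≤ s) (hAi : Bd s A⁻¹) (he : 0 ≤ e)
    (hE : Bd e (B - A)) (hsm : e * (C * s) ^ 2 < 1) :
    ∃ u, IsInt u ∧ Bd (e * (e * (C * s) ^ 2)) (B - u * A * (u.map σ)ᵀ) := by
  obtain ⟨D, hD, hDb⟩ := hI.trc _ e (hB.sub hA) hE
  have hC0 : 0 ≤ C := zero_le_one.trans hI.c0
  have hs0 : 0 ≤ s := zero_le_one.trans hs
  have hCs : 1 ≤ C * s := one_le_mul_of_one_le_of_one_le hI.c0 hs
  set X := D * A⁻¹ with hX
  have hXb : Bd (e * (C * s)) X := by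
    have := hDb.mul (by positivity) hs0 hAi
    rwa [show C * e * s = e * (C * s) by ring] at this
  have h1 : e * (C * s) < 1 := by
    have : e * (C * s) ≤ e * (C * s) ^ 2 := by
      have h2 : C * s ≤ (C * s) ^ 2 := by nlinarith
      exact mul_le_mul_of_nonneg_left h2 he
    linarith
  have hXA : X * A = D := by
    rw [hX, Matrix.mul_assoc, Matrix.nonsing_inv_mul _ hAu, Matrix.mul_one]
  have hAX : A * (X.map σ)ᵀ = ε • (D.map σ)ᵀ := by
    conv_lhs => rw [hA.herm hI]
    rw [Matrix.smul_mul, ← Matrix.transpose_mul, ← map_mul', hXA]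
  refine ⟨1 + X, isInt_one_add (by positivity) h1 hXb, ?_⟩
  have e1 : ((1 + X).map σ)ᵀ = 1 + (X.map σ)ᵀ := by
    have : (1 + X).map σ = (1 : Matrix n n k) + X.map σ := by
      rw [Matrix.map_add _ (map_add σ), Matrix.map_one σ (map_zero σ) (map_one σ)]
    rw [this, Matrix.transpose_add, Matrix.transpose_one]
  have e2 : B - (1 + X) * A * ((1 + X).map σ)ᵀ = -(X * A * (X.map σ)ᵀ) := by
    rw [e1]
    have h2 : (1 + X) * A * (1 + (X.map σ)ᵀ) = A + X * A + A * (X.map σ)ᵀ + X * A * (X.map σ)ᵀ := by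
      noncomm_ring
    rw [h2, hXA, hAX]
    have h3 : B = A + (D + ε • (D.map σ)ᵀ) := by rw [← hD]; abel
    conv_lhs => rw [h3]
    abel
  rw [e2]
  have h2 : Bd (e * (C * s) * 1 * (e * (C * s))) (X * A * (X.map σ)ᵀ) :=
    (hXb.mul (by positivity) zero_le_one hA1).mul (by positivity) (by positivity)
      ((hXb.map hI.nrm).transpose)
  refine h2.neg.mono (le_of_eq ?_)
  ring

variable [ProperSpace k]

theorem continuous_sig (hn : ∀ x, ‖σ x‖ = ‖x‖) : Continuous σ := by
  have : Isometry σ := AddMonoidHomClass.isometry_of_norm σ hn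
  exact this.continuous

theorem isCompact_isInt : IsCompact {u : n → n → k | IsInt (Matrix.of u)} := by
  have hc : IsCompact (Set.pi Set.univ fun _ : n => Set.pi Set.univ
      fun _ : n => Metric.closedBall (0 : k) 1) :=
    isCompact_univ_pi fun _ => isCompact_univ_pi fun _ => isCompact_closedBall _ _
  refine hc.of_isClosed_subset ?_ fun u hu i _ j _ => ?_
  · have h1 : IsClosed {u : n → n → k | Bd 1 (Matrix.of u)} := by
      have : {u : n → n → k | Bd 1 (Matrix.of u)} = ⋂ i, ⋂ j, {u : n → n → k | ‖u i j‖ ≤ 1} := by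
        ext u; simp [Bd]
      rw [this]
      exact isClosed_iInter fun i => isClosed_iInter fun j =>
        isClosed_le ((_root_.continuous_apply j).comp (_root_.continuous_apply i)).norm continuous_const
    have h2 : IsClosed {u : n → n → k | ‖(Matrix.of u).det‖ = 1} :=
      isClosed_eq (Continuous.matrix_det (by exact continuous_id)).norm continuous_const
    exact h1.inter h2
  · rw [Metric.mem_closedBall, dist_zero_right]
    exact hu.1 i j

/-- Uniform Hensel lemma. -/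
theorem hensel {C : ℝ} (hI : Inv n σ ε C) {A B : Matrix n n k} (hA : Tc σ ε A) (hB : Tc σ ε B)
    (hA1 : Bd 1 A) (hAu : IsUnit A.det) {s e : ℝ} (hs : 1 ≤ s) (hAi : Bd s A⁻¹) (he : 0 ≤ e)
    (hE : Bd e (B - A)) (hsm : e * (C * s) ^ 2 < 1) :
    ∃ u, IsInt u ∧ B = u * A * (u.map σ)ᵀ := by
  have hσc := continuous_sig (k := k) hI.nrm
  set F : (n → n → k) → ℝ := fun u =>
    ‖(fun i j => (B - Matrix.of u * A * ((Matrix.of u).map σ)ᵀ) i j : n → n → k)‖ with hF
  have hFc : Continuous F := by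
    refine Continuous.norm ?_
    have h1 : Continuous fun u : n → n → k => (Matrix.of u : Matrix n n k) := continuous_id
    have h2 : Continuous fun u : n → n → k =>
        (B - Matrix.of u * A * ((Matrix.of u).map σ)ᵀ : Matrix n n k) :=
      continuous_const.sub ((h1.matrix_mul continuous_const).matrix_mul
        ((h1.matrix_map hσc).matrix_transpose))
    exact h2
  obtain ⟨u, hu, hmin⟩ := (isCompact_isInt (n := n) (k := k)).exists_isMinOn
    ⟨(1 : Matrix n n k), IsInt.one⟩ hFc.continuousOn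
  have hmin' : ∀ v : Matrix n n k, IsInt v → F u ≤ F v := fun v hv => hmin hv
  have hbF : ∀ v : Matrix n n k, Bd (F v) (B - v * A * (v.map σ)ᵀ) := by
    intro v i j
    exact (norm_le_pi_norm (fun j => (B - v * A * (v.map σ)ᵀ) i j) j).trans
      (norm_le_pi_norm (fun i j => (B - v * A * (v.map σ)ᵀ) i j : n → n → k) i)
  have hFb : ∀ (v : Matrix n n k) {r : ℝ}, 0 ≤ r → Bd r (B - v * A * (v.map σ)ᵀ) → F v ≤ r := by
    intro v r hr h
    exact (pi_norm_le_iff_of_nonneg hr).mpr fun i => (pi_norm_le_iff_of_nonneg hr).mpr fun j => h i j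
  have hu' : IsInt (Matrix.of u) := hu
  set U : Matrix n n k := Matrix.of u with hU
  have hF0 : 0 ≤ F u := norm_nonneg _
  by_cases h0 : F u = 0
  · refine ⟨U, hu', ?_⟩
    ext i j
    have h1 := hbF U i j
    have h2 : F U = 0 := h0
    rw [h2] at h1
    have h3 := norm_le_zero_iff.mp h1
    rw [Matrix.sub_apply, sub_eq_zero] at h3
    exact h3
  · exfalso
    have hFe : F u ≤ e := by
      refine (hmin' 1 IsInt.one).trans (hFb _ he ?_)
      rw [Matrix.one_mul, Matrix.map_one σ (map_zero σ) (map_one σ), Matrix.transpose_one,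
        Matrix.mul_one]
      exact hE
    set A' := U * A * (U.map σ)ᵀ with hA'
    have hUσ : Bd 1 (U.map σ)ᵀ := (hu'.1.map hI.nrm).transpose
    have hdU : IsUnit (U.map σ)ᵀ.det := by
      rw [Matrix.det_transpose, ← RingHom.mapMatrix_apply, ← RingHom.map_det]
      exact hu'.isUnit.map σ
    have hinv : ((U.map σ)ᵀ)⁻¹ = ((U⁻¹).map σ)ᵀ := by
      refine Matrix.inv_eq_right_inv ?_
      rw [← Matrix.transpose_mul, ← map_mul', Matrix.nonsing_inv_mul _ hu'.isUnit,
        Matrix.map_one σ (map_zero σ) (map_one σ), Matrix.transpose_one]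
    have hA'i : Bd s A'⁻¹ := by
      rw [hA', Matrix.mul_inv_rev, Matrix.mul_inv_rev, hinv]
      have h1 : Bd (1 * (s * 1)) (((U⁻¹).map σ)ᵀ * (A⁻¹ * U⁻¹)) :=
        ((hu'.inv.1.map hI.nrm).transpose).mul zero_le_one (by positivity)
          (hAi.mul (by positivity) zero_le_one hu'.inv.1)
      rwa [mul_one, one_mul] at h1
    obtain ⟨v, hv, hvb⟩ := newton hI (hA.congr hI.inv U) hB ((hu'.1.mul_one hA1).mul_one hUσ)
      (by
        rw [Matrix.det_mul, Matrix.det_mul]
        exact (hu'.isUnit.mul hAu).mul hdU) hs hA'i hF0 (hbF U)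
      (lt_of_le_of_lt (mul_le_mul_of_nonneg_right hFe (by positivity)) hsm)
    have h1 : B - v * A' * (v.map σ)ᵀ = B - (v * U) * A * ((v * U).map σ)ᵀ := by
      rw [map_mul', Matrix.transpose_mul, hA']
      simp only [Matrix.mul_assoc]
    have h2 : F u ≤ F u * (F u * (C * s) ^ 2) := by
      refine (hmin' (v * U) (hv.mul hu')).trans (hFb _ (by positivity) ?_)
      rw [← h1]
      exact hvb
    have h3 : F u * (C * s) ^ 2 < 1 :=
      lt_of_le_of_lt (mul_le_mul_of_nonneg_right hFe (by positivity)) hsm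
    have h4 : 0 < F u := lt_of_le_of_ne hF0 (Ne.symm h0)
    nlinarith

/-- **(3) + (4)** Finitely many lattices up to isometry. -/
theorem exists_reps {C : ℝ} (hI : Inv n σ ε C) {J : Matrix n n k} (hJ : Hrm σ J)
    (hJT : Tc σ ε J) :
    ∃ F : Set (Matrix n n k), F.Finite ∧ F.Nonempty ∧ (∀ z ∈ F, IsUnit z.det) ∧
      ∀ W : Set (Matrix n n k), Wcp σ J W → ∃ z ∈ F, ∃ g : Matrix n n k, IsUnit g.det ∧
        gram σ J g = J ∧ ∀ w ∈ W, Bd 1 (z * (g * w * g⁻¹) * z⁻¹) := by
  obtain ⟨ϖ, hϖ0', hϖ⟩ := NormedField.exists_norm_lt k (r := 1) one_pos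
  have hϖ0 : ϖ ≠ 0 := norm_pos_iff.mp hϖ0'
  set s := ‖ϖ‖⁻¹ with hs
  have hs1 : 1 ≤ s := (one_le_inv₀ hϖ0').mpr hϖ.le
  have hC1 : 1 ≤ C * s := one_le_mul_of_one_le_of_one_le hI.c0 hs1
  set δ : ℝ := 1 / (2 * (C * s) ^ 2) with hδ
  have hδ0 : 0 < δ := by positivity
  have hδs : δ * (C * s) ^ 2 < 1 := by
    have h1 : (C * s) ^ 2 ≠ 0 := by positivity
    have : δ * (C * s) ^ 2 = 1 / 2 := by
      rw [hδ, one_div, mul_inv, mul_assoc, inv_mul_cancel₀ h1, mul_one]; norm_num
    rw [this]; norm_num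
  set Z : Set (n → n → k) := {A | ∃ z : Matrix n n k, IsUnit z.det ∧ gram σ J z = Matrix.of A ∧
    Bd 1 (gram σ J z) ∧ Bd s (gram σ J z)⁻¹} with hZ
  have hc : IsCompact (Set.pi Set.univ fun _ : n => Set.pi Set.univ
      fun _ : n => Metric.closedBall (0 : k) 1) :=
    isCompact_univ_pi fun _ => isCompact_univ_pi fun _ => isCompact_closedBall _ _
  have hZt : TotallyBounded Z := by
    refine hc.totallyBounded.subset ?_
    rintro A ⟨z, -, hz, h1, -⟩ i _ j _
    rw [Metric.mem_closedBall, dist_zero_right]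
    have := h1 i j
    rwa [hz] at this
  obtain ⟨t, htZ, htf, htc⟩ := Metric.finite_approx_of_totallyBounded hZt δ hδ0
  have htZ' : ∀ A ∈ t, ∃ z : Matrix n n k, IsUnit z.det ∧ gram σ J z = Matrix.of A ∧
    Bd 1 (gram σ J z) ∧ Bd s (gram σ J z)⁻¹ := fun A hA => htZ hA
  choose! f hf using htZ'
  refine ⟨insert 1 (f '' t), (htf.image f).insert 1, ⟨1, Set.mem_insert _ _⟩, ?_, ?_⟩
  · rintro _ (rfl | ⟨A, hA, rfl⟩)
    · rw [Matrix.det_one]; exact isUnit_one
    · exact (hf A hA).1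
  · intro W hW
    obtain ⟨z', hz', hzW, hz1, hz2⟩ := exists_near hJ hW hϖ hϖ0
    obtain ⟨G', hG'⟩ : ∃ G' : n → n → k, G' = fun i j => gram σ J z' i j := ⟨_, rfl⟩
    obtain ⟨A, hAt, hAd⟩ : ∃ A ∈ t, dist G' A < δ := by
      have := htc (show G' ∈ Z from ⟨z', hz', by rw [hG']; rfl, hz1, hz2⟩)
      simpa using this
    obtain ⟨hzu, hzg, hzb, hzi⟩ := hf A hAt
    set z := f A with hz
    have hgu : ∀ z : Matrix n n k, IsUnit z.det → IsUnit (gram σ J z).det := by
      intro z hz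
      unfold gram
      rw [Matrix.det_mul, Matrix.det_mul, Matrix.det_transpose, ← RingHom.mapMatrix_apply,
        ← RingHom.map_det]
      exact (hz.mul hJ.det).mul (hz.map σ)
    obtain ⟨u, hu, hue⟩ := hensel hI (A := gram σ J z) (B := gram σ J z')
      (hJT.congr hI.inv z) (hJT.congr hI.inv z') hzb (hgu z hzu) hs1 hzi hδ0.le (by
        intro i j
        rw [Matrix.sub_apply, hzg, Matrix.of_apply]
        have h1 := (dist_le_pi_dist G' A i)
        have h2 := (dist_le_pi_dist (G' i) (A i) j)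
        rw [dist_eq_norm, hG'] at h2
        rw [hG'] at h1 hAd
        exact (h2.trans h1).trans hAd.le) hδs
    have huz : IsUnit (u * z).det := by rw [Matrix.det_mul]; exact hu.isUnit.mul hzu
    have hgr : gram σ J z' = gram σ J (u * z) := by
      rw [hue]
      unfold gram
      rw [map_mul', Matrix.transpose_mul]
      simp only [Matrix.mul_assoc]
    obtain ⟨g, hg⟩ : ∃ g, g = (u * z)⁻¹ * z' := ⟨_, rfl⟩
    have hzg' : z' = u * z * g := by
      rw [hg, ← Matrix.mul_assoc, Matrix.mul_nonsing_inv _ huz, Matrix.one_mul]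
    have hgd : IsUnit g.det := by
      rw [hg, Matrix.det_mul]
      exact (Matrix.isUnit_nonsing_inv_det _ huz).mul hz'
    refine ⟨z, Set.mem_insert_of_mem _ ⟨A, hAt, rfl⟩, g, hgd, ?_, ?_⟩
    · have h1 : gram σ J z' = (u * z) * gram σ J g * ((u * z).map σ)ᵀ := by
        rw [hzg']
        unfold gram
        rw [map_mul' (u * z) g, Matrix.transpose_mul]
        simp only [Matrix.mul_assoc]
      rw [hgr] at h1
      have h2 : IsUnit ((u * z).map σ)ᵀ.det := by
        rw [Matrix.det_transpose, ← RingHom.mapMatrix_apply, ← RingHom.map_det]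
        exact huz.map σ
      have h3 : (u * z) * J * ((u * z).map σ)ᵀ = (u * z) * gram σ J g * ((u * z).map σ)ᵀ := h1
      set Q := ((u * z).map σ)ᵀ with hQ
      have h5 : ∀ X, (u * z)⁻¹ * ((u * z) * X * Q) * Q⁻¹ = X := by
        intro X
        calc _ = ((u * z)⁻¹ * (u * z)) * X * (Q * Q⁻¹) := by simp only [Matrix.mul_assoc]
          _ = X := by
            rw [Matrix.nonsing_inv_mul _ huz, Matrix.mul_nonsing_inv _ h2, Matrix.one_mul,
              Matrix.mul_one]
      have h4 : (u * z)⁻¹ * ((u * z) * J * Q) * Q⁻¹ =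
          (u * z)⁻¹ * ((u * z) * gram σ J g * Q) * Q⁻¹ := by rw [h3]
      rw [h5, h5] at h4
      exact h4.symm
    · intro w hw
      have h1 : z * (g * w * g⁻¹) * z⁻¹ = u⁻¹ * (z' * w * z'⁻¹) * u := by
        have h3 : z'⁻¹ = g⁻¹ * (z⁻¹ * u⁻¹) := by rw [hzg', Matrix.mul_inv_rev, Matrix.mul_inv_rev]
        rw [h3]
        conv_rhs => rw [hzg']
        have h2 : u⁻¹ * u = 1 := Matrix.nonsing_inv_mul _ hu.isUnit
        calc z * (g * w * g⁻¹) * z⁻¹ = 1 * (z * (g * w * g⁻¹) * z⁻¹) * 1 := by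
              rw [Matrix.one_mul, Matrix.mul_one]
          _ = (u⁻¹ * u) * (z * (g * w * g⁻¹) * z⁻¹) * (u⁻¹ * u) := by rw [h2]
          _ = _ := by simp only [Matrix.mul_assoc]
      rw [h1]
      exact (hu.inv.1.mul_one (hzW w hw)).mul_one hu.1

end hens

end Vale.Agent.P092.H628.VC
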