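import Vale.Agent.P092.H628.VC3
import Vale.Agent.P092.H632.Vol

/-!
[VOL-CL], part 4: the volumes of the compact subgroups of a group of isometries are bounded, and
the bound is attained.
-/

set_option linter.all false

open Matrix Topology MeasureTheory MeasureTheory.Measure Matrix.SpecialLinearGroup
open scoped ENNReal NNReal

namespace Vale.Agent.P092.H628.VC

variable {n : Type} [Fintype n] [DecidableEq n] {k : Type} [NontriviallyNormedField k]

section conj

/-- conjugation by an invertible matrix -/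
def cjs (A : GL n k) (g : SpecialLinearGroup n k) : SpecialLinearGroup n k :=
  ⟨(A : Matrix n n k) * (g : Matrix n n k) * ((A⁻¹ : GL n k) : Matrix n n k), by
    rw [Matrix.det_units_conj]; exact g.2⟩

theorem cjs_val (A : GL n k) (g : SpecialLinearGroup n k) :
    (cjs A g : Matrix n n k) = (A : Matrix n n k) * (g : Matrix n n k) *
      ((A⁻¹ : GL n k) : Matrix n n k) := rfl

theorem cjs_mul (A B : GL n k) (g : SpecialLinearGroup n k) :
    cjs (A * B) g = cjs A (cjs B g) := by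
  apply Subtype.ext
  rw [cjs_val, cjs_val, cjs_val, _root_.mul_inv_rev, Units.val_mul, Units.val_mul]
  simp only [Matrix.mul_assoc]

theorem cjs_one (g : SpecialLinearGroup n k) : cjs 1 g = g := by
  apply Subtype.ext
  rw [cjs_val, inv_one, Units.val_one, Matrix.one_mul, Matrix.mul_one]

theorem cjs_map_mul (A : GL n k) (g h : SpecialLinearGroup n k) :
    cjs A (g * h) = cjs A g * cjs A h := by
  apply Subtype.ext
  rw [Matrix.SpecialLinearGroup.coe_mul, cjs_val, cjs_val, cjs_val,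
    Matrix.SpecialLinearGroup.coe_mul]
  have h1 : ((A⁻¹ : GL n k) : Matrix n n k) * (A : Matrix n n k) = 1 := Units.inv_mul A
  calc (A : Matrix n n k) * ((g : Matrix n n k) * (h : Matrix n n k)) *
        ((A⁻¹ : GL n k) : Matrix n n k) = (A : Matrix n n k) * (g : Matrix n n k) * 1 *
        (h : Matrix n n k) * ((A⁻¹ : GL n k) : Matrix n n k) := by
        rw [Matrix.mul_one]; simp only [Matrix.mul_assoc]
    _ = _ := by rw [← h1]; simp only [Matrix.mul_assoc]

theorem cjs_cont (A : GL n k) : Continuous (cjs (n := n) (k := k) A) := by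
  refine Continuous.subtype_mk ?_ _
  exact (continuous_const.matrix_mul continuous_subtype_val).matrix_mul continuous_const

theorem cjs_toGL (s g : SpecialLinearGroup n k) : cjs (toGL s) g = s * g * s⁻¹ := by
  apply Subtype.ext
  rw [cjs_val, ← map_inv, coe_GL_coe_matrix, coe_GL_coe_matrix]
  rfl

/-- The group of isometries. -/
def Uiso (σ : k →+* k) (J : Matrix n n k) : Subgroup (GL n k) where
  carrier := {A | (A : Matrix n n k) * J * ((A : Matrix n n k).map σ)ᵀ = J}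
  one_mem' := by
    show (1 : Matrix n n k) * J * ((1 : Matrix n n k).map σ)ᵀ = J
    rw [Matrix.map_one σ (map_zero σ) (map_one σ), transpose_one, Matrix.one_mul, Matrix.mul_one]
  mul_mem' := by
    intro g h hg hh
    have hg' : g.1 * J * (g.1.map σ)ᵀ = J := hg
    have hh' : h.1 * J * (h.1.map σ)ᵀ = J := hh
    show (g.1 * h.1) * J * ((g.1 * h.1).map σ)ᵀ = J
    rw [Matrix.map_mul, transpose_mul]
    calc g.1 * h.1 * J * ((h.1.map σ)ᵀ * (g.1.map σ)ᵀ)
        = g.1 * (h.1 * J * (h.1.map σ)ᵀ) * (g.1.map σ)ᵀ := by simp only [Matrix.mul_assoc]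
      _ = J := by rw [hh', hg']
  inv_mem' := by
    intro g hg
    have hg' : g.1 * J * (g.1.map σ)ᵀ = J := hg
    have h1 : (g⁻¹).1 * g.1 = 1 := Units.inv_mul g
    have h2 : (g.1.map σ)ᵀ * ((g⁻¹).1.map σ)ᵀ = 1 := by
      rw [← transpose_mul, ← Matrix.map_mul, h1, Matrix.map_one σ (map_zero σ) (map_one σ),
        transpose_one]
    show (g⁻¹).1 * J * ((g⁻¹).1.map σ)ᵀ = J
    calc (g⁻¹).1 * J * ((g⁻¹).1.map σ)ᵀ
        = (g⁻¹).1 * (g.1 * J * (g.1.map σ)ᵀ) * ((g⁻¹).1.map σ)ᵀ := by rw [hg']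
      _ = ((g⁻¹).1 * g.1) * J * ((g.1.map σ)ᵀ * ((g⁻¹).1.map σ)ᵀ) := by
          simp only [Matrix.mul_assoc]
      _ = J := by rw [h1, h2, Matrix.one_mul, Matrix.mul_one]

/-- The powers of `B` are bounded. -/
def BP (B : GL n k) : Prop :=
  ∃ R : ℝ, ∀ m : ℕ, Bd R ((B ^ m : GL n k) : Matrix n n k) ∧
    Bd R ((B⁻¹ ^ m : GL n k) : Matrix n n k)

variable {σ : k →+* k} {J : Matrix n n k} {G : Subgroup (SpecialLinearGroup n k)}

/-- The isometries normalise `G`. -/
def Nrm (σ : k →+* k) (J : Matrix n n k) (G : Subgroup (SpecialLinearGroup n k)) : Prop :=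
  ∀ A ∈ Uiso σ J, ∀ g ∈ G, cjs A g ∈ G

/-- conjugation as an automorphism of `G` -/
def cjG (hN : Nrm σ J G) (A : Uiso σ J) : G ≃ₜ* G where
  toFun := fun g => ⟨cjs A.1 g.1, hN _ A.2 _ g.2⟩
  invFun := fun g => ⟨cjs (A.1)⁻¹ g.1, hN _ ((Uiso σ J).inv_mem A.2) _ g.2⟩
  left_inv := fun g => Subtype.ext (by
    change cjs (A.1)⁻¹ (cjs A.1 g.1) = g.1
    rw [← cjs_mul, inv_mul_cancel, cjs_one])
  right_inv := fun g => Subtype.ext (by
    change cjs A.1 (cjs (A.1)⁻¹ g.1) = g.1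
    rw [← cjs_mul, mul_inv_cancel, cjs_one])
  map_mul' := fun g h => Subtype.ext (cjs_map_mul _ _ _)
  continuous_toFun := ((cjs_cont A.1).comp continuous_subtype_val).subtype_mk _
  continuous_invFun := ((cjs_cont (A.1)⁻¹).comp continuous_subtype_val).subtype_mk _

theorem cjG_val (hN : Nrm σ J G) (A : Uiso σ J) (g : G) : (cjG hN A g).1 = cjs A.1 g.1 := rfl

theorem cjG_mul (hN : Nrm σ J G) (A B : Uiso σ J) :
    cjG hN (A * B) = (cjG hN B).trans (cjG hN A) := by
  ext1 g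
  exact Subtype.ext (cjs_mul A.1 B.1 g.1)

theorem cjG_one (hN : Nrm σ J G) : cjG hN 1 = ContinuousMulEquiv.refl _ := by
  ext1 g
  exact Subtype.ext (cjs_one g.1)

end conj

section top

theorem isClosedEmbedding_val {G : Subgroup (SpecialLinearGroup n k)}
    (hG : IsClosed (G : Set (SpecialLinearGroup n k))) :
    IsClosedEmbedding (fun g : G => (g.1.1 : Matrix n n k)) := by
  have h1 : IsClosedEmbedding (fun g : SpecialLinearGroup n k => (g.1 : Matrix n n k)) := by
    have hc : IsClosed {A : Matrix n n k | A.det = 1} :=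
      isClosed_eq (Continuous.matrix_det continuous_id) continuous_const
    exact hc.isClosedEmbedding_subtypeVal
  exact h1.comp hG.isClosedEmbedding_subtypeVal

variable [IsUltrametricDist k]

theorem isOpen_bd {r : ℝ} (hr : r ≠ 0) : IsOpen {A : Matrix n n k | Bd r A} := by
  have : {A : Matrix n n k | Bd r A} = ⋂ i, ⋂ j, (fun A : Matrix n n k => A i j) ⁻¹'
      Metric.closedBall (0 : k) r := by
    ext A; simp [Bd]
  rw [this]
  exact isOpen_iInter_of_finite fun i => isOpen_iInter_of_finite fun j =>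
    (IsUltrametricDist.isOpen_closedBall _ hr).preimage (continuous_id.matrix_elem i j)

theorem isClosed_bd {r : ℝ} : IsClosed {A : Matrix n n k | Bd r A} := by
  have : {A : Matrix n n k | Bd r A} = ⋂ i, ⋂ j, (fun A : Matrix n n k => A i j) ⁻¹'
      Metric.closedBall (0 : k) r := by
    ext A; simp [Bd]
  rw [this]
  exact isClosed_iInter fun i => isClosed_iInter fun j =>
    Metric.isClosed_closedBall.preimage (continuous_id.matrix_elem i j)

variable [ProperSpace k]

theorem isCompact_bd (r : ℝ) : IsCompact {A : Matrix n n k | Bd r A} := by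
  have hc : IsCompact (Set.pi Set.univ fun _ : n => Set.pi Set.univ
      fun _ : n => Metric.closedBall (0 : k) r) :=
    isCompact_univ_pi fun _ => isCompact_univ_pi fun _ => isCompact_closedBall _ _
  have h2 : {A : Matrix n n k | Bd r A} = (Set.pi Set.univ fun _ : n => Set.pi Set.univ
      fun _ : n => Metric.closedBall (0 : k) r) := by
    ext A
    constructor
    · intro h i _ j _
      rw [Metric.mem_closedBall, dist_zero_right]
      exact h i j
    · intro h i j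
      have := h i trivial j trivial
      rwa [Metric.mem_closedBall, dist_zero_right] at this
  rw [h2]
  exact hc

theorem continuous_val {G : Subgroup (SpecialLinearGroup n k)} :
    Continuous fun g : G => (g.1.1 : Matrix n n k) :=
  (continuous_subtype_val (X := Matrix n n k)).comp
    (continuous_subtype_val (X := SpecialLinearGroup n k))

theorem isCompact_bdG {G : Subgroup (SpecialLinearGroup n k)}
    (hG : IsClosed (G : Set (SpecialLinearGroup n k))) (r : ℝ) :
    IsCompact {g : G | Bd r (g.1.1 : Matrix n n k)} :=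
  (isClosedEmbedding_val hG).isCompact_preimage (isCompact_bd r)

theorem exists_bound_of_compact {G : Subgroup (SpecialLinearGroup n k)} {S : Set G}
    (hS : IsCompact S) : ∃ R : ℝ, ∀ g ∈ S, Bd R (g.1.1 : Matrix n n k) := by
  have h1 : ∀ i j, ∃ R : ℝ, ∀ g ∈ S, ‖(g.1.1 : Matrix n n k) i j‖ ≤ R := by
    intro i j
    have hc : Continuous fun g : G => ‖(g.1.1 : Matrix n n k) i j‖ :=
      (Continuous.matrix_elem continuous_val i j).norm
    obtain ⟨R, hR⟩ := (hS.image hc).bddAbove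
    exact ⟨R, fun g hg => hR ⟨g, hg, rfl⟩⟩
  choose R hR using h1
  refine ⟨∑ i, ∑ j, |R i j|, fun g hg i j => ?_⟩
  have h2 : |R i j| ≤ ∑ j, |R i j| :=
    Finset.single_le_sum (f := fun j => |R i j|) (fun _ _ => abs_nonneg _) (Finset.mem_univ j)
  have h3 : ∑ j, |R i j| ≤ ∑ i, ∑ j, |R i j| :=
    Finset.single_le_sum (f := fun i => ∑ j, |R i j|)
      (fun i _ => Finset.sum_nonneg fun j _ => abs_nonneg _) (Finset.mem_univ i)
  exact ((hR i j g hg).trans (le_abs_self _)).trans (h2.trans h3)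

/-- The stabiliser of the lattice with basis `z`. -/
def Th (G : Subgroup (SpecialLinearGroup n k)) (z : Matrix n n k) (hz : IsUnit z.det) :
    Subgroup G where
  carrier := {w | Bd 1 (z * w.1.1 * z⁻¹) ∧ Bd 1 (z * (w⁻¹).1.1 * z⁻¹)}
  one_mem' := by
    have h1 : z * (1 : Matrix n n k) * z⁻¹ = 1 := by
      rw [Matrix.mul_one, Matrix.mul_nonsing_inv _ hz]
    refine ⟨?_, ?_⟩
    · change Bd 1 (z * (1 : Matrix n n k) * z⁻¹)
      rw [h1]; exact Bd.one
    · rw [inv_one]
      change Bd 1 (z * (1 : Matrix n n k) * z⁻¹)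
      rw [h1]; exact Bd.one
  mul_mem' := by
    have key : ∀ a b : G, Bd 1 (z * a.1.1 * z⁻¹) → Bd 1 (z * b.1.1 * z⁻¹) →
        Bd 1 (z * (a * b).1.1 * z⁻¹) := by
      intro a b ha hb
      have h1 : z * (a * b).1.1 * z⁻¹ = (z * a.1.1 * z⁻¹) * (z * b.1.1 * z⁻¹) := by
        change z * (a.1.1 * b.1.1) * z⁻¹ = _
        calc z * (a.1.1 * b.1.1) * z⁻¹ = z * a.1.1 * 1 * b.1.1 * z⁻¹ := by
              rw [Matrix.mul_one]; simp only [Matrix.mul_assoc]
          _ = _ := by rw [← Matrix.nonsing_inv_mul _ hz]; simp only [Matrix.mul_assoc]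
      rw [h1]
      exact ha.mul_one hb
    rintro a b ⟨ha, ha'⟩ ⟨hb, hb'⟩
    refine ⟨key a b ha hb, ?_⟩
    rw [_root_.mul_inv_rev]
    exact key _ _ hb' ha'
  inv_mem' := by
    rintro a ⟨ha, ha'⟩
    exact ⟨ha', by rw [inv_inv]; exact ha⟩

variable {G : Subgroup (SpecialLinearGroup n k)}

theorem isOpen_Th (z : Matrix n n k) (hz : IsUnit z.det) : IsOpen (Th G z hz : Set G) := by
  have hc : Continuous fun w : G => z * w.1.1 * z⁻¹ :=
    (continuous_const.matrix_mul continuous_val).matrix_mul continuous_const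
  have hc' : Continuous fun w : G => z * (w⁻¹).1.1 * z⁻¹ := hc.comp continuous_inv
  exact ((isOpen_bd one_ne_zero).preimage hc).inter ((isOpen_bd one_ne_zero).preimage hc')

theorem isCompact_Th (hG : IsClosed (G : Set (SpecialLinearGroup n k))) (z : Matrix n n k)
    (hz : IsUnit z.det) : IsCompact (Th G z hz : Set G) := by
  obtain ⟨r, hr0, hr⟩ := exists_bd z
  obtain ⟨r', hr0', hr'⟩ := exists_bd z⁻¹
  refine (isCompact_bdG hG (r' * 1 * r)).of_isClosed_subset
    (Subgroup.isClosed_of_isOpen _ (isOpen_Th z hz)) fun w hw => ?_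
  have h1 : (w.1.1 : Matrix n n k) = z⁻¹ * (z * w.1.1 * z⁻¹) * z := by
    have h2 := Matrix.nonsing_inv_mul _ hz
    calc (w.1.1 : Matrix n n k) = (z⁻¹ * z) * w.1.1 * (z⁻¹ * z) := by
          rw [h2, Matrix.one_mul, Matrix.mul_one]
      _ = _ := by simp only [Matrix.mul_assoc]
  change Bd _ w.1.1
  rw [h1]
  exact (hr'.mul hr0'.le zero_le_one hw.1).mul (by positivity) hr0.le hr

end top

section haar

variable [IsUltrametricDist k] [ProperSpace k] {σ : k →+* k} {J : Matrix n n k}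
  {G : Subgroup (SpecialLinearGroup n k)} [LocallyCompactSpace G] [MeasurableSpace G] [BorelSpace G]

/-- the modulus of conjugation -/
noncomputable def mdG (hN : Nrm σ J G) : Uiso σ J →* ℝ≥0 where
  toFun := fun A => mulEquivHaarChar (cjG hN A)
  map_one' := by rw [cjG_one, mulEquivHaarChar_refl]
  map_mul' := fun A B => by rw [cjG_mul, mulEquivHaarChar_trans, mul_comm]

theorem mdG_smul (hN : Nrm σ J G) (A : Uiso σ J) (X : Set G) :
    (mdG hN A : ℝ≥0∞) * haar ((cjG hN A) ⁻¹' X) = haar X := by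
  have h1 := mulEquivHaarChar_smul_preimage (haar : Measure G) (X := X) (cjG hN A)
  rwa [ENNReal.smul_def, smul_eq_mul] at h1

theorem one_le_mdG (hG : IsClosed (G : Set (SpecialLinearGroup n k))) (hN : Nrm σ J G)
    (A : Uiso σ J) {R : ℝ} (h : ∀ m : ℕ, Bd R (((A ^ m : Uiso σ J).1 : GL n k) : Matrix n n k) ∧
      Bd R ((((A⁻¹) ^ m : Uiso σ J).1 : GL n k) : Matrix n n k)) : 1 ≤ mdG hN A := by
  have h1u : IsUnit (1 : Matrix n n k).det := by rw [Matrix.det_one]; exact isUnit_one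
  set K := Th G 1 h1u with hK
  have hKo : IsOpen (K : Set G) := isOpen_Th 1 h1u
  have hKc : IsCompact (K : Set G) := isCompact_Th hG 1 h1u
  obtain ⟨r, hr⟩ := exists_bound_of_compact hKc
  set C : Set G := {g : G | Bd (|R| * |r| * |R|) (g.1.1 : Matrix n n k)} with hC
  have hCc : IsCompact C := isCompact_bdG hG _
  have hK0 : (haar (K : Set G) : ℝ≥0∞) ≠ 0 := (hKo.measure_pos _ ⟨1, K.one_mem⟩).ne'
  have hCt : (haar C : ℝ≥0∞) ≠ ⊤ := hCc.measure_lt_top.ne
  have key : ∀ m : ℕ, haar (K : Set G) ≤ ((mdG hN A : ℝ≥0∞)) ^ m * haar C := by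
    intro m
    have h1 := mdG_smul hN (A ^ m) (K : Set G)
    rw [map_pow, ENNReal.coe_pow] at h1
    rw [← h1]
    gcongr
    intro g hg
    have hg' : cjG hN (A ^ m) g ∈ (K : Set G) := hg
    have h2 := hr _ hg'
    have h3 : (g.1.1 : Matrix n n k) = (((A⁻¹) ^ m : Uiso σ J).1 : Matrix n n k) *
        ((cjG hN (A ^ m) g).1.1 : Matrix n n k) * ((A ^ m : Uiso σ J).1 : Matrix n n k) := by
      rw [cjG_val, cjs_val]
      have e1 : (((A⁻¹) ^ m : Uiso σ J).1 : Matrix n n k) * ((A ^ m : Uiso σ J).1 : Matrix n n k) = 1 := by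
        rw [← Units.val_mul, ← Subgroup.coe_mul, inv_pow, inv_mul_cancel]
        rfl
      have e2 : (((A ^ m : Uiso σ J).1⁻¹ : GL n k) : Matrix n n k) *
          ((A ^ m : Uiso σ J).1 : Matrix n n k) = 1 := Units.inv_mul _
      calc (g.1.1 : Matrix n n k) = ((((A⁻¹) ^ m : Uiso σ J).1 : Matrix n n k) *
            ((A ^ m : Uiso σ J).1 : Matrix n n k)) * g.1.1 *
            ((((A ^ m : Uiso σ J).1⁻¹ : GL n k) : Matrix n n k) *
            ((A ^ m : Uiso σ J).1 : Matrix n n k)) := by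
              rw [e1, e2, Matrix.one_mul, Matrix.mul_one]
        _ = _ := by simp only [Matrix.mul_assoc]
    change Bd _ g.1.1
    rw [h3]
    exact ((((h m).2.mono (le_abs_self R)).mul (abs_nonneg _) (abs_nonneg _)
      (h2.mono (le_abs_self r))).mul (by positivity) (abs_nonneg _) ((h m).1.mono (le_abs_self R)))
  by_contra hlt
  push Not at hlt
  have hlim : Filter.Tendsto (fun m : ℕ => ((mdG hN A : ℝ≥0∞)) ^ m * haar C) Filter.atTop
      (𝓝 (0 * haar C)) := by
    refine ENNReal.Tendsto.mul_const ?_ (Or.inr hCt)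
    exact ENNReal.tendsto_pow_atTop_nhds_zero_of_lt_one (by exact_mod_cast hlt)
  rw [zero_mul] at hlim
  exact hK0 (le_antisymm (ge_of_tendsto' hlim key) zero_le)

theorem mdG_of_bp (hG : IsClosed (G : Set (SpecialLinearGroup n k))) (hN : Nrm σ J G)
    (A : Uiso σ J) (h : BP A.1) : mdG hN A = 1 := by
  obtain ⟨R, hR⟩ := h
  have h1 : 1 ≤ mdG hN A := one_le_mdG hG hN A (R := R) fun m => by
    refine ⟨?_, ?_⟩
    · exact (hR m).1
    · exact (hR m).2
  have h2 : 1 ≤ mdG hN A⁻¹ := one_le_mdG hG hN A⁻¹ (R := R) fun m => by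
    refine ⟨(hR m).2, ?_⟩
    rw [inv_inv]
    exact (hR m).1
  have h3 : mdG hN A * mdG hN A⁻¹ = 1 := by rw [← map_mul, mul_inv_cancel, map_one]
  refine le_antisymm ?_ h1
  calc mdG hN A ≤ mdG hN A * mdG hN A⁻¹ := le_mul_of_one_le_right zero_le h2
    _ = 1 := h3

theorem mdG_of_mem (hN : Nrm σ J G) (hperf : commutator G = ⊤)
    (hGU : ∀ g ∈ G, toGL g ∈ Uiso σ J) {s : SpecialLinearGroup n k} (hs : s ∈ G) :
    mdG hN ⟨toGL s, hGU s hs⟩ = 1 := by
  let f : G →* Uiso σ J :=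
    { toFun := fun g => ⟨toGL g.1, hGU _ g.2⟩
      map_one' := Subtype.ext (map_one _)
      map_mul' := fun a b => Subtype.ext (map_mul _ _ _) }
  have h1 : ((mdG hN).comp f).toHomUnits.ker = ⊤ :=
    top_le_iff.mp (hperf ▸ Abelianization.commutator_subset_ker _)
  have h2 : (⟨s, hs⟩ : G) ∈ ((mdG hN).comp f).toHomUnits.ker := by rw [h1]; trivial
  have h3 := congrArg Units.val (MonoidHom.mem_ker.mp h2)
  exact h3

/-- The modulus is trivial. -/
theorem mdG_one (hG : IsClosed (G : Set (SpecialLinearGroup n k))) (hN : Nrm σ J G)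
    (hperf : commutator G = ⊤) (hGU : ∀ g ∈ G, toGL g ∈ Uiso σ J)
    (hgen : ∀ A ∈ Uiso σ J, A ∈ Subgroup.closure
      ({B : GL n k | ∃ s ∈ G, B = toGL s} ∪ {B | B ∈ Uiso σ J ∧ BP B})) (A : Uiso σ J) :
    mdG hN A = 1 := by
  obtain ⟨A, hA⟩ := A
  have key : ∀ B ∈ Subgroup.closure
      ({B : GL n k | ∃ s ∈ G, B = toGL s} ∪ {B | B ∈ Uiso σ J ∧ BP B}),
      ∃ hB : B ∈ Uiso σ J, mdG hN ⟨B, hB⟩ = 1 := by
    intro B hB
    induction hB using Subgroup.closure_induction with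
    | mem B h =>
      rcases h with ⟨s, hs, rfl⟩ | ⟨hB, hp⟩
      · exact ⟨hGU s hs, mdG_of_mem hN hperf hGU hs⟩
      · exact ⟨hB, mdG_of_bp hG hN ⟨B, hB⟩ hp⟩
    | one => exact ⟨(Uiso σ J).one_mem, map_one _⟩
    | mul x y _ _ hx hy =>
      obtain ⟨hx, hx'⟩ := hx
      obtain ⟨hy, hy'⟩ := hy
      refine ⟨(Uiso σ J).mul_mem hx hy, ?_⟩
      have : (⟨x * y, (Uiso σ J).mul_mem hx hy⟩ : Uiso σ J) = ⟨x, hx⟩ * ⟨y, hy⟩ := rfl
      rw [this, map_mul, hx', hy', mul_one]
    | inv x _ hx =>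
      obtain ⟨hx, hx'⟩ := hx
      refine ⟨(Uiso σ J).inv_mem hx, ?_⟩
      have : (⟨x⁻¹, (Uiso σ J).inv_mem hx⟩ : Uiso σ J) = (⟨x, hx⟩ : Uiso σ J)⁻¹ := rfl
      have h3 : mdG hN (⟨x, hx⟩ : Uiso σ J) * mdG hN (⟨x, hx⟩ : Uiso σ J)⁻¹ = 1 := by
        rw [← map_mul, mul_inv_cancel, map_one]
      rw [this]
      rwa [hx', one_mul] at h3
  obtain ⟨_, h⟩ := key A (hgen A hA)
  exact h

/-- **(5)** The volumes of the compact subgroups are bounded and the bound is attained. -/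
theorem haar_max {ε : k} {C : ℝ} (hI : Inv n σ ε C) (hJ : Hrm σ J) (hJT : Tc σ ε J)
    (hG : IsClosed (G : Set (SpecialLinearGroup n k))) (hN : Nrm σ J G)
    (hGJ : ∀ g ∈ G, (g : Matrix n n k) * J * ((g : Matrix n n k).map σ)ᵀ = J)
    (hmd : ∀ A : Uiso σ J, mdG hN A = 1) :
    ∃ Θ : Subgroup G, IsOpen (Θ : Set G) ∧ IsCompact (Θ : Set G) ∧
      ∀ W : Subgroup G, IsCompact (W : Set G) → haar (W : Set G) ≤ haar (Θ : Set G) := by
  classical
  obtain ⟨F, hFf, hFn, hFu, hF⟩ := exists_reps hI hJ hJT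
  obtain ⟨z₀, hz₀, hmax⟩ := Set.exists_max_image F
    (fun z => if hz : IsUnit z.det then (haar (Th G z hz : Set G) : ℝ≥0∞) else 0) hFf hFn
  refine ⟨Th G z₀ (hFu z₀ hz₀), isOpen_Th _ _, isCompact_Th hG _ _, fun W hW => ?_⟩
  obtain ⟨R, hR⟩ := exists_bound_of_compact hW
  set W' : Set (Matrix n n k) := {w | ∃ g ∈ W, w = g.1.1} with hW'
  have hWcp : Wcp σ J W' :=
    { one := ⟨1, W.one_mem, rfl⟩
      mul := by
        rintro _ ⟨g, hg, rfl⟩ _ ⟨h, hh, rfl⟩
        exact ⟨g * h, W.mul_mem hg hh, rfl⟩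
      inv := by
        rintro _ ⟨g, hg, rfl⟩
        refine ⟨_, ⟨g⁻¹, W.inv_mem hg, rfl⟩, ?_⟩
        have := congrArg (fun x : G => (x.1.1 : Matrix n n k)) (inv_mul_cancel g)
        exact this
      bdd := ⟨R, by rintro _ ⟨g, hg, rfl⟩; exact hR g hg⟩
      iso := by
        rintro _ ⟨g, hg, rfl⟩ x y
        rw [hf_rows]
        have := hGJ g.1 g.2
        unfold gram
        rw [this] }
  obtain ⟨z, hzF, g, hgu, hgJ, hgW⟩ := hF W' hWcp
  let A : GL n k := Matrix.GeneralLinearGroup.mkOfDetNeZero g hgu.ne_zero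
  have hA1 : (A : Matrix n n k) = g := rfl
  have hA2 : ((A⁻¹ : GL n k) : Matrix n n k) = g⁻¹ := by rw [Matrix.coe_units_inv, hA1]
  have hAU : A ∈ Uiso σ J := hgJ
  have hz := hFu z hzF
  have h1 : haar (W : Set G) ≤ haar (Th G z hz : Set G) := by
    have h2 := mdG_smul hN ⟨A, hAU⟩ (Th G z hz : Set G)
    rw [hmd, ENNReal.coe_one, one_mul] at h2
    rw [← h2]
    refine measure_mono fun w hw => ?_
    have h3 : ∀ w ∈ W, Bd 1 (z * (cjG hN ⟨A, hAU⟩ w).1.1 * z⁻¹) := by
      intro w hw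
      have h4 := hgW w.1.1 ⟨w, hw, rfl⟩
      rw [cjG_val, cjs_val, hA1, hA2]
      exact h4
    refine ⟨h3 w hw, ?_⟩
    rw [← map_inv]
    exact h3 _ (W.inv_mem hw)
  refine h1.trans ?_
  have h2 := hmax z hzF
  simp only [hz, hFu z₀ hz₀, dif_pos] at h2
  exact h2

end haar

/-- **[VOL-CL]**: the volume field of `QC.Td` and `BFac`, in terms of indices. -/
theorem vol_of [IsUltrametricDist k] [ProperSpace k] {σ : k →+* k} {J : Matrix n n k}
    {G : Subgroup (SpecialLinearGroup n k)} {ε : k} {C : ℝ} (hI : Inv n σ ε C) (hJ : Hrm σ J)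
    (hJT : Tc σ ε J) (hG : IsClosed (G : Set (SpecialLinearGroup n k))) (hN : Nrm σ J G)
    (hGJ : ∀ g ∈ G, (g : Matrix n n k) * J * ((g : Matrix n n k).map σ)ᵀ = J)
    (hperf : commutator G = ⊤)
    (hgen : ∀ A ∈ Uiso σ J, A ∈ Subgroup.closure
      ({B : GL n k | ∃ s ∈ G, B = toGL s} ∪ {B | B ∈ Uiso σ J ∧ BP B})) :
    ∃ K : Subgroup G, IsOpen (K : Set G) ∧ IsCompact (K : Set G) ∧
      ∀ U W : Subgroup G, IsOpen (U : Set G) → IsOpen (W : Set G) → IsCompact (W : Set G) →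
        U ≤ W → U ≤ K → U.relIndex W ≤ U.relIndex K := by
  haveI : LocallyCompactSpace (Matrix n n k) :=
    inferInstanceAs (LocallyCompactSpace (n → n → k))
  haveI : LocallyCompactSpace G := (isClosedEmbedding_val hG).locallyCompactSpace
  letI : MeasurableSpace G := borel G
  haveI : BorelSpace G := ⟨rfl⟩
  obtain ⟨K, hKo, hKc, hK⟩ := haar_max hI hJ hJT hG hN hGJ
    (mdG_one hG hN hperf (fun g hg => hGJ g hg) hgen)
  refine ⟨K, hKo, hKc, fun U W hU hW hWc hUW hUK => ?_⟩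
  have h1 := hK W hWc
  rw [H632.haar_eq_index hU hW hWc hUW, H632.haar_eq_index hU hKo hKc hUK] at h1
  have h3 : (haar (U : Set G) : ℝ≥0∞) ≠ 0 := (hU.measure_pos _ ⟨1, Subgroup.one_mem _⟩).ne'
  have h4 : (haar (U : Set G) : ℝ≥0∞) ≠ ∞ :=
    (hWc.of_isClosed_subset (Subgroup.isClosed_of_isOpen _ hU) hUW).measure_lt_top.ne
  have h5 := (ENNReal.mul_le_mul_iff_left h3 h4).mp h1
  exact_mod_cast h5

end Vale.Agent.P092.H628.VC
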