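import Vale.Agent.P092.H628.VC4
import Vale.Agent.P092.H899.O13

/-!
[VOL-CL], part 6: the groups `Om K` generated by the Siegel transformations of a symmetric form.
-/

set_option linter.all false

open Matrix Topology MeasureTheory MeasureTheory.Measure Matrix.SpecialLinearGroup
open scoped ENNReal NNReal

namespace Vale.Agent.P092.H628.VC

open Vale.Agent.P092.H899.Ort

variable {n : Type} [Fintype n] [DecidableEq n] {k : Type} [NontriviallyNormedField k]
  [IsUltrametricDist k]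

theorem map_id' (A : Matrix n n k) : A.map (RingHom.id k) = A := by ext i j; rfl

theorem inv_id (h2 : (2 : k) ≠ 0) : Inv n (RingHom.id k) (1 : k) (max 1 ‖(2 : k)⁻¹‖) where
  nrm := fun x => rfl
  inv := fun x => rfl
  eps := one_mul 1
  seps := rfl
  c0 := le_max_left _ _
  trc := fun E r hE hr => by
    obtain ⟨D, hD⟩ := hE
    have hEt : Eᵀ = E := by
      rw [hD, map_id', one_smul, Matrix.transpose_add, Matrix.transpose_transpose, add_comm]
    refine ⟨(2 : k)⁻¹ • E, ?_, fun i j => ?_⟩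
    · rw [map_id', one_smul, Matrix.transpose_smul, hEt, ← add_smul]
      have : (2 : k)⁻¹ + 2⁻¹ = 1 := by
        rw [← two_mul, mul_inv_cancel₀ h2]
      rw [this, one_smul]
    · have h1 := (hr.smul (2 : k)⁻¹) i j
      exact h1.trans (mul_le_mul_of_nonneg_right (le_max_right _ _)
        ((norm_nonneg _).trans (hr i j)))

variable {K : Matrix n n k}

theorem inv_transpose' (hK : Kᵀ = K) : (K⁻¹)ᵀ = K⁻¹ := by
  rw [Matrix.transpose_nonsing_inv, hK]

theorem hrm_om (h : Good K) : Hrm (RingHom.id k) K⁻¹ where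
  nrm := fun x => rfl
  inv := fun x => rfl
  sym := fun x y => by
    have h1 : hf (RingHom.id k) K⁻¹ y x = hf (RingHom.id k) K⁻¹ x y := by
      change y ⬝ᵥ (K⁻¹ *ᵥ x) = x ⬝ᵥ (K⁻¹ *ᵥ y)
      rw [dotProduct_mulVec, dotProduct_comm, ← mulVec_transpose, inv_transpose' h.sym]
    rw [h1]
  det := Matrix.isUnit_nonsing_inv_det _ h.det

theorem tc_om (h : Good K) : Tc (RingHom.id k) (1 : k) K⁻¹ := by
  refine ⟨(2 : k)⁻¹ • K⁻¹, ?_⟩
  rw [map_id', one_smul, Matrix.transpose_smul, inv_transpose' h.sym, ← add_smul]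
  have : (2 : k)⁻¹ + 2⁻¹ = 1 := by
    rw [← two_mul, mul_inv_cancel₀ h.two]
  rw [this, one_smul]

/-- the two ways to write an isometry -/
theorem iso_iff (hK : IsUnit K.det) (A : Matrix n n k) :
    A * K⁻¹ * Aᵀ = K⁻¹ ↔ Aᵀ * K * A = K := by
  have key : ∀ (A K L : Matrix n n k), K * L = 1 → L * K = 1 → A * L * Aᵀ = L → Aᵀ * K * A = K := by
    intro A K L hKL hLK hA
    have h1 : A * (L * Aᵀ * K) = 1 := by
      rw [← Matrix.mul_assoc, ← Matrix.mul_assoc, hA, hLK]
    have h2 : (L * Aᵀ * K) * A = 1 := mul_eq_one_comm.mp h1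
    calc Aᵀ * K * A = K * (L * Aᵀ * K * A) := by
          rw [← Matrix.mul_assoc, ← Matrix.mul_assoc, ← Matrix.mul_assoc, hKL, Matrix.one_mul]
      _ = K := by rw [h2, Matrix.mul_one]
  constructor
  · exact key A K K⁻¹ (Matrix.mul_nonsing_inv _ hK) (Matrix.nonsing_inv_mul _ hK)
  · intro h
    have := key Aᵀ K⁻¹ K (Matrix.nonsing_inv_mul _ hK) (Matrix.mul_nonsing_inv _ hK)
      (by rwa [Matrix.transpose_transpose])
    rwa [Matrix.transpose_transpose] at this

theorem mem_Uiso_om (h : Good K) {A : GL n k} :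
    A ∈ Uiso (RingHom.id k) K⁻¹ ↔ (A : Matrix n n k)ᵀ * K * (A : Matrix n n k) = K := by
  have h1 : A ∈ Uiso (RingHom.id k) K⁻¹ ↔
      (A : Matrix n n k) * K⁻¹ * ((A : Matrix n n k).map (RingHom.id k))ᵀ = K⁻¹ := Iff.rfl
  rw [h1, map_id', iso_iff h.det]

theorem nrm_om (h : Good K) : Nrm (RingHom.id k) K⁻¹ (Om K) := by
  intro A hA g hg
  rw [mem_Uiso_om h] at hA
  have hAA : (A : Matrix n n k) * ((A⁻¹ : GL n k) : Matrix n n k) = 1 := Units.mul_inv A
  refine Subgroup.closure_induction (p := fun g _ => cjs A g ∈ Om K) ?_ ?_ ?_ ?_ hg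
  · rintro g ⟨u, w, hu, hw, hgu⟩
    refine Subgroup.subset_closure ⟨(A : Matrix n n k) *ᵥ u, (A : Matrix n n k) *ᵥ w, ?_, ?_, ?_⟩
    · rw [bf_iso hA, hu]
    · rw [bf_iso hA, hw]
    · change (cjs A g : Matrix n n k) = _
      rw [cjs_val]
      have h2 : (g : Matrix n n k) = psiM K u w := hgu
      rw [h2, conj_psiM h.sym hA hAA]
  · have : cjs A (1 : SpecialLinearGroup n k) = 1 := by
      have h2 := cjs_map_mul A (1 : SpecialLinearGroup n k) 1
      rw [mul_one] at h2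
      exact mul_eq_left.mp h2.symm
    rw [this]
    exact (Om K).one_mem
  · intro a b _ _ ha hb
    rw [cjs_map_mul]
    exact (Om K).mul_mem ha hb
  · intro a _ ha
    have h1 : cjs A (1 : SpecialLinearGroup n k) = 1 := by
      have h2 := cjs_map_mul A (1 : SpecialLinearGroup n k) 1
      rw [mul_one] at h2
      exact mul_eq_left.mp h2.symm
    have h2 : cjs A a * cjs A a⁻¹ = 1 := by rw [← cjs_map_mul, mul_inv_cancel, h1]
    rw [← inv_eq_of_mul_eq_one_right h2]
    exact (Om K).inv_mem ha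

/-- the reflection in `GL` -/
noncomputable def rGL (K : Matrix n n k) (hK : Kᵀ = K) (a : n → k) (ha : bf K a a ≠ 0) : GL n k where
  val := refl K a
  inv := refl K a
  val_inv := refl_mul_self hK ha
  inv_val := refl_mul_self hK ha

theorem bp_refl (hK : Kᵀ = K) (a : n → k) (ha : bf K a a ≠ 0) : BP (rGL K hK a ha) := by
  obtain ⟨r, hr0, hr⟩ := exists_bd (refl K a)
  have h1 : rGL K hK a ha * rGL K hK a ha = 1 := Units.ext (refl_mul_self hK ha)
  have h2 : (rGL K hK a ha)⁻¹ = rGL K hK a ha := inv_eq_of_mul_eq_one_right h1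
  have h3 : ∀ m : ℕ, Bd (max 1 r) ((rGL K hK a ha ^ m : GL n k) : Matrix n n k) := by
    intro m
    rcases Nat.even_or_odd m with ⟨l, hl⟩ | ⟨l, hl⟩
    · have : rGL K hK a ha ^ m = 1 := by
        rw [hl, ← two_mul, pow_mul, pow_two, h1, one_pow]
      rw [this, Units.val_one]
      exact Bd.one.mono (le_max_left _ _)
    · have : rGL K hK a ha ^ m = rGL K hK a ha := by
        rw [hl, pow_add, pow_one, pow_mul, pow_two, h1, one_pow, one_mul]
      rw [this]
      exact hr.mono (le_max_right _ _)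
  exact ⟨max 1 r, fun m => ⟨h3 m, by rw [h2]; exact h3 m⟩⟩

theorem gen_om (h : Good K) : ∀ A ∈ Uiso (RingHom.id k) K⁻¹, A ∈ Subgroup.closure
      ({B : GL n k | ∃ s ∈ Om K, B = toGL s} ∪ {B | B ∈ Uiso (RingHom.id k) K⁻¹ ∧ BP B}) := by
  intro A hA
  have hA' := (mem_Uiso_om h).mp hA
  obtain ⟨B, hB, hBA⟩ := refl_ind h.sym h.det h.two
    (fun M => ∃ B : GL n k, B ∈ Subgroup.closure
      ({B : GL n k | ∃ s ∈ Om K, B = toGL s} ∪ {B | B ∈ Uiso (RingHom.id k) K⁻¹ ∧ BP B}) ∧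
      (B : Matrix n n k) = M) ⟨1, Subgroup.one_mem _, rfl⟩
    (by
      rintro M M' ⟨B, hB, rfl⟩ ⟨B', hB', rfl⟩
      exact ⟨B * B', Subgroup.mul_mem _ hB hB', rfl⟩)
    (fun a ha => ⟨rGL K h.sym a ha, Subgroup.subset_closure (Or.inr
      ⟨(mem_Uiso_om h).mpr (refl_iso h.sym ha), bp_refl h.sym a ha⟩), rfl⟩) A.1 hA'
  have : B = A := Units.ext hBA
  rwa [← this]

/-- **[QC-VOL-Ω]** -/
theorem vol_om [ProperSpace k] (h : Good K) :
    ∃ T : Subgroup (Om K), IsOpen (T : Set (Om K)) ∧ IsCompact (T : Set (Om K)) ∧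
      ∀ U W : Subgroup (Om K), IsOpen (U : Set (Om K)) → IsOpen (W : Set (Om K)) →
        IsCompact (W : Set (Om K)) → U ≤ W → U ≤ T → U.relIndex W ≤ U.relIndex T := by
  haveI : Infinite k := inferInstance
  refine vol_of (inv_id h.two) (hrm_om h) (tc_om h) (isClosed_om h) (nrm_om h) (fun g hg => ?_)
    (sysOf h).perfect (gen_om h)
  have h1 : g.1ᵀ * K * g.1 = K := om_le_isoG h.sym h.two hg
  rw [map_id']
  exact (iso_iff h.det g.1).mpr h1

end Vale.Agent.P092.H628.VC
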