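import Vale.Agent.P092.H628.VE1

/-!
P092 (helper628), project VR, row [V-EX], part 2: the closures of the projections of a group which has
a subgroup of finite index with dense projections to given groups.
-/

set_option linter.all false

open MeasureTheory Filter Topology Set
open Vale.Agent.P092.H515.St

namespace Vale.Agent.P092.VE628

section one

variable {Γ Γ' H M : Type} [Group Γ] [Group Γ'] [Group H] [TopologicalSpace H]
  [IsTopologicalGroup H] [Group M] [TopologicalSpace M]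

/-- the closure of the range -/
def EE (ρ : Γ →* H) : Subgroup H := ρ.range.topologicalClosure

theorem mem_EE (ρ : Γ →* H) (γ : Γ) : ρ γ ∈ EE ρ :=
  Subgroup.le_topologicalClosure _ ⟨γ, rfl⟩

/-- `ρ` as a map to the closure of its range -/
def rE (ρ : Γ →* H) : Γ →* EE ρ := ρ.codRestrict (EE ρ) (mem_EE ρ)

theorem rE_coe (ρ : Γ →* H) (γ : Γ) : (rE ρ γ : H) = ρ γ := rfl

theorem rE_dense (ρ : Γ →* H) : DenseRange (rE ρ) := by
  intro x
  rw [IsEmbedding.subtypeVal.isInducing.closure_eq_preimage_closure_image]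
  show (x : H) ∈ closure (Subtype.val '' range (rE ρ))
  have h1 : Subtype.val '' range (rE ρ) = (ρ.range : Set H) := by
    ext y
    constructor
    · rintro ⟨_, ⟨γ, rfl⟩, rfl⟩
      exact ⟨γ, rfl⟩
    · rintro ⟨γ, rfl⟩
      exact ⟨rE ρ γ, ⟨γ, rfl⟩, rfl⟩
  rw [h1]
  exact x.2

/-- The data for one factor. -/
structure Fct (ι : Γ' →* Γ) (ρ : Γ →* H) (ρ' : Γ' →* M) (φ : M →* H) : Prop where
  emb : IsClosedEmbedding φ
  comm : ∀ x, φ (ρ' x) = ρ (ι x)
  dense : DenseRange ρ'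

variable {ι : Γ' →* Γ} {ρ : Γ →* H} {ρ' : Γ' →* M} {φ : M →* H}

namespace Fct

theorem mem (h : Fct ι ρ ρ' φ) (m : M) : φ m ∈ EE ρ := by
  have h1 : IsClosed {m : M | φ m ∈ EE ρ} := by
    have h2 : IsClosed ((EE ρ : Subgroup H) : Set H) := Subgroup.isClosed_topologicalClosure _
    exact h2.preimage h.emb.continuous
  exact h.dense.induction_on (p := fun m => φ m ∈ EE ρ) m h1 fun x => by
    rw [h.comm]
    exact mem_EE ρ _

theorem exists_eq (h : Fct ι ρ ρ' φ) [ι.range.FiniteIndex] {x : H} (hx : x ∈ EE ρ) :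
    ∃ (q : Γ ⧸ ι.range) (m : M), x = ρ q.out * φ m := by
  haveI : Finite (Γ ⧸ ι.range) := Subgroup.finite_quotient_of_finiteIndex
  have h1 : IsClosed (⋃ q : Γ ⧸ ι.range, (fun y => ρ q.out * y) '' (range φ)) :=
    isClosed_iUnion_of_finite fun q =>
      (Homeomorph.mulLeft (ρ q.out)).isClosedMap _ h.emb.isClosed_range
  have h2 : ((ρ.range : Subgroup H) : Set H) ⊆
      ⋃ q : Γ ⧸ ι.range, (fun y => ρ q.out * y) '' (range φ) := by
    rintro _ ⟨γ, rfl⟩
    rw [mem_iUnion]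
    have h3 : (γ : Γ ⧸ ι.range).out⁻¹ * γ ∈ ι.range := by
      rw [← QuotientGroup.eq, QuotientGroup.out_eq']
    obtain ⟨y, hy⟩ := h3
    refine ⟨(γ : Γ ⧸ ι.range), φ (ρ' y), ⟨_, rfl⟩, ?_⟩
    show ρ (γ : Γ ⧸ ι.range).out * φ (ρ' y) = ρ γ
    rw [h.comm, hy, ← map_mul, mul_inv_cancel_left]
  have h3 : x ∈ ⋃ q : Γ ⧸ ι.range, (fun y => ρ q.out * y) '' (range φ) :=
    closure_minimal h2 h1 hx
  rw [mem_iUnion] at h3
  obtain ⟨q, _, ⟨m, rfl⟩, hm⟩ := h3
  exact ⟨q, m, hm.symm⟩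

theorem conj_mem (h : Fct ι ρ ρ' φ) (hn : ι.range.Normal) (γ : Γ) (m : M) :
    ρ γ * φ m * (ρ γ)⁻¹ ∈ φ.range := by
  have hcl : IsClosed ((φ.range : Subgroup H) : Set H) := by
    rw [MonoidHom.coe_range]
    exact h.emb.isClosed_range
  have h1 : IsClosed {m : M | ρ γ * φ m * (ρ γ)⁻¹ ∈ φ.range} := by
    have hc : Continuous fun m : M => ρ γ * φ m * (ρ γ)⁻¹ := by
      have := h.emb.continuous
      fun_prop
    exact hcl.preimage hc
  refine h.dense.induction_on (p := fun m => ρ γ * φ m * (ρ γ)⁻¹ ∈ φ.range) m h1 fun x => ?_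
  obtain ⟨y, hy⟩ := hn.conj_mem (ι x) ⟨x, rfl⟩ γ
  refine ⟨ρ' y, ?_⟩
  rw [h.comm, hy, h.comm, map_mul, map_mul, map_inv]

/-- `φ` as a map to the closure -/
def fE (h : Fct ι ρ ρ' φ) : M →* EE ρ := φ.codRestrict (EE ρ) h.mem

theorem fE_coe (h : Fct ι ρ ρ' φ) (m : M) : (h.fE m : H) = φ m := rfl

theorem fE_emb (h : Fct ι ρ ρ' φ) : IsClosedEmbedding h.fE := by
  have h1 : IsEmbedding h.fE :=
    h.emb.isEmbedding.codRestrict (EE ρ : Set H) h.mem
  refine ⟨h1, ?_⟩
  have h2 : range h.fE = (Subtype.val : EE ρ → H) ⁻¹' (range φ) := by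
    ext y
    constructor
    · rintro ⟨m, rfl⟩
      exact ⟨m, rfl⟩
    · rintro ⟨m, hm⟩
      exact ⟨m, Subtype.ext hm⟩
  rw [h2]
  exact h.emb.isClosed_range.preimage continuous_subtype_val

theorem fE_normal (h : Fct ι ρ ρ' φ) [hn : ι.range.Normal] [ι.range.FiniteIndex] :
    h.fE.range.Normal := by
  refine ⟨?_⟩
  rintro _ ⟨m, rfl⟩ x
  obtain ⟨q, m', hx⟩ := h.exists_eq x.2
  obtain ⟨m'', hm''⟩ := h.conj_mem hn q.out (m' * m * m'⁻¹)
  refine ⟨m'', Subtype.ext ?_⟩
  show φ m'' = (x : H) * φ m * (x : H)⁻¹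
  rw [hm'', hx, map_mul, map_mul, map_inv]
  group

theorem fE_fin (h : Fct ι ρ ρ' φ) [ι.range.FiniteIndex] : h.fE.range.FiniteIndex := by
  haveI : Finite (Γ ⧸ ι.range) := Subgroup.finite_quotient_of_finiteIndex
  haveI : Finite (EE ρ ⧸ h.fE.range) := by
    refine Finite.of_surjective (fun q : Γ ⧸ ι.range =>
      ((rE ρ q.out : EE ρ) : EE ρ ⧸ h.fE.range)) fun y => ?_
    obtain ⟨x, rfl⟩ := QuotientGroup.mk_surjective y
    obtain ⟨q, m, hx⟩ := h.exists_eq x.2
    refine ⟨q, QuotientGroup.eq.2 ⟨m, Subtype.ext ?_⟩⟩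
    show φ m = (ρ q.out)⁻¹ * (x : H)
    rw [hx, inv_mul_cancel_left]
  exact Subgroup.finiteIndex_of_finite_quotient

theorem fE_open (h : Fct ι ρ ρ' φ) [ι.range.FiniteIndex] : IsOpenMap h.fE := by
  haveI := h.fE_fin
  have h1 : IsOpen ((h.fE.range : Subgroup (EE ρ)) : Set (EE ρ)) := by
    refine Subgroup.isOpen_of_isClosed_of_finiteIndex _ ?_
    rw [MonoidHom.coe_range]
    exact h.fE_emb.isClosed_range
  rw [MonoidHom.coe_range] at h1
  exact (IsOpenEmbedding.mk h.fE_emb.isEmbedding h1).isOpenMap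

end Fct

end one

section fam

variable {I : Type} [Fintype I] {Γ Γ' : Type} {H M : I → Type} [Group Γ] [Group Γ']
  [∀ j, Group (H j)] [∀ j, TopologicalSpace (H j)] [∀ j, IsTopologicalGroup (H j)]
  [∀ j, T2Space (H j)] [∀ j, Group (M j)] [∀ j, TopologicalSpace (M j)]
  {ι : Γ' →* Γ} {ρ : ∀ j, Γ →* H j} {ρ' : ∀ j, Γ' →* M j} {φ : ∀ j, M j →* H j}

/-- the product of the maps -/
def piF (h : ∀ j, Fct ι (ρ j) (ρ' j) (φ j)) : (∀ j, M j) →* ∀ j, EE (ρ j) where
  toFun m j := (h j).fE (m j)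
  map_one' := by funext j; exact map_one _
  map_mul' a b := by funext j; exact map_mul _ _ _

/-- **Density and the lattice property.** -/
theorem denseLattice_over (h : ∀ j, Fct ι (ρ j) (ρ' j) (φ j)) [hn : ι.range.Normal]
    [hf : ι.range.FiniteIndex] (hinj : ∀ γ, (∀ j, ρ j γ = 1) → γ = 1)
    (hlat : IsLattice (MonoidHom.pi ρ').range) :
    SR.St.DenseLattice (MonoidHom.pi fun j => rE (ρ j)) where
  inj := by
    rw [injective_iff_map_eq_one]
    intro γ hγ
    refine hinj γ fun j => ?_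
    have := congrArg Subtype.val (congrFun hγ j)
    exact this
  dense j := rE_dense (ρ j)
  lat := by
    set i : Γ →* ∀ j, EE (ρ j) := MonoidHom.pi fun j => rE (ρ j) with hi
    have hcomm : ∀ x, piF h (MonoidHom.pi ρ' x) = i (ι x) := by
      intro x
      funext j
      exact Subtype.ext ((h j).comm x)
    have hmap : (MonoidHom.pi ρ').range.map (piF h) = ι.range.map i := by
      ext y
      constructor
      · rintro ⟨_, ⟨x, rfl⟩, rfl⟩
        exact ⟨ι x, ⟨x, rfl⟩, (hcomm x).symm⟩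
      · rintro ⟨_, ⟨x, rfl⟩, rfl⟩
        exact ⟨_, ⟨x, rfl⟩, hcomm x⟩
    have hrange : (piF h).range = ⨅ j, ((h j).fE.range).comap (Pi.evalMonoidHom _ j) := by
      ext y
      rw [Subgroup.mem_iInf]
      constructor
      · rintro ⟨m, rfl⟩ j
        exact ⟨m j, rfl⟩
      · intro hy
        choose m hm using hy
        exact ⟨m, funext hm⟩
    haveI : ∀ j, (h j).fE.range.FiniteIndex := fun j => (h j).fE_fin
    refine lat_over (piF h) ?_ ?_ ?_ ?_ hlat ?_ ?_
    · intro a b hab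
      funext j
      exact (h j).fE_emb.injective (congrFun hab j)
    · exact continuous_pi fun j => (h j).fE_emb.continuous.comp (continuous_apply j)
    · exact IsOpenMap.piMap (fun j => (h j).fE_open) (by simp)
    · rw [hrange]
      refine Subgroup.finiteIndex_iInf fun j => ⟨?_⟩
      rw [Subgroup.index_comap]
      exact fun h0 => (h j).fE_fin.index_ne_zero
        (Subgroup.index_eq_zero_of_relIndex_eq_zero h0)
    · rw [hmap]
      rintro _ ⟨x, -, rfl⟩
      exact ⟨x, rfl⟩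
    · rw [hmap]
      refine ⟨fun h0 => hf.index_ne_zero ?_⟩
      have h1 : (ι.range.map i).relIndex i.range = 0 := h0
      rw [MonoidHom.range_eq_map i, ← Subgroup.relIndex_comap, Subgroup.relIndex_top_right] at h1
      have h2 := Subgroup.index_dvd_of_le (Subgroup.le_comap_map i ι.range)
      rw [h1] at h2
      exact Nat.eq_zero_of_zero_dvd h2

end fam

end Vale.Agent.P092.VE628
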