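import Vale.Agent.P092.H628.VE2
import Mathlib.Topology.Algebra.Group.Matrix
import Mathlib.LinearAlgebra.Matrix.GeneralLinearGroup.Basic

/-!
P092 (helper628), project VR, row [V-EX], part 3: `PSL_n → PGL_n`.
-/

set_option linter.all false

open Filter Topology Matrix

namespace Vale.Agent.P092.VE628

/-- `PSL_n` -/
abbrev Ps (n : ℕ) (A : Type) [CommRing A] : Type :=
  SpecialLinearGroup (Fin n) A ⧸ Subgroup.center (SpecialLinearGroup (Fin n) A)

/-- `PGL_n` -/
abbrev Pg (n : ℕ) (A : Type) [CommRing A] : Type := GL (Fin n) A ⧸ Subgroup.center (GL (Fin n) A)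

section gen

variable {n : ℕ} {A K : Type} [CommRing A] [CommRing K]

/-- `PSL_n → PGL_n` -/
def sg (n : ℕ) (A : Type) [CommRing A] : Ps n A →* Pg n A :=
  QuotientGroup.map _ _ SpecialLinearGroup.toGL fun g hg =>
    (SpecialLinearGroup.toGL_mem_center_iff g).2 hg

theorem sg_mk (g : SpecialLinearGroup (Fin n) A) :
    sg n A (QuotientGroup.mk' _ g) = QuotientGroup.mk' _ (SpecialLinearGroup.toGL g) := rfl

theorem sg_injective : Function.Injective (sg n A) := by
  rw [injective_iff_map_eq_one]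
  intro x hx
  obtain ⟨g, rfl⟩ := QuotientGroup.mk'_surjective _ x
  rw [sg_mk] at hx
  exact (QuotientGroup.eq_one_iff g).2
    ((SpecialLinearGroup.toGL_mem_center_iff g).1 ((QuotientGroup.eq_one_iff _).1 hx))

/-- functoriality -/
def gm (n : ℕ) (f : A →+* K) : Pg n A →* Pg n K :=
  QuotientGroup.map _ _ (GeneralLinearGroup.map f) (GeneralLinearGroup.map_center_le f)

theorem gm_mk (f : A →+* K) (g : GL (Fin n) A) :
    gm n f (QuotientGroup.mk' _ g) = QuotientGroup.mk' _ (GeneralLinearGroup.map f g) := rfl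

theorem exists_toGL {g : GL (Fin n) A} (hg : GeneralLinearGroup.det g = 1) :
    ∃ s : SpecialLinearGroup (Fin n) A, SpecialLinearGroup.toGL s = g := by
  have h1 : g ∈ Set.range (SpecialLinearGroup.toGL : SpecialLinearGroup (Fin n) A → _) := by
    rw [SpecialLinearGroup.range_toGL]
    exact hg
  exact h1

theorem det_toGL (s : SpecialLinearGroup (Fin n) A) :
    GeneralLinearGroup.det (SpecialLinearGroup.toGL s) = 1 :=
  Units.ext s.2

theorem mk_mem_sg {g : GL (Fin n) A} (hg : GeneralLinearGroup.det g = 1) :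
    (QuotientGroup.mk' _ g : Pg n A) ∈ (sg n A).range := by
  obtain ⟨s, rfl⟩ := exists_toGL hg
  exact ⟨QuotientGroup.mk' _ s, rfl⟩

theorem sg_normal : (sg n A).range.Normal := by
  refine ⟨?_⟩
  rintro _ ⟨x, rfl⟩ y
  obtain ⟨s, rfl⟩ := QuotientGroup.mk'_surjective _ x
  obtain ⟨g, rfl⟩ := QuotientGroup.mk'_surjective _ y
  rw [sg_mk, ← map_inv, ← map_mul, ← map_mul]
  refine mk_mem_sg ?_
  rw [map_mul, map_mul, det_toGL, map_inv, mul_one, mul_inv_cancel]

end gen

section top

variable {K : Type} [NontriviallyNormedField K] [ProperSpace K] {n : ℕ}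

theorem continuous_sg : Continuous (sg n K) := by
  refine (QuotientGroup.isQuotientMap_mk (N := Subgroup.center _)).continuous_iff.2 ?_
  exact QuotientGroup.continuous_mk.comp SpecialLinearGroup.continuous_toGL

theorem scal_mem (a : Kˣ) : GeneralLinearGroup.scalar (Fin n) a ∈ Subgroup.center (GL (Fin n) K) := by
  rw [GeneralLinearGroup.center_eq_range_scalar]
  exact ⟨a, rfl⟩

/-- `{a • s | s ∈ C}` is closed. -/
theorem closed_scal (hn : n ≠ 0) {C : Set (SpecialLinearGroup (Fin n) K)} (hC : IsClosed C) :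
    IsClosed {g : GL (Fin n) K | ∃ (a : Kˣ) (s : SpecialLinearGroup (Fin n) K), s ∈ C ∧
      g = SpecialLinearGroup.toGL s * GeneralLinearGroup.scalar (Fin n) a} := by
  classical
  rw [isClosed_iff_ultrafilter]
  intro g u hu hD
  set D : Set (GL (Fin n) K) := {g | ∃ (a : Kˣ) (s : SpecialLinearGroup (Fin n) K), s ∈ C ∧
      g = SpecialLinearGroup.toGL s * GeneralLinearGroup.scalar (Fin n) a} with hDdef
  -- the multiplier
  choose! a s hs hgs using (fun (g : GL (Fin n) K) (hg : g ∈ D) => hg)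
  have hval : ∀ h ∈ D, h.1 = (a h : K) • (s h).1 := by
    intro h hh
    have h1 := congrArg Units.val (hgs h hh)
    rw [h1]
    ext i j
    simp [GeneralLinearGroup.scalar, mul_comm]
  have hdet : ∀ h ∈ D, (a h : K) ^ n = h.1.det := by
    intro h hh
    rw [hval h hh, det_smul, Fintype.card_fin, (s h).2, mul_one]
  have hmat : Tendsto (fun h : GL (Fin n) K => h.1) u (𝓝 g.1) :=
    (Units.continuous_val.tendsto g).mono_left hu
  have hdt : Tendsto (fun h : GL (Fin n) K => h.1.det) u (𝓝 g.1.det) :=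
    ((continuous_id.matrix_det).tendsto g.1).comp hmat
  have hbd : ∀ᶠ h in (u : Filter (GL (Fin n) K)), ‖(a h : K)‖ ≤ ‖g.1.det‖ + 1 := by
    have h1 : ∀ᶠ h in (u : Filter (GL (Fin n) K)), ‖h.1.det‖ < ‖g.1.det‖ + 1 :=
      hdt.norm.eventually_lt_const (lt_add_one _)
    filter_upwards [h1, hD] with h hh hhD
    rw [← hdet h hhD, norm_pow] at hh
    by_contra hcon
    push Not at hcon
    have h2 : (1 : ℝ) ≤ ‖(a h : K)‖ := by
      have := norm_nonneg g.1.det
      linarith
    have h3 : ‖(a h : K)‖ ≤ ‖(a h : K)‖ ^ n := le_self_pow₀ h2 hn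
    linarith
  have hcpt : ∃ b : K, Tendsto (fun h => (a h : K)) u (𝓝 b) := by
    have hc := isCompact_closedBall (0 : K) (‖g.1.det‖ + 1)
    obtain ⟨b, -, hb⟩ := hc.ultrafilter_le_nhds (u.map fun h => (a h : K)) (by
      rw [Ultrafilter.coe_map, Filter.le_principal_iff, Filter.mem_map]
      filter_upwards [hbd] with h hh
      simpa using hh)
    exact ⟨b, hb⟩
  obtain ⟨b, hb⟩ := hcpt
  have hbn : b ^ n = g.1.det := by
    refine tendsto_nhds_unique ((hb.pow n).congr' ?_) hdt
    filter_upwards [hD] with h hh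
    exact hdet h hh
  have hg0 : g.1.det ≠ 0 := (GeneralLinearGroup.det g).ne_zero
  have hb0 : b ≠ 0 := by
    intro h0
    rw [h0, zero_pow hn] at hbn
    exact hg0 hbn.symm
  have hlim : Tendsto (fun h => (s h).1) u (𝓝 (b⁻¹ • g.1)) := by
    refine ((hb.inv₀ hb0).smul hmat).congr' ?_
    filter_upwards [hD] with h hh
    rw [hval h hh, inv_smul_smul₀ (a h).ne_zero]
  have hcl : IsClosed ((fun s : SpecialLinearGroup (Fin n) K => s.1) '' C) :=
    SpecialLinearGroup.isClosedEmbedding_val.isClosedMap _ hC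
  have hmem : b⁻¹ • g.1 ∈ (fun s : SpecialLinearGroup (Fin n) K => s.1) '' C := by
    refine hcl.mem_of_tendsto hlim ?_
    filter_upwards [hD] with h hh
    exact ⟨s h, hs h hh, rfl⟩
  obtain ⟨s0, hs0, hs1⟩ := hmem
  refine ⟨Units.mk0 b hb0, s0, hs0, Units.ext ?_⟩
  have h2 : s0.1 = b⁻¹ • g.1 := hs1
  have h3 : g.1 = b • s0.1 := by rw [h2, smul_inv_smul₀ hb0]
  rw [h3]
  ext i j
  simp [GeneralLinearGroup.scalar, mul_comm]

theorem sg_closed (hn : n ≠ 0) : IsClosedEmbedding (sg n K) := by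
  refine IsClosedEmbedding.of_continuous_injective_isClosedMap continuous_sg sg_injective ?_
  intro C hC
  have hq := QuotientGroup.isQuotientMap_mk (N := Subgroup.center (GL (Fin n) K))
  rw [← hq.isClosed_preimage]
  have hC' : IsClosed ((QuotientGroup.mk' (Subgroup.center (SpecialLinearGroup (Fin n) K))) ⁻¹' C) :=
    hC.preimage QuotientGroup.continuous_mk
  have h1 := closed_scal hn hC'
  convert h1 using 1
  ext g
  constructor
  · rintro ⟨x, hx, hxg⟩
    obtain ⟨s, rfl⟩ := QuotientGroup.mk'_surjective _ x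
    rw [sg_mk] at hxg
    have h2 : (SpecialLinearGroup.toGL s)⁻¹ * g ∈ Subgroup.center (GL (Fin n) K) :=
      QuotientGroup.eq.1 hxg
    rw [GeneralLinearGroup.center_eq_range_scalar] at h2
    obtain ⟨a, ha⟩ := h2
    exact ⟨a, s, hx, by rw [ha, mul_inv_cancel_left]⟩
  · rintro ⟨a, s, hs, rfl⟩
    refine ⟨QuotientGroup.mk' _ s, hs, ?_⟩
    rw [sg_mk]
    refine QuotientGroup.eq.2 ?_
    rw [inv_mul_cancel_left]
    exact scal_mem a

/-- `PGL_n(K)` is Hausdorff. -/
theorem t2_Pg : T2Space (Pg n K) := by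
  haveI : IsClosed ((Subgroup.center (GL (Fin n) K) : Subgroup (GL (Fin n) K)) :
      Set (GL (Fin n) K)) := by
    have h1 : ((Subgroup.center (GL (Fin n) K) : Subgroup (GL (Fin n) K)) : Set (GL (Fin n) K)) =
        ⋂ y : GL (Fin n) K, {x | y * x = x * y} := by
      ext x
      simp only [SetLike.mem_coe, Subgroup.mem_center_iff, Set.mem_iInter, Set.mem_setOf_eq]
    rw [h1]
    exact isClosed_iInter fun y => isClosed_eq (continuous_const.mul continuous_id)
      (continuous_id.mul continuous_const)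
  haveI : T3Space (Pg n K) := inferInstance
  infer_instance

end top

end Vale.Agent.P092.VE628
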