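import Vale.Agent.P092.H628.VE3
import Vale.Agent.P092.H387.ExN1

/-!
P092 (helper628), project VR, row [V-EX], part 4: `PSL_n(ℤ[1/N])` has finite index in
`PGL_n(ℤ[1/N])`; `PGL_n(ℤ[1/N])` is ICC.
-/

set_option linter.all false

open Set Filter Topology Matrix

namespace Vale.Agent.P092.VE628

open Vale.Agent.P092.H387 (Zi)
open Vale.Agent.P092.H387.N

/-! ### The units of `ℤ[1/N]` -/

section units

variable (N : ℕ) [hN : Fact (1 < N)]

instance nontrivial_Zi : Nontrivial (Zi N) :=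
  (emb N none).domain_nontrivial

theorem dvd_of_isUnit {p : ℕ} (hp : p.Prime) (h : IsUnit ((p : ℕ) : Zi N)) : p ∣ N := by
  by_contra hpN
  haveI : Fact p.Prime := ⟨hp⟩
  have hu : IsUnit (Int.castRingHom (ZMod p) (N : ℤ)) := by
    have h1 : ((N : ℕ) : ZMod p) ≠ 0 := fun h0 => hpN ((ZMod.natCast_eq_zero_iff N p).1 h0)
    rw [isUnit_iff_ne_zero]
    simpa using h1
  have h2 := h.map (IsLocalization.Away.lift (S := Zi N) (N : ℤ) hu)
  rw [map_natCast] at h2
  simp at h2

/-- generators of the group of units -/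
def gens : Set (Zi N)ˣ := {u | u = -1 ∨ ∃ p ∈ N.primeFactors, (u : Zi N) = (p : ℕ)}

theorem finite_gens : (gens N).Finite := by
  have h1 : (gens N) ⊆ {-1} ∪ ⋃ p ∈ N.primeFactors, {u : (Zi N)ˣ | (u : Zi N) = (p : ℕ)} := by
    rintro u (hu | ⟨p, hp, hu⟩)
    · exact Or.inl hu
    · exact Or.inr (Set.mem_biUnion hp hu)
  refine Set.Finite.subset ((Set.finite_singleton _).union ?_) h1
  refine N.primeFactors.finite_toSet.biUnion fun p _ => Set.Subsingleton.finite ?_
  intro u hu v hv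
  exact Units.ext (hu.trans hv.symm)

theorem mem_closure_nat (a : ℕ) : ∀ u : (Zi N)ˣ, (u : Zi N) = (a : ℕ) →
    u ∈ Subgroup.closure (gens N) := by
  induction a using induction_on_primes with
  | zero =>
    intro u hu
    rw [Nat.cast_zero] at hu
    exact absurd hu u.ne_zero
  | one =>
    intro u hu
    rw [Nat.cast_one] at hu
    rw [show u = 1 from Units.ext hu]
    exact Subgroup.one_mem _
  | prime_mul p a hp ih =>
    intro u hu
    rw [Nat.cast_mul] at hu
    have hpu : IsUnit ((p : ℕ) : Zi N) := isUnit_of_mul_isUnit_left (hu ▸ u.isUnit)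
    obtain ⟨w, hw⟩ := hpu
    have hpN : p ∈ N.primeFactors :=
      Nat.mem_primeFactors.2 ⟨hp, dvd_of_isUnit N hp (hw ▸ w.isUnit), N_ne N⟩
    have h1 : ((w⁻¹ * u : (Zi N)ˣ) : Zi N) = (a : ℕ) := by
      rw [Units.val_mul, hu, ← hw, Units.inv_mul_cancel_left]
    have h2 := (Subgroup.closure (gens N)).mul_mem
      (Subgroup.subset_closure (show w ∈ gens N from Or.inr ⟨p, hpN, hw⟩)) (ih _ h1)
    rwa [mul_inv_cancel_left] at h2

theorem closure_gens : Subgroup.closure (gens N) = ⊤ := by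
  rw [Subgroup.eq_top_iff']
  intro u
  obtain ⟨k, m, h⟩ := exists_repN N u
  obtain ⟨w, hw⟩ := isUnit_N N
  have hwm : w ∈ Subgroup.closure (gens N) := mem_closure_nat N N w hw
  have h1 : ((u * w ^ k : (Zi N)ˣ) : Zi N) = (m : Zi N) := by
    rw [Units.val_mul, Units.val_pow_eq_pow_val, hw, h]
  have h2 : u * w ^ k ∈ Subgroup.closure (gens N) := by
    rcases Int.natAbs_eq m with hm | hm
    · refine mem_closure_nat N m.natAbs _ ?_
      rw [h1]
      conv_lhs => rw [hm]
      rw [Int.cast_natCast]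
    · have h3 : ((-1 * (u * w ^ k) : (Zi N)ˣ) : Zi N) = (m.natAbs : ℕ) := by
        rw [Units.val_mul, h1, Units.val_neg, Units.val_one]
        conv_lhs => rw [hm]
        rw [Int.cast_neg, Int.cast_natCast]
        ring
      have h4 := mem_closure_nat N m.natAbs _ h3
      have h5 : (-1 : (Zi N)ˣ) ∈ Subgroup.closure (gens N) :=
        Subgroup.subset_closure (Or.inl rfl)
      exact (Subgroup.mul_mem_cancel_left _ h5).1 h4
  exact (Subgroup.mul_mem_cancel_right _ (Subgroup.pow_mem _ hwm k)).1 h2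

theorem fg_units : Group.FG (Zi N)ˣ :=
  Group.fg_iff.2 ⟨gens N, closure_gens N, finite_gens N⟩

theorem finite_units_quot {n : ℕ} (hn : n ≠ 0) :
    Finite ((Zi N)ˣ ⧸ (powMonoidHom n : (Zi N)ˣ →* (Zi N)ˣ).range) := by
  haveI := fg_units N
  haveI : Group.FG ((Zi N)ˣ ⧸ (powMonoidHom n : (Zi N)ˣ →* (Zi N)ˣ).range) := inferInstance
  refine CommGroup.finite_of_fg_torsion _ ?_
  intro x
  obtain ⟨u, rfl⟩ := QuotientGroup.mk'_surjective _ x
  rw [isOfFinOrder_iff_pow_eq_one]
  refine ⟨n, Nat.pos_of_ne_zero hn, ?_⟩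
  rw [← map_pow]
  exact (QuotientGroup.eq_one_iff _).2 ⟨u, rfl⟩

end units

/-! ### `PSL_n(A)` has finite index in `PGL_n(A)` -/

section index

variable {A : Type} [CommRing A] {n : ℕ}

/-- the determinant modulo `n`-th powers -/
def dt (n : ℕ) (A : Type) [CommRing A] : Pg n A →* Aˣ ⧸ (powMonoidHom n : Aˣ →* Aˣ).range :=
  QuotientGroup.map _ _ GeneralLinearGroup.det fun g hg => by
    rw [GeneralLinearGroup.center_eq_range_scalar] at hg
    obtain ⟨a, rfl⟩ := hg
    refine ⟨a, Units.ext ?_⟩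
    simp [GeneralLinearGroup.scalar]

theorem ker_dt : (dt n A).ker = (sg n A).range := by
  ext x
  obtain ⟨g, rfl⟩ := QuotientGroup.mk'_surjective _ x
  constructor
  · intro hx
    have h1 : GeneralLinearGroup.det g ∈ (powMonoidHom n : Aˣ →* Aˣ).range :=
      (QuotientGroup.eq_one_iff _).1 hx
    obtain ⟨a, ha⟩ := h1
    have ha' : a ^ n = GeneralLinearGroup.det g := ha
    have h2 : (QuotientGroup.mk' _ g : Pg n A) =
        QuotientGroup.mk' _ (g * (GeneralLinearGroup.scalar (Fin n) a)⁻¹) := by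
      refine QuotientGroup.eq.2 ?_
      rw [inv_mul_cancel_left]
      refine Subgroup.inv_mem _ ?_
      rw [GeneralLinearGroup.center_eq_range_scalar]
      exact ⟨a, rfl⟩
    rw [h2]
    refine mk_mem_sg ?_
    have h3 : GeneralLinearGroup.det (GeneralLinearGroup.scalar (Fin n) a) = a ^ n := by
      refine Units.ext ?_
      simp [GeneralLinearGroup.scalar]
    rw [map_mul, map_inv, h3, ha', mul_inv_cancel]
  · rintro ⟨y, hy⟩
    obtain ⟨s, rfl⟩ := QuotientGroup.mk'_surjective _ y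
    rw [← hy, MonoidHom.mem_ker, sg_mk]
    show QuotientGroup.mk' _ (GeneralLinearGroup.det (SpecialLinearGroup.toGL s)) = 1
    rw [det_toGL, map_one]

theorem sg_fi (h : Finite (Aˣ ⧸ (powMonoidHom n : Aˣ →* Aˣ).range)) :
    (sg n A).range.FiniteIndex := by
  rw [← ker_dt]
  exact Subgroup.finiteIndex_ker _

end index

/-! ### ICC -/

section icc

/-- A group with a normal ICC subgroup with trivial centraliser is ICC. -/
theorem icc_over {Γ Γ' : Type} [Group Γ] [Group Γ'] (ι : Γ' →* Γ) (hι : Function.Injective ι)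
    (hn : ι.range.Normal)
    (h' : ∀ g : Γ', g ≠ 1 → Set.Infinite {y | ∃ h, y = h * g * h⁻¹})
    (hc : ∀ g : Γ, (∀ x, ι x * g = g * ι x) → g = 1) :
    ∀ g : Γ, g ≠ 1 → Set.Infinite {y | ∃ h, y = h * g * h⁻¹} := by
  intro g hg hfin
  refine hg (hc g fun x => ?_)
  obtain ⟨z, hz⟩ : ι x * g * (ι x)⁻¹ * g⁻¹ ∈ ι.range := by
    have h1 := hn.conj_mem _ ⟨x⁻¹, rfl⟩ g
    have h2 := ι.range.mul_mem ⟨x, rfl⟩ h1
    rw [map_inv] at h2
    have e : ι x * g * (ι x)⁻¹ * g⁻¹ = ι x * (g * (ι x)⁻¹ * g⁻¹) := by group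
    rw [e]
    exact h2
  have hz1 : z = 1 := by
    by_contra hz1
    refine h' z hz1 ?_
    have hfin2 := (hfin.prod hfin).image fun p : Γ × Γ => p.1 * p.2⁻¹
    refine Set.Finite.of_finite_image (f := ι) (hfin2.subset ?_) hι.injOn
    rintro _ ⟨_, ⟨y, rfl⟩, rfl⟩
    refine ⟨((ι y * ι x) * g * (ι y * ι x)⁻¹, ι y * g * (ι y)⁻¹), ⟨⟨_, rfl⟩, ⟨_, rfl⟩⟩, ?_⟩
    show (ι y * ι x) * g * (ι y * ι x)⁻¹ * (ι y * g * (ι y)⁻¹)⁻¹ = ι (y * z * y⁻¹)
    rw [map_mul, map_mul, map_inv, hz]
    group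
  rw [hz1, map_one] at hz
  have h3 := mul_inv_eq_one.1 hz.symm
  exact mul_inv_eq_iff_eq_mul.1 h3

variable {A : Type} [CommRing A] [IsDomain A] [CharZero A] {n : ℕ}

/-- `PSL_n(A)` has trivial centraliser in `PGL_n(A)`. -/
theorem cent_Pg (hn : n ≠ 0) (g : Pg n A) (h : ∀ x, sg n A x * g = g * sg n A x) : g = 1 := by
  obtain ⟨g, rfl⟩ := QuotientGroup.mk'_surjective _ g
  refine (QuotientGroup.eq_one_iff g).2 ?_
  rw [GeneralLinearGroup.mem_center_iff_val_mem_range_scalar]
  refine Matrix.mem_range_scalar_of_commute_transvectionStruct fun t => ?_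
  set s : SpecialLinearGroup (Fin n) A := ⟨t.toMatrix, by simp⟩ with hs
  have h1 := h (QuotientGroup.mk' _ s)
  rw [sg_mk, ← map_mul, ← map_mul] at h1
  have h2 : (SpecialLinearGroup.toGL s * g)⁻¹ * (g * SpecialLinearGroup.toGL s) ∈
      Subgroup.center (GL (Fin n) A) := QuotientGroup.eq.1 h1
  rw [GeneralLinearGroup.center_eq_range_scalar] at h2
  obtain ⟨a, ha⟩ := h2
  -- `g s = s g a`
  have h3 : g * SpecialLinearGroup.toGL s =
      SpecialLinearGroup.toGL s * g * GeneralLinearGroup.scalar (Fin n) a := by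
    rw [ha, mul_inv_cancel_left]
  have h4 : g * SpecialLinearGroup.toGL s * g⁻¹ =
      SpecialLinearGroup.toGL s * GeneralLinearGroup.scalar (Fin n) a := by
    have h5 : GeneralLinearGroup.scalar (Fin n) a ∈ Subgroup.center (GL (Fin n) A) := by
      rw [GeneralLinearGroup.center_eq_range_scalar]
      exact ⟨a, rfl⟩
    rw [h3, mul_assoc, mul_assoc, ← Subgroup.mem_center_iff.1 h5 g⁻¹, mul_inv_cancel_left]
  have htr : (g.1 * t.toMatrix * (g⁻¹).1).trace = (t.toMatrix * ((a : A) • 1)).trace := by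
    have h6 := congrArg (fun x : GL (Fin n) A => x.1.trace) h4
    have h7 : (GeneralLinearGroup.scalar (Fin n) a).1 = (a : A) • (1 : Matrix (Fin n) (Fin n) A) := by
      ext i j
      simp [GeneralLinearGroup.scalar, Matrix.one_apply, Matrix.diagonal_apply]
    show (g * SpecialLinearGroup.toGL s * g⁻¹).1.trace = _
    rw [← h7]
    exact h6
  have htt : t.toMatrix.trace = (n : A) := by
    rw [TransvectionStruct.toMatrix, transvection, Matrix.trace_add, Matrix.trace_one,
      Fintype.card_fin, Matrix.trace_single_eq_of_ne _ _ _ t.hij, add_zero]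
  rw [Matrix.trace_mul_comm, ← mul_assoc, show (g⁻¹).1 * g.1 = 1 from by
    rw [← Units.val_mul, inv_mul_cancel, Units.val_one], one_mul, mul_smul_comm, mul_one,
    Matrix.trace_smul, htt, smul_eq_mul] at htr
  have hn' : (n : A) ≠ 0 := Nat.cast_ne_zero.2 hn
  have ha1 : (a : A) = 1 := by
    have h8 : (a : A) * n = 1 * n := by rw [← htr, one_mul]
    exact mul_right_cancel₀ hn' h8
  have ha2 : a = 1 := Units.ext ha1
  rw [ha2, map_one, mul_one] at h3
  exact (congrArg Units.val h3).symm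

end icc

end Vale.Agent.P092.VE628
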