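import Vale.Agent.P092.H628.VE4
import Vale.Agent.P092.H387.PsF
import Vale.Agent.P092.VR.St

/-!
P092 (helper628), project VR, row [V-EX], part 5: `PGL_n(ℤ[1/N])`, `n ≥ 2`, `N ≥ 2`, is in the class of
the final statement.
-/

set_option linter.all false

open Set Filter Topology Matrix
open Vale.Agent.P092.H515.St

namespace Vale.Agent.P092.VE628

open Vale.Agent.P092.H387 (Zi)
open Vale.Agent.P092.H387.N

/-- The criterion. -/
theorem classLatticeV_of {I : Type} [Fintype I] {Γ Γ' : Type} {H M : I → Type} [Group Γ] [Group Γ']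
    [∀ j, Group (H j)] [∀ j, TopologicalSpace (H j)] [∀ j, IsTopologicalGroup (H j)]
    [∀ j, T2Space (H j)] [∀ j, Group (M j)] [∀ j, TopologicalSpace (M j)]
    {ι : Γ' →* Γ} {ρ : ∀ j, Γ →* H j} {ρ' : ∀ j, Γ' →* M j} {φ : ∀ j, M j →* H j}
    (h : ∀ j, Fct ι (ρ j) (ρ' j) (φ j)) (hn : ι.range.Normal) (hf : ι.range.FiniteIndex)
    (hinj : ∀ γ, (∀ j, ρ j γ = 1) → γ = 1) (hlat : IsLattice (MonoidHom.pi ρ').range)
    (hicc : SR.St.ICC Γ) (hcls : ∀ j, PC.StF.Cls (M j)) : VR.St.ClassLatticeV Γ :=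
  ⟨hicc, I, inferInstance, fun j => EE (ρ j), inferInstance, inferInstance,
    MonoidHom.pi fun j => rE (ρ j), fun j => ⟨inferInstance, M j, inferInstance, inferInstance,
      (h j).fE, hcls j, (h j).fE_emb.continuous, (h j).fE_emb.injective, (h j).fE_open,
      (h j).fE_normal, (h j).fE_fin⟩, denseLattice_over h hinj hlat⟩

theorem gm_injective {A K : Type} [CommRing A] [CommRing K] {n : ℕ} (f : A →+* K)
    (hf : Function.Injective f) : Function.Injective (gm n f) := by
  rw [injective_iff_map_eq_one]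
  intro x hx
  obtain ⟨g, rfl⟩ := QuotientGroup.mk'_surjective _ x
  rw [gm_mk] at hx
  have h1 := (QuotientGroup.eq_one_iff _).1 hx
  refine (QuotientGroup.eq_one_iff g).2 ?_
  rw [GeneralLinearGroup.mem_center_iff_val_mem_range_scalar] at h1 ⊢
  obtain ⟨r, hr⟩ := h1
  have hent : ∀ i j, f (g.1 i j) = if i = j then r else 0 := by
    intro i j
    have h2 := congrFun (congrFun hr i) j
    rw [Matrix.scalar_apply, Matrix.diagonal_apply] at h2
    exact h2.symm
  rcases Nat.eq_zero_or_pos n with rfl | hpos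
  · exact ⟨0, Subsingleton.elim _ _⟩
  refine ⟨g.1 ⟨0, hpos⟩ ⟨0, hpos⟩, ?_⟩
  ext i j
  apply hf
  rw [hent, Matrix.scalar_apply, Matrix.diagonal_apply]
  split_ifs with hij
  · rw [hent, if_pos rfl]
  · exact map_zero f

theorem gm_sg {A K : Type} [CommRing A] [Field K] {n : ℕ} (f : A →+* K) (x : Ps n A) :
    sg n K (pmap f n x) = gm n f (sg n A x) := by
  obtain ⟨s, rfl⟩ := QuotientGroup.mk'_surjective _ x
  rw [pmap_mk, sg_mk, sg_mk, gm_mk]
  exact congrArg _ (Units.ext rfl)

theorem charZero_Zi (N : ℕ) [Fact (1 < N)] : CharZero (Zi N) := by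
  refine ⟨fun a b hab => ?_⟩
  have h1 := congrArg (emb N none) hab
  rw [map_natCast, map_natCast] at h1
  exact Nat.cast_injective h1

/-- **`PGL_n(ℤ[1/N])`, `n ≥ 2`, `N ≥ 2`, is in the class of the final statement.** -/
theorem classV_PGLN {n N : ℕ} (h2 : 2 ≤ n) (hN : 2 ≤ N) :
    VR.St.ClassLatticeV (GL (Fin n) (Localization.Away (N : ℤ)) ⧸
      Subgroup.center (GL (Fin n) (Localization.Away (N : ℤ)))) := by
  haveI : Fact (1 < N) := ⟨hN⟩
  obtain ⟨m, rfl⟩ : ∃ m, n = m + 1 := ⟨n - 1, by omega⟩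
  haveI : IsDomain (Zi N) := Function.Injective.isDomain (emb N none) (emb_injective N none)
  haveI : CharZero (Zi N) := charZero_Zi N
  haveI : ∀ j : Option (PF N), T2Space (Pg (m + 1) (KK N j)) := fun j => t2_Pg
  refine classLatticeV_of (I := Option (PF N)) (ι := sg (m + 1) (Zi N))
    (ρ := fun j => gm (m + 1) (emb N j)) (ρ' := fun j => pq (m + 1) N j)
    (φ := fun j => sg (m + 1) (KK N j)) (fun j => ?_) sg_normal
    (sg_fi (finite_units_quot N (by omega))) (fun γ hγ => ?_) (pq_lattice N m) ?_ ?_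
  · exact ⟨sg_closed (by omega), fun x => gm_sg (emb N j) x, pq_dense (m + 1) N j⟩
  · exact gm_injective (emb N none) (emb_injective N none) ((hγ none).trans (map_one _).symm)
  · exact icc_over (sg (m + 1) (Zi N)) sg_injective sg_normal (icc_PSLN (m + 1) N)
      (cent_Pg (by omega))
  · exact clsF_PGK h2 N

end Vale.Agent.P092.VE628
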